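import Crest.Agent.R220.Defs

/-!
# Row 220 (S0341): the Gauss equation for `(X, Y, Z)` in orthogonal coordinates

For a smooth map `F = (X,Y,Z)` which is isometric for `(1+h1) dx² + (1+h2) dy²` on an open set,
`{X,Y}⁴ · kapf X Y Z = Brioschi (1+h1, 0, 1+h2)`.
-/

set_option autoImplicit false

open scoped ContDiff Topology

namespace Crest.Agent.R220

namespace Gauss

/-! ### small calculus for `dx`, `dy` -/

lemma sm_dx {f : Pl → ℝ} (hf : Sm f) : Sm (dx f) := by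
  have h : ContDiff ℝ ∞ (fderiv ℝ f) := hf.fderiv_right (by exact_mod_cast le_top)
  exact h.clm_apply contDiff_const

lemma sm_dy {f : Pl → ℝ} (hf : Sm f) : Sm (dy f) := by
  have h : ContDiff ℝ ∞ (fderiv ℝ f) := hf.fderiv_right (by exact_mod_cast le_top)
  exact h.clm_apply contDiff_const

lemma sm_diff {f : Pl → ℝ} (hf : Sm f) (z : Pl) : DifferentiableAt ℝ f z :=
  hf.contDiffAt.differentiableAt (by simp)

lemma dx_congr {f g : Pl → ℝ} {z : Pl} (h : f =ᶠ[𝓝 z] g) : dx f z = dx g z := by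
  unfold dx; rw [h.fderiv_eq]

lemma dy_congr {f g : Pl → ℝ} {z : Pl} (h : f =ᶠ[𝓝 z] g) : dy f z = dy g z := by
  unfold dy; rw [h.fderiv_eq]



lemma dx_add {f g : Pl → ℝ} {z : Pl} (hf : DifferentiableAt ℝ f z) (hg : DifferentiableAt ℝ g z) :
    dx (fun w => f w + g w) z = dx f z + dx g z := by
  unfold dx; rw [fderiv_fun_add hf hg]; rfl

lemma dy_add {f g : Pl → ℝ} {z : Pl} (hf : DifferentiableAt ℝ f z) (hg : DifferentiableAt ℝ g z) :
    dy (fun w => f w + g w) z = dy f z + dy g z := by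
  unfold dy; rw [fderiv_fun_add hf hg]; rfl

lemma dx_mul {f g : Pl → ℝ} {z : Pl} (hf : DifferentiableAt ℝ f z) (hg : DifferentiableAt ℝ g z) :
    dx (fun w => f w * g w) z = dx f z * g z + f z * dx g z := by
  unfold dx; rw [fderiv_fun_mul hf hg]; simp; ring

lemma dy_mul {f g : Pl → ℝ} {z : Pl} (hf : DifferentiableAt ℝ f z) (hg : DifferentiableAt ℝ g z) :
    dy (fun w => f w * g w) z = dy f z * g z + f z * dy g z := by
  unfold dy; rw [fderiv_fun_mul hf hg]; simp; ring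

lemma dx_const_mul {f : Pl → ℝ} {z : Pl} (c : ℝ) :
    dx (fun w => c * f w) z = c * dx f z := by
  unfold dx
  have : (fun w => c * f w) = c • f := rfl
  rw [this, fderiv_const_smul_field]; rfl

lemma dy_const_mul {f : Pl → ℝ} {z : Pl} (c : ℝ) :
    dy (fun w => c * f w) z = c * dy f z := by
  unfold dy
  have : (fun w => c * f w) = c • f := rfl
  rw [this, fderiv_const_smul_field]; rfl

lemma dx_dy_comm {f : Pl → ℝ} (hf : Sm f) (z : Pl) : dx (dy f) z = dy (dx f) z := by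
  have h2 : ContDiffAt ℝ 2 f z := (hf.of_le (by norm_cast)).contDiffAt
  have hsymm : IsSymmSndFDerivAt ℝ f z := h2.isSymmSndFDerivAt (by simp)
  have h : ContDiff ℝ ∞ (fderiv ℝ f) := hf.fderiv_right (by exact_mod_cast le_top)
  have hd : DifferentiableAt ℝ (fderiv ℝ f) z := h.contDiffAt.differentiableAt (by simp)
  have e1 : dx (dy f) z = fderiv ℝ (fderiv ℝ f) z (1, 0) (0, 1) := by
    unfold dx dy
    rw [fderiv_clm_apply hd (by simp)]
    simp
  have e2 : dy (dx f) z = fderiv ℝ (fderiv ℝ f) z (0, 1) (1, 0) := by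
    unfold dx dy
    rw [fderiv_clm_apply hd (by simp)]
    simp
  rw [e1, e2]
  exact hsymm.eq _ _

/-- Gram determinant identity in `ℝ³` -/
lemma gram (x1 x2 x3 y1 y2 y3 a1 a2 a3 b1 b2 b3 : ℝ) :
    ((x2 * y3 - x3 * y2) * a1 + (x3 * y1 - x1 * y3) * a2 + (x1 * y2 - x2 * y1) * a3) *
      ((x2 * y3 - x3 * y2) * b1 + (x3 * y1 - x1 * y3) * b2 + (x1 * y2 - x2 * y1) * b3) =
    (x1 ^ 2 + x2 ^ 2 + x3 ^ 2) * (y1 ^ 2 + y2 ^ 2 + y3 ^ 2) * (a1 * b1 + a2 * b2 + a3 * b3)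
      - (x1 ^ 2 + x2 ^ 2 + x3 ^ 2) * (a1 * y1 + a2 * y2 + a3 * y3) * (b1 * y1 + b2 * y2 + b3 * y3)
      - (y1 ^ 2 + y2 ^ 2 + y3 ^ 2) * (a1 * x1 + a2 * x2 + a3 * x3) * (b1 * x1 + b2 * x2 + b3 * x3)
      + (x1 * y1 + x2 * y2 + x3 * y3) *
        ((a1 * x1 + a2 * x2 + a3 * x3) * (b1 * y1 + b2 * y2 + b3 * y3)
          + (a1 * y1 + a2 * y2 + a3 * y3) * (b1 * x1 + b2 * x2 + b3 * x3))
      - (x1 * y1 + x2 * y2 + x3 * y3) ^ 2 * (a1 * b1 + a2 * b2 + a3 * b3) := by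
  ring

/-- the algebra behind the Gauss equation -/
lemma alg (x1 x2 y1 y2 z1 z2 a11 a12 a22 b11 b12 b22 c11 c12 c22 a112 a122 b112 b122 c112 c122
    p q px py qx qy : ℝ)
    (hz1 : p * x1 + q * y1 = z1) (hz2 : p * x2 + q * y2 = z2)
    (h11 : c11 = px * x1 + p * a11 + (qx * y1 + q * b11))
    (h21 : c12 = py * x1 + p * a12 + (qy * y1 + q * b12))
    (h12 : c12 = px * x2 + p * a12 + (qx * y2 + q * b12))
    (h22 : c22 = py * x2 + p * a22 + (qy * y2 + q * b22))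
    (hF : 0 = x1 * x2 + y1 * y2 + z1 * z2)
    (hFx : 0 = (a11 * x2 + x1 * a12) + (b11 * y2 + y1 * b12) + (c11 * z2 + z1 * c12))
    (hFy : 0 = (a12 * x2 + x1 * a22) + (b12 * y2 + y1 * b22) + (c12 * z2 + z1 * c22))
    (hFxy : 0 = ((a112 * x2 + a12 * a12) + (b112 * y2 + b12 * b12) + (c112 * z2 + c12 * c12))
      + ((a11 * a22 + x1 * a122) + (b11 * b22 + y1 * b122) + (c11 * c22 + z1 * c122))) :
    (x1 * y2 - x2 * y1) ^ 3 * (px * qy - py * qx) =
    -((x1 * x1 + y1 * y1 + z1 * z1) * (x2 * x2 + y2 * y2 + z2 * z2) *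
        (2 * ((a12 * a12 + x1 * a122) + (b12 * b12 + y1 * b122) + (c12 * c12 + z1 * c122))
          + 2 * ((a12 * a12 + x2 * a112) + (b12 * b12 + y2 * b112) + (c12 * c12 + z2 * c112)))) / 2
      + (x1 * x1 + y1 * y1 + z1 * z1) *
        ((2 * (x1 * a12 + y1 * b12 + z1 * c12)) * (2 * (x2 * a22 + y2 * b22 + z2 * c22))
          + (2 * (x2 * a12 + y2 * b12 + z2 * c12)) ^ 2) / 4
      + (x2 * x2 + y2 * y2 + z2 * z2) *
        ((2 * (x1 * a11 + y1 * b11 + z1 * c11)) * (2 * (x2 * a12 + y2 * b12 + z2 * c12))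
          + (2 * (x1 * a12 + y1 * b12 + z1 * c12)) ^ 2) / 4 := by
  have B11 : (y1 * z2 - z1 * y2) * a11 + (z1 * x2 - x1 * z2) * b11 + (x1 * y2 - y1 * x2) * c11
      = (x1 * y2 - x2 * y1) * (px * x1 + qx * y1) := by
    rw [← hz1, ← hz2, h11]; ring
  have B22 : (y1 * z2 - z1 * y2) * a22 + (z1 * x2 - x1 * z2) * b22 + (x1 * y2 - y1 * x2) * c22
      = (x1 * y2 - x2 * y1) * (py * x2 + qy * y2) := by
    rw [← hz1, ← hz2, h22]; ring
  have B12 : (y1 * z2 - z1 * y2) * a12 + (z1 * x2 - x1 * z2) * b12 + (x1 * y2 - y1 * x2) * c12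
      = (x1 * y2 - x2 * y1) * (px * x2 + qx * y2) := by
    rw [← hz1, ← hz2, h12]; ring
  have B21 : (y1 * z2 - z1 * y2) * a12 + (z1 * x2 - x1 * z2) * b12 + (x1 * y2 - y1 * x2) * c12
      = (x1 * y2 - x2 * y1) * (py * x1 + qy * y1) := by
    rw [← hz1, ← hz2, h21]; ring
  have L : (x1 * y2 - x2 * y1) ^ 3 * (px * qy - py * qx)
      = ((x1 * y2 - x2 * y1) * (px * x1 + qx * y1)) * ((x1 * y2 - x2 * y1) * (py * x2 + qy * y2))
        - ((x1 * y2 - x2 * y1) * (px * x2 + qx * y2))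
          * ((x1 * y2 - x2 * y1) * (py * x1 + qy * y1)) := by ring
  have g1 := gram x1 y1 z1 x2 y2 z2 a11 b11 c11 a22 b22 c22
  have g2 := gram x1 y1 z1 x2 y2 z2 a12 b12 c12 a12 b12 c12
  rw [L, ← B11, ← B22, ← B21, ← B12]
  linear_combination g1 - g2
    - (x1 ^ 2 + y1 ^ 2 + z1 ^ 2) * (x2 ^ 2 + y2 ^ 2 + z2 ^ 2) * hFxy
    + (x1 ^ 2 + y1 ^ 2 + z1 ^ 2) * (a22 * x2 + b22 * y2 + c22 * z2) * hFx
    + (x2 ^ 2 + y2 ^ 2 + z2 ^ 2) * (a11 * x1 + b11 * y1 + c11 * z1) * hFy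
    + (-((a11 * x1 + b11 * y1 + c11 * z1) * (a22 * x2 + b22 * y2 + c22 * z2)
        + (a11 * x2 + b11 * y2 + c11 * z2) * (a22 * x1 + b22 * y1 + c22 * z1)
        - 2 * (a12 * x1 + b12 * y1 + c12 * z1) * (a12 * x2 + b12 * y2 + c12 * z2))
      + (x1 * x2 + y1 * y2 + z1 * z2) * ((a11 * a22 + b11 * b22 + c11 * c22)
        - (a12 * a12 + b12 * b12 + c12 * c12))) * hF

section

variable {X Y Z : Pl → ℝ}

lemma sm_br (hX : Sm X) (hY : Sm Y) : Sm (br X Y) := by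
  have : br X Y = fun z => dx X z * dy Y z - dy X z * dx Y z := rfl
  rw [this]
  exact ((sm_dx hX).mul (sm_dy hY)).sub ((sm_dy hX).mul (sm_dx hY))

lemma pf_diff (hX : Sm X) (hY : Sm Y) (hZ : Sm Z) {z : Pl} (hj : br X Y z ≠ 0) :
    DifferentiableAt ℝ (pf X Y Z) z := by
  have : pf X Y Z = fun z => br Z Y z * (br X Y z)⁻¹ := rfl
  rw [this]
  exact (sm_diff (sm_br hZ hY) z).fun_mul ((sm_diff (sm_br hX hY) z).fun_inv hj)

lemma qf_diff (hX : Sm X) (hY : Sm Y) (hZ : Sm Z) {z : Pl} (hj : br X Y z ≠ 0) :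
    DifferentiableAt ℝ (qf X Y Z) z := by
  have : qf X Y Z = fun z => br X Z z * (br X Y z)⁻¹ := rfl
  rw [this]
  exact (sm_diff (sm_br hX hZ) z).fun_mul ((sm_diff (sm_br hX hY) z).fun_inv hj)

lemma dxZ (z : Pl) (hj : br X Y z ≠ 0) :
    pf X Y Z z * dx X z + qf X Y Z z * dx Y z = dx Z z := by
  unfold pf qf
  rw [div_mul_eq_mul_div, div_mul_eq_mul_div, ← add_div, div_eq_iff hj]
  unfold br; ring

lemma dyZ (z : Pl) (hj : br X Y z ≠ 0) :
    pf X Y Z z * dy X z + qf X Y Z z * dy Y z = dy Z z := by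
  unfold pf qf
  rw [div_mul_eq_mul_div, div_mul_eq_mul_div, ← add_div, div_eq_iff hj]
  unfold br; ring

lemma j_near (hX : Sm X) (hY : Sm Y) {z : Pl} (hj : br X Y z ≠ 0) :
    ∀ᶠ w in 𝓝 z, br X Y w ≠ 0 :=
  (sm_br hX hY).continuous.continuousAt.eventually_ne hj

/-- the second fundamental form in terms of the Legendre coordinates -/
lemma hess (hX : Sm X) (hY : Sm Y) (hZ : Sm Z) {z : Pl} (hj : br X Y z ≠ 0) :
    dx (dx Z) z = dx (pf X Y Z) z * dx X z + pf X Y Z z * dx (dx X) z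
        + (dx (qf X Y Z) z * dx Y z + qf X Y Z z * dx (dx Y) z) ∧
    dy (dx Z) z = dy (pf X Y Z) z * dx X z + pf X Y Z z * dy (dx X) z
        + (dy (qf X Y Z) z * dx Y z + qf X Y Z z * dy (dx Y) z) ∧
    dx (dy Z) z = dx (pf X Y Z) z * dy X z + pf X Y Z z * dx (dy X) z
        + (dx (qf X Y Z) z * dy Y z + qf X Y Z z * dx (dy Y) z) ∧
    dy (dy Z) z = dy (pf X Y Z) z * dy X z + pf X Y Z z * dy (dy X) z
        + (dy (qf X Y Z) z * dy Y z + qf X Y Z z * dy (dy Y) z) := by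
  have hp := pf_diff hX hY hZ hj
  have hq := qf_diff hX hY hZ hj
  have e1 : (fun w => pf X Y Z w * dx X w + qf X Y Z w * dx Y w) =ᶠ[𝓝 z] dx Z := by
    filter_upwards [j_near hX hY hj] with w hw using dxZ w hw
  have e2 : (fun w => pf X Y Z w * dy X w + qf X Y Z w * dy Y w) =ᶠ[𝓝 z] dy Z := by
    filter_upwards [j_near hX hY hj] with w hw using dyZ w hw
  have d1 := sm_diff (sm_dx hX) z
  have d2 := sm_diff (sm_dy hX) z
  have d3 := sm_diff (sm_dx hY) z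
  have d4 := sm_diff (sm_dy hY) z
  refine ⟨?_, ?_, ?_, ?_⟩
  · rw [← dx_congr e1, dx_add (hp.fun_mul d1) (hq.fun_mul d3), dx_mul hp d1, dx_mul hq d3]
  · rw [← dy_congr e1, dy_add (hp.fun_mul d1) (hq.fun_mul d3), dy_mul hp d1, dy_mul hq d3]
  · rw [← dx_congr e2, dx_add (hp.fun_mul d2) (hq.fun_mul d4), dx_mul hp d2, dx_mul hq d4]
  · rw [← dy_congr e2, dy_add (hp.fun_mul d2) (hq.fun_mul d4), dy_mul hp d2, dy_mul hq d4]

end

/-- The right hand side of the Gauss equation (Brioschi's formula times `(det g)²`) for the metric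
`(1+h1) dx² + (1+h2) dy²`. -/
noncomputable def brioschi (h1 h2 : Pl → ℝ) (z : Pl) : ℝ :=
  -((1 + h1 z) * (1 + h2 z) * (dy (dy h1) z + dx (dx h2) z)) / 2
    + (1 + h1 z) * (dy h1 z * dy h2 z + dx h2 z ^ 2) / 4
    + (1 + h2 z) * (dx h1 z * dx h2 z + dy h1 z ^ 2) / 4

/-- product sums of three pairs of smooth functions and their derivatives -/
lemma dx_sum3 {a1 b1 a2 b2 a3 b3 : Pl → ℝ} {z : Pl}
    (h1 : Sm a1) (h1' : Sm b1) (h2 : Sm a2) (h2' : Sm b2) (h3 : Sm a3) (h3' : Sm b3) :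
    dx (fun w => a1 w * b1 w + a2 w * b2 w + a3 w * b3 w) z =
      (dx a1 z * b1 z + a1 z * dx b1 z) + (dx a2 z * b2 z + a2 z * dx b2 z)
        + (dx a3 z * b3 z + a3 z * dx b3 z) := by
  have m1 : DifferentiableAt ℝ (fun w => a1 w * b1 w) z := sm_diff (h1.mul h1') z
  have m2 : DifferentiableAt ℝ (fun w => a2 w * b2 w) z := sm_diff (h2.mul h2') z
  have m3 : DifferentiableAt ℝ (fun w => a3 w * b3 w) z := sm_diff (h3.mul h3') z
  rw [dx_add (m1.fun_add m2) m3, dx_add m1 m2, dx_mul (sm_diff h1 z) (sm_diff h1' z),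
    dx_mul (sm_diff h2 z) (sm_diff h2' z), dx_mul (sm_diff h3 z) (sm_diff h3' z)]

lemma dy_sum3 {a1 b1 a2 b2 a3 b3 : Pl → ℝ} {z : Pl}
    (h1 : Sm a1) (h1' : Sm b1) (h2 : Sm a2) (h2' : Sm b2) (h3 : Sm a3) (h3' : Sm b3) :
    dy (fun w => a1 w * b1 w + a2 w * b2 w + a3 w * b3 w) z =
      (dy a1 z * b1 z + a1 z * dy b1 z) + (dy a2 z * b2 z + a2 z * dy b2 z)
        + (dy a3 z * b3 z + a3 z * dy b3 z) := by
  have m1 : DifferentiableAt ℝ (fun w => a1 w * b1 w) z := sm_diff (h1.mul h1') z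
  have m2 : DifferentiableAt ℝ (fun w => a2 w * b2 w) z := sm_diff (h2.mul h2') z
  have m3 : DifferentiableAt ℝ (fun w => a3 w * b3 w) z := sm_diff (h3.mul h3') z
  rw [dy_add (m1.fun_add m2) m3, dy_add m1 m2, dy_mul (sm_diff h1 z) (sm_diff h1' z),
    dy_mul (sm_diff h2 z) (sm_diff h2' z), dy_mul (sm_diff h3 z) (sm_diff h3' z)]

lemma dx_add_const {f : Pl → ℝ} {z : Pl} (c : ℝ) : dx (fun w => c + f w) z = dx f z := by
  unfold dx; rw [fderiv_const_add]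

lemma dy_add_const {f : Pl → ℝ} {z : Pl} (c : ℝ) : dy (fun w => c + f w) z = dy f z := by
  unfold dy; rw [fderiv_const_add]

lemma dx_zero {z : Pl} : dx (fun _ => (0 : ℝ)) z = 0 := by unfold dx; simp

lemma dy_zero {z : Pl} : dy (fun _ => (0 : ℝ)) z = 0 := by unfold dy; simp

end Gauss

open Gauss in
/-- **Gauss equation.** -/
theorem gauss_eq {U : Set Pl} (hU : IsOpen U) {h1 h2 X Y Z : Pl → ℝ} (hX : Sm X) (hY : Sm Y)
    (hZ : Sm Z) (h : IsoOn U h1 h2 X Y Z) {z : Pl} (hz : z ∈ U) (hj : br X Y z ≠ 0) :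
    br X Y z ^ 4 * kapf X Y Z z = brioschi h1 h2 z := by
  have hUz : ∀ᶠ w in 𝓝 z, w ∈ U := hU.mem_nhds hz
  -- the three equations near `z`
  have E0 : ∀ w ∈ U, 1 + h1 w = dx X w * dx X w + dx Y w * dx Y w + dx Z w * dx Z w := by
    intro w hw; rw [← h.g11 w hw]; ring
  have G0 : ∀ w ∈ U, 1 + h2 w = dy X w * dy X w + dy Y w * dy Y w + dy Z w * dy Z w := by
    intro w hw; rw [← h.g22 w hw]; ring
  have F0 : ∀ w ∈ U, (0 : ℝ) = dx X w * dy X w + dx Y w * dy Y w + dx Z w * dy Z w := by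
    intro w hw; rw [← h.g12 w hw]
  have sX1 := sm_dx hX
  have sX2 := sm_dy hX
  have sY1 := sm_dx hY
  have sY2 := sm_dy hY
  have sZ1 := sm_dx hZ
  have sZ2 := sm_dy hZ
  -- first derivatives, valid on all of `U`
  have Ex : ∀ w ∈ U, dx h1 w = 2 * (dx X w * dx (dx X) w + dx Y w * dx (dx Y) w
      + dx Z w * dx (dx Z) w) := by
    intro w hw
    have e : (fun v => 1 + h1 v) =ᶠ[𝓝 w]
        fun v => dx X v * dx X v + dx Y v * dx Y v + dx Z v * dx Z v := by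
      filter_upwards [hU.mem_nhds hw] with v hv using E0 v hv
    rw [← dx_add_const (f := h1) 1, dx_congr e, dx_sum3 sX1 sX1 sY1 sY1 sZ1 sZ1]; ring
  have Ey : ∀ w ∈ U, dy h1 w = 2 * (dx X w * dy (dx X) w + dx Y w * dy (dx Y) w
      + dx Z w * dy (dx Z) w) := by
    intro w hw
    have e : (fun v => 1 + h1 v) =ᶠ[𝓝 w]
        fun v => dx X v * dx X v + dx Y v * dx Y v + dx Z v * dx Z v := by
      filter_upwards [hU.mem_nhds hw] with v hv using E0 v hv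
    rw [← dy_add_const (f := h1) 1, dy_congr e, dy_sum3 sX1 sX1 sY1 sY1 sZ1 sZ1]; ring
  have Gx : ∀ w ∈ U, dx h2 w = 2 * (dy X w * dx (dy X) w + dy Y w * dx (dy Y) w
      + dy Z w * dx (dy Z) w) := by
    intro w hw
    have e : (fun v => 1 + h2 v) =ᶠ[𝓝 w]
        fun v => dy X v * dy X v + dy Y v * dy Y v + dy Z v * dy Z v := by
      filter_upwards [hU.mem_nhds hw] with v hv using G0 v hv
    rw [← dx_add_const (f := h2) 1, dx_congr e, dx_sum3 sX2 sX2 sY2 sY2 sZ2 sZ2]; ring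
  have Gy : ∀ w ∈ U, dy h2 w = 2 * (dy X w * dy (dy X) w + dy Y w * dy (dy Y) w
      + dy Z w * dy (dy Z) w) := by
    intro w hw
    have e : (fun v => 1 + h2 v) =ᶠ[𝓝 w]
        fun v => dy X v * dy X v + dy Y v * dy Y v + dy Z v * dy Z v := by
      filter_upwards [hU.mem_nhds hw] with v hv using G0 v hv
    rw [← dy_add_const (f := h2) 1, dy_congr e, dy_sum3 sX2 sX2 sY2 sY2 sZ2 sZ2]; ring
  have Fx : ∀ w ∈ U, 0 = (dx (dx X) w * dy X w + dx X w * dx (dy X) w)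
      + (dx (dx Y) w * dy Y w + dx Y w * dx (dy Y) w)
      + (dx (dx Z) w * dy Z w + dx Z w * dx (dy Z) w) := by
    intro w hw
    have e : (fun _ => (0 : ℝ)) =ᶠ[𝓝 w]
        fun v => dx X v * dy X v + dx Y v * dy Y v + dx Z v * dy Z v := by
      filter_upwards [hU.mem_nhds hw] with v hv using F0 v hv
    rw [← dx_zero (z := w), dx_congr e, dx_sum3 sX1 sX2 sY1 sY2 sZ1 sZ2]
  have Fy : ∀ w ∈ U, 0 = (dy (dx X) w * dy X w + dx X w * dy (dy X) w)
      + (dy (dx Y) w * dy Y w + dx Y w * dy (dy Y) w)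
      + (dy (dx Z) w * dy Z w + dx Z w * dy (dy Z) w) := by
    intro w hw
    have e : (fun _ => (0 : ℝ)) =ᶠ[𝓝 w]
        fun v => dx X v * dy X v + dx Y v * dy Y v + dx Z v * dy Z v := by
      filter_upwards [hU.mem_nhds hw] with v hv using F0 v hv
    rw [← dy_zero (z := w), dy_congr e, dy_sum3 sX1 sX2 sY1 sY2 sZ1 sZ2]
  -- second derivatives
  have Eyy : dy (dy h1) z = 2 * ((dy (dx X) z * dy (dx X) z + dx X z * dy (dy (dx X)) z)
      + (dy (dx Y) z * dy (dx Y) z + dx Y z * dy (dy (dx Y)) z)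
      + (dy (dx Z) z * dy (dx Z) z + dx Z z * dy (dy (dx Z)) z)) := by
    have e : dy h1 =ᶠ[𝓝 z] fun w => 2 * (dx X w * dy (dx X) w + dx Y w * dy (dx Y) w
      + dx Z w * dy (dx Z) w) := by
      filter_upwards [hUz] with v hv using Ey v hv
    rw [dy_congr e, dy_const_mul, dy_sum3 sX1 (sm_dy sX1) sY1 (sm_dy sY1) sZ1 (sm_dy sZ1)]
  have Gxx : dx (dx h2) z = 2 * ((dx (dy X) z * dx (dy X) z + dy X z * dx (dx (dy X)) z)
      + (dx (dy Y) z * dx (dy Y) z + dy Y z * dx (dx (dy Y)) z)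
      + (dx (dy Z) z * dx (dy Z) z + dy Z z * dx (dx (dy Z)) z)) := by
    have e : dx h2 =ᶠ[𝓝 z] fun w => 2 * (dy X w * dx (dy X) w + dy Y w * dx (dy Y) w
      + dy Z w * dx (dy Z) w) := by
      filter_upwards [hUz] with v hv using Gx v hv
    rw [dx_congr e, dx_const_mul, dx_sum3 sX2 (sm_dx sX2) sY2 (sm_dx sY2) sZ2 (sm_dx sZ2)]
  have Fxy : 0 = ((dx (dy (dx X)) z * dy X z + dy (dx X) z * dx (dy X) z)
        + (dx (dy (dx Y)) z * dy Y z + dy (dx Y) z * dx (dy Y) z)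
        + (dx (dy (dx Z)) z * dy Z z + dy (dx Z) z * dx (dy Z) z))
      + ((dx (dx X) z * dy (dy X) z + dx X z * dx (dy (dy X)) z)
        + (dx (dx Y) z * dy (dy Y) z + dx Y z * dx (dy (dy Y)) z)
        + (dx (dx Z) z * dy (dy Z) z + dx Z z * dx (dy (dy Z)) z)) := by
    have e : (fun _ => (0 : ℝ)) =ᶠ[𝓝 z] fun w =>
        (dy (dx X) w * dy X w + dy (dx Y) w * dy Y w + dy (dx Z) w * dy Z w)
        + (dx X w * dy (dy X) w + dx Y w * dy (dy Y) w + dx Z w * dy (dy Z) w) := by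
      filter_upwards [hUz] with v hv
      rw [Fy v hv]; ring
    have s1 : Sm (fun w => dy (dx X) w * dy X w + dy (dx Y) w * dy Y w + dy (dx Z) w * dy Z w) :=
      (((sm_dy sX1).mul sX2).add ((sm_dy sY1).mul sY2)).add ((sm_dy sZ1).mul sZ2)
    have s2 : Sm (fun w => dx X w * dy (dy X) w + dx Y w * dy (dy Y) w
        + dx Z w * dy (dy Z) w) :=
      ((sX1.mul (sm_dy sX2)).add (sY1.mul (sm_dy sY2))).add (sZ1.mul (sm_dy sZ2))
    rw [← dx_zero (z := z), dx_congr e, dx_add (sm_diff s1 z) (sm_diff s2 z),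
      dx_sum3 (sm_dy sX1) sX2 (sm_dy sY1) sY2 (sm_dy sZ1) sZ2,
      dx_sum3 sX1 (sm_dy sX2) sY1 (sm_dy sY2) sZ1 (sm_dy sZ2)]
  -- commuting derivatives
  have cX : dy (dx X) z = dx (dy X) z := (dx_dy_comm hX z).symm
  have cY : dy (dx Y) z = dx (dy Y) z := (dx_dy_comm hY z).symm
  have cZ : dy (dx Z) z = dx (dy Z) z := (dx_dy_comm hZ z).symm
  have comm' : ∀ {f : Pl → ℝ}, Sm f → dx (dx (dy f)) z = dx (dy (dx f)) z ∧
      dx (dy (dy f)) z = dy (dy (dx f)) z := by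
    intro f hf
    have e : dx (dy f) = dy (dx f) := funext fun w => dx_dy_comm hf w
    refine ⟨by rw [e], ?_⟩
    rw [dx_dy_comm (sm_dy hf) z, e]
  obtain ⟨tX1, tX2⟩ := comm' hX
  obtain ⟨tY1, tY2⟩ := comm' hY
  obtain ⟨tZ1, tZ2⟩ := comm' hZ
  rw [tX1, tY1, tZ1] at Gxx
  rw [tX2, tY2, tZ2] at Fxy
  -- the Hessian in Legendre coordinates
  obtain ⟨q11, q21, q12, q22⟩ := hess hX hY hZ hj
  have dZx := dxZ (Z := Z) z hj
  have dZy := dyZ (Z := Z) z hj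
  have kapE : br X Y z ^ 4 * kapf X Y Z z
      = br X Y z ^ 3 * br (pf X Y Z) (qf X Y Z) z := by
    unfold kapf
    field_simp
  have bE : br X Y z = dx X z * dy Y z - dy X z * dx Y z := rfl
  have bpq : br (pf X Y Z) (qf X Y Z) z
      = dx (pf X Y Z) z * dy (qf X Y Z) z - dy (pf X Y Z) z * dx (qf X Y Z) z := rfl
  have hE := E0 z hz
  have hG := G0 z hz
  have hF := F0 z hz
  have hEx := Ex z hz
  have hEy := Ey z hz
  have hGx := Gx z hz
  have hGy := Gy z hz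
  have hFx := Fx z hz
  have hFy := Fy z hz
  simp only [cX, cY, cZ] at hFy Fxy q21 Eyy hEy
  rw [kapE]
  unfold brioschi
  rw [hE, hG, hEx, hEy, hGx, hGy, Eyy, Gxx, bpq, bE]
  have key := alg (dx X z) (dy X z) (dx Y z) (dy Y z) (dx Z z) (dy Z z)
    (dx (dx X) z) (dx (dy X) z) (dy (dy X) z) (dx (dx Y) z) (dx (dy Y) z) (dy (dy Y) z)
    (dx (dx Z) z) (dx (dy Z) z) (dy (dy Z) z)
    (dx (dy (dx X)) z) (dy (dy (dx X)) z) (dx (dy (dx Y)) z) (dy (dy (dx Y)) z)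
    (dx (dy (dx Z)) z) (dy (dy (dx Z)) z)
    (pf X Y Z z) (qf X Y Z z) (dx (pf X Y Z) z) (dy (pf X Y Z) z)
    (dx (qf X Y Z) z) (dy (qf X Y Z) z)
    dZx dZy q11 q21 q12 q22 hF hFx hFy Fxy
  rw [key]

open Gauss in
/-- scaling of the third coordinate -/
theorem kapf_scale (X Y Z : Pl → ℝ) (A : ℝ) (z : Pl) :
    kapf X Y (fun w => Z w / A) z = kapf X Y Z z / A ^ 2 := by
  have e : (fun w => Z w / A) = fun w => A⁻¹ * Z w := by
    funext w; rw [div_eq_inv_mul]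
  have e1 : dx (fun w => A⁻¹ * Z w) = fun w => A⁻¹ * dx Z w := funext fun w => dx_const_mul _
  have e2 : dy (fun w => A⁻¹ * Z w) = fun w => A⁻¹ * dy Z w := funext fun w => dy_const_mul _
  have hp : pf X Y (fun w => Z w / A) = fun w => A⁻¹ * pf X Y Z w := by
    funext w
    unfold pf br
    rw [e, e1, e2]
    simp only
    ring
  have hq : qf X Y (fun w => Z w / A) = fun w => A⁻¹ * qf X Y Z w := by
    funext w
    unfold qf br
    rw [e, e1, e2]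
    simp only
    ring
  have f1 : dx (fun w => A⁻¹ * pf X Y Z w) z = A⁻¹ * dx (pf X Y Z) z := dx_const_mul _
  have f2 : dy (fun w => A⁻¹ * pf X Y Z w) z = A⁻¹ * dy (pf X Y Z) z := dy_const_mul _
  have f3 : dx (fun w => A⁻¹ * qf X Y Z w) z = A⁻¹ * dx (qf X Y Z) z := dx_const_mul _
  have f4 : dy (fun w => A⁻¹ * qf X Y Z w) z = A⁻¹ * dy (qf X Y Z) z := dy_const_mul _
  unfold kapf
  rw [hp, hq]
  unfold br
  rw [f1, f2, f3, f4, div_eq_mul_inv _ (A ^ 2), ← inv_pow]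
  ring

/-- **Gauss equation**, for the rescaled height `u = Z / A`. -/
theorem gauss_eq_scaled {U : Set Pl} (hU : IsOpen U) {h1 h2 X Y Z : Pl → ℝ} (hX : Sm X)
    (hY : Sm Y) (hZ : Sm Z) (h : IsoOn U h1 h2 X Y Z) {z : Pl} (hz : z ∈ U)
    (hj : br X Y z ≠ 0) (A : ℝ) :
    br X Y z ^ 4 * kapf X Y (fun w => Z w / A) z = Gauss.brioschi h1 h2 z / A ^ 2 := by
  rw [kapf_scale, ← gauss_eq hU hX hY hZ h hz hj]
  ring

end Crest.Agent.R220
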