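import Mathlib

/-!
# Row 220 (S0341): basic definitions

Everything is done for functions `f : ℝ × ℝ → ℝ` (sup norm on `ℝ × ℝ`), with
`dx f z = fderiv ℝ f z (1,0)`, `dy f z = fderiv ℝ f z (0,1)`.
-/

set_option autoImplicit false

open scoped ContDiff

namespace Crest.Agent.R220

/-- the plane -/
abbrev Pl : Type := ℝ × ℝ

/-- partial derivative in the first variable -/
noncomputable def dx (f : Pl → ℝ) (z : Pl) : ℝ := fderiv ℝ f z (1, 0)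

/-- partial derivative in the second variable -/
noncomputable def dy (f : Pl → ℝ) (z : Pl) : ℝ := fderiv ℝ f z (0, 1)

/-- smooth functions on the plane -/
abbrev Sm (f : Pl → ℝ) : Prop := ContDiff ℝ ∞ f

/-- Jacobian bracket `{f,g} = f_x g_y - f_y g_x` -/
noncomputable def br (f g : Pl → ℝ) (z : Pl) : ℝ := dx f z * dy g z - dy f z * dx g z

/-- iterated partial derivatives: `true` is `dx`, `false` is `dy` (outermost first) -/
noncomputable def Dw : List Bool → (Pl → ℝ) → (Pl → ℝ)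
  | [], f => f
  | true :: w, f => dx (Dw w f)
  | false :: w, f => dy (Dw w f)

/-- closed square of half-side `s` -/
def sq (s : ℝ) : Set Pl := {z | |z.1| ≤ s ∧ |z.2| ≤ s}

/-- closed square frame -/
def frame (a b : ℝ) : Set Pl := {z | z ∈ sq b ∧ ¬ (|z.1| < a ∧ |z.2| < a)}

/-! ### The Legendre frame of a surface `(X, Y, u)`: `du = p dX + q dY`. -/

noncomputable def pf (X Y u : Pl → ℝ) (z : Pl) : ℝ := br u Y z / br X Y z
noncomputable def qf (X Y u : Pl → ℝ) (z : Pl) : ℝ := br X u z / br X Y z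

/-- `kap = q_Y / X_p = {p,q}/{X,Y}` (= det of the Hessian of `u` in graph coordinates) -/
noncomputable def kapf (X Y u : Pl → ℝ) (z : Pl) : ℝ :=
  br (pf X Y u) (qf X Y u) z / br X Y z

/-- `P f = {f,Y}/{p,Y}` : derivative `∂/∂p` at fixed `Y` -/
noncomputable def Pop (p Y : Pl → ℝ) (f : Pl → ℝ) (z : Pl) : ℝ := br f Y z / br p Y z

/-- `T f = {p,f}/{p,Y}` : derivative `∂/∂Y` at fixed `p` -/
noncomputable def Top (p Y : Pl → ℝ) (f : Pl → ℝ) (z : Pl) : ℝ := br p f z / br p Y z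

/-- `(X,Y,u)` is globally `η`-close in `C^4` to the parabolic cylinder `(x,y,x²/2)`,
and equal to it outside `sq 1`. -/
structure NearCyl (η : ℝ) (X Y u : Pl → ℝ) : Prop where
  smX : Sm X
  smY : Sm Y
  smu : Sm u
  outX : ∀ z, z ∉ sq 1 → X z = z.1
  outY : ∀ z, z ∉ sq 1 → Y z = z.2
  outu : ∀ z, z ∉ sq 1 → u z = z.1 ^ 2 / 2
  X0 : X 0 = 0
  Y0 : Y 0 = 0
  ux0 : dx u 0 = 0
  uy0 : dy u 0 = 0
  clX : ∀ w : List Bool, w.length ≤ 4 → ∀ z, |Dw w (fun z => X z - z.1) z| ≤ η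
  clY : ∀ w : List Bool, w.length ≤ 4 → ∀ z, |Dw w (fun z => Y z - z.2) z| ≤ η
  clu : ∀ w : List Bool, w.length ≤ 4 → ∀ z, |Dw w (fun z => u z - z.1 ^ 2 / 2) z| ≤ η

/-- local version of `NearCyl`, on the closed unit square -/
structure NearCylLoc (η A : ℝ) (X Y Z : Pl → ℝ) : Prop where
  smX : Sm X
  smY : Sm Y
  smZ : Sm Z
  X0 : X 0 = 0
  Y0 : Y 0 = 0
  Zx0 : dx Z 0 = 0
  Zy0 : dy Z 0 = 0
  clX : ∀ w : List Bool, w.length ≤ 4 → ∀ z ∈ sq 1, |Dw w (fun z => X z - z.1) z| ≤ η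
  clY : ∀ w : List Bool, w.length ≤ 4 → ∀ z ∈ sq 1, |Dw w (fun z => Y z - z.2) z| ≤ η
  clZ : ∀ w : List Bool, w.length ≤ 4 → ∀ z ∈ sq 1,
    |Dw w (fun z => Z z - A * z.1 ^ 2 / 2) z| ≤ η * A

/-- `(X,Y,Z)` is isometric for the metric `(1+h1) dx² + (1+h2) dy²` on the set `S` -/
structure IsoOn (S : Set Pl) (h1 h2 : Pl → ℝ) (X Y Z : Pl → ℝ) : Prop where
  g11 : ∀ z ∈ S, dx X z ^ 2 + dx Y z ^ 2 + dx Z z ^ 2 = 1 + h1 z
  g12 : ∀ z ∈ S, dx X z * dy X z + dx Y z * dy Y z + dx Z z * dy Z z = 0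
  g22 : ∀ z ∈ S, dy X z ^ 2 + dy Y z ^ 2 + dy Z z ^ 2 = 1 + h2 z

/-- the model curvature `x² + y² - 1/4` -/
noncomputable def kap0 (z : Pl) : ℝ := z.1 ^ 2 + z.2 ^ 2 - 1 / 4

/-- on `sq (9/10)` the function `κ` is `τ δ'`-close in `C^1` to `δ' kap0` -/
def KapClose (τ δ' : ℝ) (κ : Pl → ℝ) : Prop :=
  ∀ z ∈ sq (9/10), |κ z - δ' * kap0 z| ≤ τ * δ' ∧
    |dx κ z - δ' * (2 * z.1)| ≤ τ * δ' ∧ |dy κ z - δ' * (2 * z.2)| ≤ τ * δ'

/-- one-dimensional profile: a smooth bump supported in `[-1/4,1/4]`, fixed once for all -/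
noncomputable def psiBump : ContDiffBump (0 : ℝ) := ⟨1/8, 1/4, by norm_num, by norm_num⟩
noncomputable def psi (t : ℝ) : ℝ := psiBump t

/-- the elementary bump number `j` at frequency `ξ` -/
noncomputable def bumpf (ξ : ℝ) (j : ℕ) (z : Pl) : ℝ := psi (ξ * z.1 - j) * psi (ξ * z.2)

/-- signed bump pattern `∑_{j<J} σ_j φ(ξx - j, ξy)` -/
noncomputable def pat (ξ : ℝ) (J : ℕ) (σ : ℕ → ℝ) (z : Pl) : ℝ :=
  ∑ j ∈ Finset.range J, σ j * bumpf ξ j z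

/-- `(D1,D2,d)` is a deformation of `(X,Y,u)` with strain `a dy²` on the set `S` -/
structure Strain (S : Set Pl) (a : Pl → ℝ) (X Y u D1 D2 d : Pl → ℝ) : Prop where
  s11 : ∀ z ∈ S, dx X z * dx D1 z + dx Y z * dx D2 z + dx u z * dx d z = 0
  s12 : ∀ z ∈ S, dx X z * dy D1 z + dy X z * dx D1 z + dx Y z * dy D2 z + dy Y z * dx D2 z
      + dx u z * dy d z + dy u z * dx d z = 0
  s22 : ∀ z ∈ S, 2 * (dy X z * dy D1 z + dy Y z * dy D2 z + dy u z * dy d z) = a z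

/-- the quadratic potential: `-(1/2) Δ w0 = kap0` -/
noncomputable def w0 (z : Pl) : ℝ := -(z.1 ^ 4 + z.2 ^ 4) / 6 + (z.1 ^ 2 + z.2 ^ 2) / 8

end Crest.Agent.R220

/-! ### Second part of the definitions: the analytic core (`pde_core`) -/

namespace Crest.Agent.R220

/-- frame functions `p`, `Y` that are `C^1`-close to the coordinates, and `κ` `C^1`-close to the
model -/
structure GoodFrame (η δ' : ℝ) (p Y κ : Pl → ℝ) : Prop where
  smp : Sm p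
  smY : Sm Y
  smk : Sm κ
  p0 : p 0 = 0
  Y0 : Y 0 = 0
  cp : ∀ z, |dx p z - 1| ≤ η ∧ |dy p z| ≤ η
  cY : ∀ z, |dx Y z| ≤ η ∧ |dy Y z - 1| ≤ η
  cp2 : ∀ w : List Bool, w.length = 2 → ∀ z, |Dw w p z| ≤ η
  cY2 : ∀ w : List Bool, w.length = 2 → ∀ z, |Dw w Y z| ≤ η
  ck : KapClose η δ' κ

/-- support boxes of the bumps -/
def bx (ξ : ℝ) (j : ℕ) : Set Pl := {z | |ξ * z.1 - j| ≤ 1 / 4 ∧ |ξ * z.2| ≤ 1 / 4}

/-- union of the boxes with `σ j ≠ 0` -/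
def NS (ξ : ℝ) (J : ℕ) (σ : ℕ → ℝ) : Set Pl := {z | ∃ j < J, σ j ≠ 0 ∧ z ∈ bx ξ j}

/-- number of active bumps -/
noncomputable def nact (J : ℕ) (σ : ℕ → ℝ) : ℝ :=
  by classical exact (((Finset.range J).filter (fun j => σ j ≠ 0)).card : ℝ)

/-- `L f = T T f + P (κ P f)` -/
noncomputable def Lop (p Y κ f : Pl → ℝ) (z : Pl) : ℝ :=
  Top p Y (Top p Y f) z + Pop p Y (fun z => κ z * Pop p Y f z) z

/-- admissible right-hand side: `L d = - P H - T G`, with `H ≈ (1/2) ∂_x pat`, `G ≈ 0`. -/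
structure Src (C1 η ξ : ℝ) (J : ℕ) (σ : ℕ → ℝ) (p Y κ d H G : Pl → ℝ) : Prop where
  smd : Sm d
  smH : Sm H
  smG : Sm G
  suppH : ∀ z, z ∉ NS ξ J σ → H z = 0
  suppG : ∀ z, z ∉ NS ξ J σ → G z = 0
  bH : ∀ z, |H z - (1 / 2) * dx (pat ξ J σ) z| ≤ η * ξ
  bG : ∀ z, |G z| ≤ η * ξ
  bPH : ∀ z, |Pop p Y H z| ≤ C1 * ξ ^ 2
  bTG : ∀ z, |Top p Y G z| ≤ C1 * ξ ^ 2
  pde : ∀ z : Pl, |z.1| < 9 / 10 → |z.2| < 9 / 10 →
    Lop p Y κ d z = - Pop p Y H z - Top p Y G z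

/-- energy density -/
noncomputable def en (δ' : ℝ) (p Y d : Pl → ℝ) (z : Pl) : ℝ :=
  Top p Y d z ^ 2 + δ' * Pop p Y d z ^ 2

/-- thin layer `|y| ≤ 2/ξ` inside the box `|x| ≤ 1/8` -/
def layN (ξ : ℝ) : Set Pl := {z | |z.1| ≤ 1 / 8 ∧ |z.2| ≤ 2 / ξ}
/-- outer part of the layer -/
def layO (ξ : ℝ) : Set Pl := {z | |z.1| ≤ 1 / 8 ∧ 1 / ξ ≤ |z.2| ∧ |z.2| ≤ 2 / ξ}

end Crest.Agent.R220
private theorem rz_287179b0ab : type_of% @_root_.Crest.Agent.R220.Dw.eq_def := @_root_.Crest.Agent.R220.Dw.eq_def -- L32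
private theorem rz_201ff69569 : type_of% @_root_.Crest.Agent.R220.Dw.eq_1 := @_root_.Crest.Agent.R220.Dw.eq_1 -- L32
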