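import Crest.Agent.R220.LowerLoc
import Crest.Agent.R220.Defs
import Crest.Agent.R220.Layer1
import Crest.Agent.R220.Layer

-- ▼ part R220/LowerMain
section

/-!
# Row 220: `lower`, local inequality from the pairing bound
-/

set_option autoImplicit false

open scoped ContDiff Topology
open MeasureTheory Set

namespace Crest.Agent.R220.Lower

lemma goodFrame_mono {η η' δ' : ℝ} {p Y κ : Pl → ℝ} (hη : η ≤ η') (hδ : 0 < δ')
    (h : GoodFrame η δ' p Y κ) : GoodFrame η' δ' p Y κ := by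
  refine ⟨h.smp, h.smY, h.smk, h.p0, h.Y0, fun z => ⟨(h.cp z).1.trans hη, (h.cp z).2.trans hη⟩,
    fun z => ⟨(h.cY z).1.trans hη, (h.cY z).2.trans hη⟩, fun w hw z => (h.cp2 w hw z).trans hη,
    fun w hw z => (h.cY2 w hw z).trans hη, fun z hz => ?_⟩
  have hm : η * δ' ≤ η' * δ' := mul_le_mul_of_nonneg_right hη hδ.le
  obtain ⟨a, b, c⟩ := h.ck z hz
  exact ⟨a.trans hm, b.trans hm, c.trans hm⟩

lemma src_mono {C1 η η' ξ : ℝ} {J : ℕ} {σ : ℕ → ℝ} {p Y κ d H G : Pl → ℝ} (hη : η ≤ η')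
    (hξ : 0 ≤ ξ) (h : Src C1 η ξ J σ p Y κ d H G) : Src C1 η' ξ J σ p Y κ d H G :=
  { h with
    bH := fun z => (h.bH z).trans (mul_le_mul_of_nonneg_right hη hξ)
    bG := fun z => (h.bG z).trans (mul_le_mul_of_nonneg_right hη hξ) }

lemma kap_small {η δ' : ℝ} {κ : Pl → ℝ} (hη : η ≤ 1 / 100) (hδ : 0 < δ')
    (h : KapClose η δ' κ) {z : Pl} (h1 : |z.1| ≤ 1 / 8) (h2 : |z.2| ≤ 1 / 8) :
    |κ z| ≤ 2 * δ' := by
  obtain ⟨k1, -, -⟩ := h z ⟨h1.trans (by norm_num), h2.trans (by norm_num)⟩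
  have a1 : z.1 ^ 2 ≤ (1 / 8) ^ 2 := by rw [← sq_abs]; gcongr
  have a2 : z.2 ^ 2 ≤ (1 / 8) ^ 2 := by rw [← sq_abs]; gcongr
  have k2 : |δ' * kap0 z| ≤ δ' := by
    rw [abs_mul, abs_of_pos hδ]
    have : |kap0 z| ≤ 1 := by
      unfold kap0
      rw [abs_le]
      constructor <;> nlinarith [sq_nonneg z.1, sq_nonneg z.2]
    nlinarith
  have k3 : η * δ' ≤ 1 / 100 * δ' := mul_le_mul_of_nonneg_right hη hδ.le
  have := abs_sub_abs_le_abs_sub (κ z) (δ' * kap0 z)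
  linarith

/-- the weak form tested with `phi`, reduced to the box of the bump -/
lemma tested {η C1 δ' ξ hh : ℝ} {J : ℕ} {σ : ℕ → ℝ} {p Y κ d H G : Pl → ℝ} (hη : η ≤ 1 / 100)
    (hξ : 16 ≤ ξ) (hhξ : hh + 1 / ξ ≤ 1 / 16) (hJ : (J : ℝ) ≤ hh * ξ)
    (hF : GoodFrame η δ' p Y κ) (hS : Src C1 η ξ J σ p Y κ d H G) {j : ℕ} (hj : j < J)
    (hσ : σ j ≠ 0) :
    ξ * ∫ z in bx ξ j, deriv psi (ξ * (p z - pj p ξ j)) * H z * br p Y z =
      - ((∫ z, (Top p Y (phi p ξ j) z * br p Y z) * Top p Y d z)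
        + ∫ z, (κ z * Pop p Y (phi p ξ j) z * br p Y z) * Pop p Y d z) := by
  have hξ0 : 0 < ξ := by linarith
  have hJ0 : ∀ z, br p Y z ≠ 0 := fun z => by
    have := (VirialUp.frame_pt hη hF z).2.2.2.2.1
    positivity
  have sphi : Sm (phi p ξ j) := sm_phi hF.smp ξ j
  have cphi : HasCompactSupport (phi p ξ j) := phi_compact hη hF hξ0 j
  have hw := Lop_weak p Y κ d (phi p ξ j) hF.smp hF.smY hF.smk hS.smd sphi hJ0 (Or.inr cphi)
  -- right side: split
  have sP : Sm (Pop p Y (phi p ξ j)) := Sm.Pop hF.smp hF.smY sphi hJ0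
  have sT : Sm (Top p Y (phi p ξ j)) := Sm.Top hF.smp hF.smY sphi hJ0
  have cP : HasCompactSupport (Pop p Y (phi p ξ j)) := HasCompactSupport.Pop cphi
  have cT : HasCompactSupport (Top p Y (phi p ξ j)) := HasCompactSupport.Top cphi
  have sPd : Sm (Pop p Y d) := Sm.Pop hF.smp hF.smY hS.smd hJ0
  have sTd : Sm (Top p Y d) := Sm.Top hF.smp hF.smY hS.smd hJ0
  have sbr : Sm (br p Y) := hF.smp.br hF.smY
  have i1 : Integrable (fun z => (Top p Y (phi p ξ j) z * br p Y z) * Top p Y d z) :=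
    ((sT.mul' sbr).mul' sTd).integrable (cT.mul_right.mul_right)
  have i2 : Integrable (fun z => (κ z * Pop p Y (phi p ξ j) z * br p Y z) * Pop p Y d z) :=
    (((hF.smk.mul' sP).mul' sbr).mul' sPd).integrable (cP.mul_left.mul_right.mul_right)
  have e1 : ∫ z, (Top p Y (phi p ξ j) z * Top p Y d z + κ z * Pop p Y (phi p ξ j) z * Pop p Y d z)
        * br p Y z = (∫ z, (Top p Y (phi p ξ j) z * br p Y z) * Top p Y d z)
        + ∫ z, (κ z * Pop p Y (phi p ξ j) z * br p Y z) * Pop p Y d z := by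
    rw [← integral_add i1 i2]
    congr 1
    funext z
    ring
  rw [e1] at hw
  rw [← hw]
  -- left side
  have e2 : ∀ z, phi p ξ j z * Lop p Y κ d z * br p Y z
      = - (phi p ξ j z * Pop p Y H z * br p Y z) - phi p ξ j z * Top p Y G z * br p Y z := by
    intro z
    by_cases hz : z ∈ bj ξ j
    · obtain ⟨a, b⟩ := bj_loc hξ hhξ hJ hj hz
      rw [hS.pde z (by linarith) (by linarith)]
      ring
    · rw [phi_out hη hF hξ0 j hz]; ring
  simp_rw [e2]
  have sPH : Sm (Pop p Y H) := Sm.Pop hF.smp hF.smY hS.smH hJ0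
  have sTG : Sm (Top p Y G) := Sm.Top hF.smp hF.smY hS.smG hJ0
  have i3 : Integrable (fun z => phi p ξ j z * Pop p Y H z * br p Y z) :=
    ((sphi.mul' sPH).mul' sbr).integrable (cphi.mul_right.mul_right)
  have i4 : Integrable (fun z => phi p ξ j z * Top p Y G z * br p Y z) :=
    ((sphi.mul' sTG).mul' sbr).integrable (cphi.mul_right.mul_right)
  have i3' : Integrable (fun z => -(phi p ξ j z * Pop p Y H z * br p Y z)) := i3.neg
  rw [integral_sub i3' i4, integral_neg,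
    integral_mul_Pop hF.smp hF.smY sphi hS.smH hJ0 (Or.inl cphi),
    integral_mul_Top hF.smp hF.smY sphi hS.smG hJ0 (Or.inl cphi)]
  -- the `G` term vanishes
  have z1 : ∀ z, Top p Y (phi p ξ j) z * G z * br p Y z = 0 := by
    intro z
    by_cases hz : z ∈ NS ξ J σ
    · obtain ⟨k, -, -, -, h2⟩ := hz
      have : z ∉ bjO ξ j := fun hb => by
        have := hb.2.1
        linarith
      rw [Top_phi_out hη hF hξ0 j this]; ring
    · rw [hS.suppG z hz]; ring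
  simp_rw [z1]
  rw [integral_zero, neg_zero, sub_zero, neg_neg, ← integral_const_mul]
  -- the `H` term
  have z2 : ∀ z, z ∉ bx ξ j → Pop p Y (phi p ξ j) z * H z * br p Y z = 0 := by
    intro z hz
    by_cases hz2 : z ∈ NS ξ J σ
    · obtain ⟨k, -, -, h1, h2⟩ := hz2
      have hkj : k ≠ j := fun e => hz (e ▸ ⟨h1, h2⟩)
      have h3 : (1 : ℝ) ≤ |(k : ℝ) - j| := by
        rcases lt_or_gt_of_ne hkj with h | h
        · have : (k : ℝ) + 1 ≤ j := by exact_mod_cast h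
          rw [abs_of_nonpos (by linarith)]; linarith
        · have : (j : ℝ) + 1 ≤ k := by exact_mod_cast h
          rw [abs_of_nonneg (by linarith)]; linarith
      have h4 : z ∉ bj ξ j := fun hb => by
        have h5 := hb.1
        have h6 : |(k : ℝ) - j| ≤ |ξ * z.1 - j| + |ξ * z.1 - k| := by
          have : (k : ℝ) - j = (ξ * z.1 - j) - (ξ * z.1 - k) := by ring
          rw [this]; exact abs_sub _ _
        linarith
      rw [Pop_phi_out hη hF hJ0 hξ0 j h4]; ring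
    · rw [hS.suppH z hz2]; ring
  have e3 : ∫ z, Pop p Y (phi p ξ j) z * H z * br p Y z
      = ∫ z in bx ξ j, Pop p Y (phi p ξ j) z * H z * br p Y z :=
    (setIntegral_eq_integral_of_forall_compl_eq_zero fun z hz => z2 z hz).symm
  rw [e3]
  have hmeas : MeasurableSet (bx ξ j) := by
    have h1 : Continuous (fun z : Pl => |ξ * z.1 - j|) := by fun_prop
    have h2 : Continuous (fun z : Pl => |ξ * z.2|) := by fun_prop
    exact ((isClosed_le h1 continuous_const).inter (isClosed_le h2 continuous_const)).measurableSet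
  refine setIntegral_congr_fun hmeas fun z hz => ?_
  have h2 : |ξ * z.2| ≤ 1 / 4 := hz.2
  rw [Pop_phi hF.smp hJ0, zet_one (by linarith), dzet_in (by linarith)]
  ring

theorem lower_loc_of_pair (hpair : PairStmt) : ∃ η C : ℝ, 0 < η ∧ 0 < C ∧
    ∀ (C1 δ' ξ hh : ℝ) (J : ℕ) (σ : ℕ → ℝ)
    (p Y κ d H G : Pl → ℝ), 1 ≤ C1 → 0 < δ' → δ' ≤ 1 → 16 ≤ ξ → 0 < hh → hh + 1 / ξ ≤ 1 / 16 →
    (J : ℝ) ≤ hh * ξ → (∀ j, σ j = 0 ∨ σ j = 1 ∨ σ j = -1) →
    GoodFrame η δ' p Y κ → Src C1 η ξ J σ p Y κ d H G → ∀ j < J, σ j ≠ 0 →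
    1 ≤ C * (∫ z in bjO ξ j, Top p Y d z ^ 2) + C * (δ' ^ 2 * ∫ z in bj ξ j, Pop p Y d z ^ 2) := by
  obtain ⟨η1, c, hη1, hc, hpair⟩ := hpair
  obtain ⟨K1, hK1, hz1⟩ := exists_dzet_bound
  obtain ⟨K2, hK2, hz2⟩ := prof_psi.bound
  obtain ⟨K3, hK3, hz3⟩ := prof_psi.deriv.bound
  set M : ℝ := K1 * 4 * K2 + K3 + 1 with hMdef
  have hM : 0 < M := by positivity
  refine ⟨min η1 (1 / 100), 128 * M ^ 2 / c ^ 2, by positivity, by positivity, ?_⟩
  intro C1 δ' ξ hh J σ p Y κ d H G hC1 hδ hδ1 hξ hhh hhξ hJ hσ hF hS j hj hσj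
  have hξ0 : 0 < ξ := by linarith
  have hη : min η1 (1 / 100) ≤ 1 / 100 := min_le_right _ _
  have hlow := hpair C1 δ' ξ J σ p Y κ d H G hξ hσ (goodFrame_mono (min_le_left _ _) hδ hF)
    (src_mono (min_le_left _ _) hξ0.le hS) j hj hσj
  rw [tested hη hξ hhξ hJ hF hS hj hσj, abs_neg] at hlow
  have hJ0 : ∀ z, br p Y z ≠ 0 := fun z => by
    have := (VirialUp.frame_pt hη hF z).2.2.2.2.1
    positivity
  have hbr : ∀ z, |br p Y z| ≤ 2 := fun z => by
    have h1 := (VirialUp.frame_pt hη hF z).2.2.2.2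
    rw [abs_of_nonneg (by linarith [h1.1])]; exact h1.2
  have cPd : Continuous (Pop p Y d) := (Sm.Pop hF.smp hF.smY hS.smd hJ0).continuous'
  have cTd : Continuous (Top p Y d) := (Sm.Top hF.smp hF.smY hS.smd hJ0).continuous'
  have hPy : ∀ z, |Pop p Y (fun z => z.2) z| ≤ 4 := fun z => by
    have := VirialUp.Pop_abs_le hη hF (fun z => z.2) z
    rw [dx_snd, dy_snd] at this
    simpa using this
  have hTy : ∀ z, |Top p Y (fun z => z.2) z| ≤ 4 := fun z => by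
    have := VirialUp.Top_abs_le hη hF (fun z => z.2) z
    rw [dx_snd, dy_snd] at this
    simpa using this
  have bT : ∀ z, |Top p Y (phi p ξ j) z| ≤ M * ξ := fun z => by
    rw [Top_phi hF.smp, abs_mul, abs_of_pos hξ0, abs_mul, abs_mul, mul_comm M ξ]
    refine mul_le_mul_of_nonneg_left ?_ hξ0.le
    calc |deriv zet (ξ * z.2)| * |Top p Y (fun z => z.2) z| * |psi (ξ * (p z - pj p ξ j))|
        ≤ K1 * 4 * K2 := by
          refine mul_le_mul (mul_le_mul (hz1 _) (hTy z) (abs_nonneg _) hK1) (hz2 _)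
            (abs_nonneg _) (by positivity)
      _ ≤ M := by linarith
  have bP : ∀ z, |Pop p Y (phi p ξ j) z| ≤ M * ξ := fun z => by
    rw [Pop_phi hF.smp hJ0, abs_mul, abs_of_pos hξ0, mul_comm M ξ]
    refine mul_le_mul_of_nonneg_left ?_ hξ0.le
    refine (abs_add_le _ _).trans ?_
    rw [abs_mul, abs_mul, abs_mul]
    have a1 : |deriv zet (ξ * z.2)| * |Pop p Y (fun z => z.2) z| * |psi (ξ * (p z - pj p ξ j))|
        ≤ K1 * 4 * K2 := by
      refine mul_le_mul (mul_le_mul (hz1 _) (hPy z) (abs_nonneg _) hK1) (hz2 _)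
        (abs_nonneg _) (by positivity)
    have a2 : |zet (ξ * z.2)| * |deriv psi (ξ * (p z - pj p ξ j))| ≤ 1 * K3 :=
      mul_le_mul (zet_abs_le _) (hz3 _) (abs_nonneg _) (by norm_num)
    linarith
  have E1 := est (M := M * ξ * 2) (w := fun z => Top p Y (phi p ξ j) z * br p Y z) hξ0 j
    (bjO_subset_bj ξ j) (measurableSet_bjO ξ j)
    (by positivity) cTd
    (fun z hz => by rw [Top_phi_out hη hF hξ0 j hz, zero_mul])
    (fun z _ => by
      rw [abs_mul]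
      exact mul_le_mul (bT z) (hbr z) (abs_nonneg _) (by positivity))
  have E2 := est (M := 2 * δ' * (M * ξ) * 2)
    (w := fun z => κ z * Pop p Y (phi p ξ j) z * br p Y z) hξ0 j
    (subset_refl _) (measurableSet_bj ξ j)
    (by positivity) cPd
    (fun z hz => by rw [Pop_phi_out hη hF hJ0 hξ0 j hz, mul_zero, zero_mul])
    (fun z hz => by
      rw [abs_mul, abs_mul]
      obtain ⟨l1, l2⟩ := bj_loc hξ hhξ hJ hj hz
      have hk := kap_small hη hδ hF.ck l1 l2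
      exact mul_le_mul (mul_le_mul hk (bP z) (abs_nonneg _) (by positivity)) (hbr z)
        (abs_nonneg _) (by positivity))
  set A := ∫ z in bjO ξ j, Top p Y d z ^ 2 with hA
  set B := ∫ z in bj ξ j, Pop p Y d z ^ 2 with hB
  have hA0 : 0 ≤ A := integral_nonneg fun z => sq_nonneg _
  have hB0 : 0 ≤ B := integral_nonneg fun z => sq_nonneg _
  have E1' : |∫ z, (Top p Y (phi p ξ j) z * br p Y z) * Top p Y d z| ≤ 4 * M * Real.sqrt A := by
    refine E1.trans (le_of_eq ?_)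
    field_simp; ring
  have E2' : |∫ z, (κ z * Pop p Y (phi p ξ j) z * br p Y z) * Pop p Y d z|
      ≤ 8 * M * (δ' * Real.sqrt B) := by
    refine E2.trans (le_of_eq ?_)
    field_simp; ring
  have hfin : c ≤ 4 * M * Real.sqrt A + 8 * M * (δ' * Real.sqrt B) :=
    (hlow.trans (abs_add_le _ _)).trans (add_le_add E1' E2')
  have s1 : Real.sqrt A ^ 2 = A := Real.sq_sqrt hA0
  have s2 : Real.sqrt B ^ 2 = B := Real.sq_sqrt hB0
  have hsq : c ^ 2 ≤ (4 * M * Real.sqrt A + 8 * M * (δ' * Real.sqrt B)) ^ 2 := by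
    gcongr
  have hsq2 : (4 * M * Real.sqrt A + 8 * M * (δ' * Real.sqrt B)) ^ 2
      ≤ 128 * M ^ 2 * (A + δ' ^ 2 * B) := by
    have key : ∀ x y : ℝ, (4 * M * x + 8 * M * y) ^ 2 ≤ 128 * M ^ 2 * (x ^ 2 + y ^ 2) := by
      intro x y
      nlinarith [sq_nonneg (4 * M * x - 8 * M * y), sq_nonneg (M * x)]
    have h := key (Real.sqrt A) (δ' * Real.sqrt B)
    rwa [mul_pow δ', s1, s2] at h
  have hfin2 : c ^ 2 ≤ 128 * M ^ 2 * (A + δ' ^ 2 * B) := hsq.trans hsq2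
  have : 128 * M ^ 2 / c ^ 2 * A + 128 * M ^ 2 / c ^ 2 * (δ' ^ 2 * B)
      = 128 * M ^ 2 * (A + δ' ^ 2 * B) / c ^ 2 := by ring
  rw [this, le_div_iff₀ (by positivity), one_mul]
  exact hfin2

end Crest.Agent.R220.Lower
end

-- ▼ part R220/Metric
section

/-!
# Row 220 (S0341): the metric family (cutoff of `w0`, the bump patterns, and their bounds)
-/

set_option autoImplicit false

open scoped ContDiff
open MeasureTheory

namespace Crest.Agent.R220

namespace MetCut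

lemma bdd_iteratedFDeriv {f : Pl → ℝ} (hf : ContDiff ℝ ∞ f) (hc : HasCompactSupport f) (k : ℕ) :
    ∃ C : ℝ, ∀ z, ‖iteratedFDeriv ℝ k f z‖ ≤ C := by
  refine Continuous.bounded_above_of_compact_support ?_ (hc.iteratedFDeriv k)
  exact hf.continuous_iteratedFDeriv (by exact_mod_cast le_top)

lemma bdd_iteratedFDeriv_le {f : Pl → ℝ} (hf : ContDiff ℝ ∞ f) (hc : HasCompactSupport f)
    (N : ℕ) : ∃ C : ℝ, 0 < C ∧ ∀ k ≤ N, ∀ z, ‖iteratedFDeriv ℝ k f z‖ ≤ C := by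
  choose C hC using bdd_iteratedFDeriv hf hc
  refine ⟨(∑ k ∈ Finset.range (N + 1), |C k|) + 1, ?_, fun k hk z => ?_⟩
  · have : 0 ≤ ∑ k ∈ Finset.range (N + 1), |C k| := Finset.sum_nonneg fun _ _ => abs_nonneg _
    linarith
  · have h1 : |C k| ≤ ∑ k ∈ Finset.range (N + 1), |C k| :=
      Finset.single_le_sum (f := fun k => |C k|) (fun _ _ => abs_nonneg _)
        (Finset.mem_range.2 (Nat.lt_succ_of_le hk))
    have h2 := hC k z
    have h3 := le_abs_self (C k)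
    linarith

/-- one dimensional cutoff: `1` on `[-39/40, 39/40]`, supported in `[-79/80, 79/80]`. -/
noncomputable def cut : ContDiffBump (0 : ℝ) := ⟨39/40, 79/80, by norm_num, by norm_num⟩

lemma cut_one {t : ℝ} (ht : |t| ≤ 97/100) : cut t = 1 := by
  refine cut.one_of_mem_closedBall ?_
  rw [Metric.mem_closedBall, dist_zero_right, Real.norm_eq_abs]
  change |t| ≤ 39/40
  linarith

lemma cut_zero {t : ℝ} (ht : 99/100 < |t|) : cut t = 0 := by
  refine cut.zero_of_le_dist ?_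
  rw [dist_zero_right, Real.norm_eq_abs]
  change 79/80 ≤ |t|
  linarith

/-- product of two functions of one variable with compact supports. -/
lemma hasCompactSupport_prod {f g : ℝ → ℝ} {h : Pl → ℝ} (a b : ℝ)
    (hf : ∀ t, a < |t| → f t = 0) (hg : ∀ t, b < |t| → g t = 0) :
    HasCompactSupport fun z : Pl => f z.1 * g z.2 * h z := by
  refine HasCompactSupport.intro
    (K := (Set.Icc (-a) a) ×ˢ (Set.Icc (-b) b)) (isCompact_Icc.prod isCompact_Icc) ?_
  intro z hz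
  rw [Set.mem_prod, not_and_or] at hz
  rcases hz with hz | hz
  · have : a < |z.1| := by
      by_contra hcon
      rw [not_lt, abs_le] at hcon
      exact hz hcon
    rw [hf _ this]; ring
  · have : b < |z.2| := by
      by_contra hcon
      rw [not_lt, abs_le] at hcon
      exact hz hcon
    rw [hg _ this]; ring

lemma contDiff_w0 : ContDiff ℝ ∞ w0 := by
  unfold w0
  fun_prop

lemma psi_zero {t : ℝ} (ht : 1/4 ≤ |t|) : psi t = 0 := by
  refine psiBump.zero_of_le_dist ?_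
  rw [dist_zero_right, Real.norm_eq_abs]
  exact ht

lemma contDiff_psi : ContDiff ℝ ∞ psi := psiBump.contDiff

/-- The basic profile `(x,y) ↦ psi x * psi y`. -/
noncomputable def Phi (z : Pl) : ℝ := psi z.1 * psi z.2

lemma contDiff_Phi : ContDiff ℝ ∞ Phi := by
  unfold Phi
  exact (contDiff_psi.comp contDiff_fst).mul (contDiff_psi.comp contDiff_snd)

lemma hasCompactSupport_Phi : HasCompactSupport Phi := by
  have h := hasCompactSupport_prod (f := psi) (g := psi) (h := fun _ => 1) (1/4) (1/4)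
    (fun t ht => psi_zero ht.le) (fun t ht => psi_zero ht.le)
  have e : (fun z : Pl => psi z.1 * psi z.2 * 1) = Phi := by
    funext z; simp [Phi]
  rwa [e] at h

lemma bumpf_eq (ξ : ℝ) (j : ℕ) : bumpf ξ j = fun z : Pl => Phi (ξ • z - ((j : ℝ), (0 : ℝ))) := by
  funext z
  simp [bumpf, Phi]

lemma contDiff_bumpf (ξ : ℝ) (j : ℕ) : ContDiff ℝ ∞ (bumpf ξ j) := by
  rw [bumpf_eq]
  exact contDiff_Phi.comp ((contDiff_const_smul ξ).sub contDiff_const)

lemma norm_iteratedFDeriv_bumpf (ξ : ℝ) (hξ : 0 ≤ ξ) (j k : ℕ) (C : ℝ)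
    (hC : ∀ z, ‖iteratedFDeriv ℝ k Phi z‖ ≤ C) (z : Pl) :
    ‖iteratedFDeriv ℝ k (bumpf ξ j) z‖ ≤ C * ξ ^ k := by
  have h1 : bumpf ξ j = fun z : Pl => (fun y : Pl => Phi (y - ((j : ℝ), (0 : ℝ)))) (ξ • z) :=
    bumpf_eq ξ j
  have h2 : ContDiff ℝ (k : ℕ∞) (fun y : Pl => Phi (y - ((j : ℝ), (0 : ℝ)))) :=
    (contDiff_Phi.of_le (by exact_mod_cast le_top)).comp (contDiff_id.sub contDiff_const)
  have h3 : iteratedFDeriv ℝ k (bumpf ξ j) z =
      ξ ^ k • iteratedFDeriv ℝ k (fun y : Pl => Phi (y - ((j : ℝ), (0 : ℝ)))) (ξ • z) := by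
    rw [h1]
    exact congrFun (iteratedFDeriv_comp_const_smul (𝕜 := ℝ) (i := k)
      (f := fun y : Pl => Phi (y - ((j : ℝ), (0 : ℝ)))) ξ (by exact_mod_cast h2)) z
  rw [h3, norm_smul, iteratedFDeriv_comp_sub, norm_pow, Real.norm_of_nonneg hξ, mul_comm]
  exact mul_le_mul_of_nonneg_right (hC _) (by positivity)

end MetCut

open MetCut in
/-- **metric_family** (module `R220/Metric.lean`): the cutoff of `w0`, with all smallness. -/
theorem metric_cut : ∃ W : Pl → ℝ, Sm W ∧ (∀ z ∈ sq (97/100), W z = w0 z) ∧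
    (∀ z, z ∉ sq (99/100) → W z = 0) ∧
    (∀ N : ℕ, ∃ C : ℝ, 0 < C ∧ ∀ k ≤ N, ∀ z, ‖iteratedFDeriv ℝ k W z‖ ≤ C) := by
  have hsm : ContDiff ℝ ∞ fun z : Pl => cut z.1 * cut z.2 * w0 z :=
    ((cut.contDiff.comp contDiff_fst).mul (cut.contDiff.comp contDiff_snd)).mul contDiff_w0
  have hcs : HasCompactSupport fun z : Pl => cut z.1 * cut z.2 * w0 z :=
    hasCompactSupport_prod (99/100) (99/100) (fun t ht => cut_zero ht) (fun t ht => cut_zero ht)
  refine ⟨fun z => cut z.1 * cut z.2 * w0 z, hsm, ?_, ?_, bdd_iteratedFDeriv_le hsm hcs⟩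
  · intro z hz
    simp only [cut_one hz.1, cut_one hz.2, one_mul]
  · intro z hz
    have : ¬ (|z.1| ≤ 99/100 ∧ |z.2| ≤ 99/100) := hz
    rw [not_and_or, not_le, not_le] at this
    rcases this with h | h
    · simp only [cut_zero h, zero_mul]
    · simp only [cut_zero h, mul_zero, zero_mul]

open MetCut in
theorem pat_bound : ∀ N : ℕ, ∃ C : ℝ, 0 < C ∧ ∀ (ξ : ℝ) (J : ℕ) (σ : ℕ → ℝ), 1 ≤ ξ →
    (J : ℝ) ≤ ξ → (∀ j, |σ j| ≤ 1) → ∀ k ≤ N, ∀ z,
      ‖iteratedFDeriv ℝ k (pat ξ J σ) z‖ ≤ C * ξ ^ (k + 1) := by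
  intro N
  obtain ⟨C, hC0, hC⟩ := bdd_iteratedFDeriv_le contDiff_Phi hasCompactSupport_Phi N
  refine ⟨C, hC0, fun ξ J σ hξ hJ hσ k hk z => ?_⟩
  have hξ0 : 0 ≤ ξ := by linarith
  have hsm : ∀ j, ContDiff ℝ k (bumpf ξ j) := fun j =>
    (contDiff_bumpf ξ j).of_le (by exact_mod_cast le_top)
  have h1 : iteratedFDeriv ℝ k (pat ξ J σ) z =
      ∑ j ∈ Finset.range J, iteratedFDeriv ℝ k (fun z => σ j * bumpf ξ j z) z := by
    have : pat ξ J σ = fun z => ∑ j ∈ Finset.range J, (fun z => σ j * bumpf ξ j z) z := rfl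
    rw [this]
    exact iteratedFDeriv_fun_sum_apply (fun j _ => (contDiff_const.mul (hsm j)).contDiffAt)
  rw [h1]
  calc ‖∑ j ∈ Finset.range J, iteratedFDeriv ℝ k (fun z => σ j * bumpf ξ j z) z‖
      ≤ ∑ j ∈ Finset.range J, ‖iteratedFDeriv ℝ k (fun z => σ j * bumpf ξ j z) z‖ :=
        norm_sum_le _ _
    _ ≤ ∑ j ∈ Finset.range J, C * ξ ^ k := by
        refine Finset.sum_le_sum fun j _ => ?_
        have h2 : iteratedFDeriv ℝ k (fun z => σ j * bumpf ξ j z) z =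
            σ j • iteratedFDeriv ℝ k (bumpf ξ j) z :=
          iteratedFDeriv_const_smul_apply' (a := σ j) (f := bumpf ξ j) (hsm j).contDiffAt
        rw [h2, norm_smul, Real.norm_eq_abs]
        have h3 := norm_iteratedFDeriv_bumpf ξ hξ0 j k C (hC k hk) z
        have h4 := norm_nonneg (iteratedFDeriv ℝ k (bumpf ξ j) z)
        calc |σ j| * ‖iteratedFDeriv ℝ k (bumpf ξ j) z‖
            ≤ 1 * ‖iteratedFDeriv ℝ k (bumpf ξ j) z‖ :=
              mul_le_mul_of_nonneg_right (hσ j) h4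
          _ ≤ C * ξ ^ k := by rw [one_mul]; exact h3
    _ = (J : ℝ) * (C * ξ ^ k) := by simp
    _ ≤ ξ * (C * ξ ^ k) := mul_le_mul_of_nonneg_right hJ (by positivity)
    _ = C * ξ ^ (k + 1) := by ring

open MetCut in
theorem pat_smooth (ξ : ℝ) (J : ℕ) (σ : ℕ → ℝ) : Sm (pat ξ J σ) := by
  have : pat ξ J σ = fun z => ∑ j ∈ Finset.range J, (fun z => σ j * bumpf ξ j z) z := rfl
  rw [this]
  exact ContDiff.sum fun j _ => contDiff_const.mul (contDiff_bumpf ξ j)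

open MetCut in
/-- the pattern vanishes outside `[-1/ξ, (J+1)/ξ] × [-1/(4ξ), 1/(4ξ)]` -/
theorem pat_supp (ξ : ℝ) (hξ : 1 ≤ ξ) (J : ℕ) (σ : ℕ → ℝ) (z : Pl)
    (hz : pat ξ J σ z ≠ 0) : |z.1| ≤ (J + 1) / ξ ∧ |z.2| ≤ 1 / (4 * ξ) := by
  have hξ0 : 0 < ξ := by linarith
  obtain ⟨j, hj, hne⟩ := Finset.exists_ne_zero_of_sum_ne_zero hz
  have hj' : (j : ℝ) ≤ J := by exact_mod_cast (Finset.mem_range.1 hj).le
  have hb : psi (ξ * z.1 - j) * psi (ξ * z.2) ≠ 0 := right_ne_zero_of_mul hne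
  have h1 : |ξ * z.1 - j| < 1/4 := by
    by_contra hcon
    exact hb (by rw [psi_zero (not_lt.1 hcon), zero_mul])
  have h2 : |ξ * z.2| < 1/4 := by
    by_contra hcon
    exact hb (by rw [psi_zero (not_lt.1 hcon), mul_zero])
  constructor
  · rw [le_div_iff₀ hξ0]
    have h3 : |z.1| * ξ = |ξ * z.1| := by rw [abs_mul, abs_of_pos hξ0, mul_comm]
    rw [h3]
    have h4 : |ξ * z.1| ≤ |ξ * z.1 - j| + |(j : ℝ)| := by
      calc |ξ * z.1| = |(ξ * z.1 - j) + j| := by ring_nf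
        _ ≤ _ := abs_add_le _ _
    have h5 : |(j : ℝ)| = j := abs_of_nonneg (by positivity)
    linarith
  · rw [le_div_iff₀ (by positivity)]
    rw [abs_mul, abs_of_pos hξ0] at h2
    linarith

/-- word derivatives are bounded by Fréchet derivatives -/
theorem Dw_le_iteratedFDeriv (f : Pl → ℝ) (hf : Sm f) (w : List Bool) (z : Pl) :
    |Dw w f z| ≤ ‖iteratedFDeriv ℝ w.length f z‖ := by
  have key : ∃ m : Fin w.length → Pl, (∀ i, ‖m i‖ ≤ 1) ∧
      Dw w f = fun z => iteratedFDeriv ℝ w.length f z m := by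
    induction w with
    | nil =>
      refine ⟨fun i => 0, fun i => by simp, ?_⟩
      funext z
      simp [Dw]
    | cons b w ih =>
      obtain ⟨m, hm, hw⟩ := ih
      have hd : ∀ e : Pl, ∀ z, fderiv ℝ (Dw w f) z e =
          iteratedFDeriv ℝ (w.length + 1) f z (Fin.cons e m) := by
        intro e z
        rw [hw, iteratedFDeriv_succ_apply_left]
        have hdiff : DifferentiableAt ℝ (iteratedFDeriv ℝ w.length f) z := by
          refine (ContDiff.differentiable_iteratedFDeriv (m := w.length) (n := ∞)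
            ?_ hf).differentiableAt
          exact_mod_cast ENat.natCast_lt_top w.length
        have h1 : HasFDerivAt (fun z => iteratedFDeriv ℝ w.length f z m)
            ((ContinuousMultilinearMap.apply ℝ (fun _ : Fin w.length => Pl) ℝ m).comp
              (fderiv ℝ (iteratedFDeriv ℝ w.length f) z)) z :=
          (ContinuousMultilinearMap.apply ℝ (fun _ : Fin w.length => Pl) ℝ m).hasFDerivAt.comp z
            hdiff.hasFDerivAt
        rw [h1.fderiv]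
        simp
      cases b with
      | true =>
        refine ⟨Fin.cons (1, 0) m, fun i => ?_, ?_⟩
        · refine Fin.cases ?_ (fun i => ?_) i
          · simp
          · simpa using hm i
        · funext z
          exact hd (1, 0) z
      | false =>
        refine ⟨Fin.cons (0, 1) m, fun i => ?_, ?_⟩
        · refine Fin.cases ?_ (fun i => ?_) i
          · simp
          · simpa using hm i
        · funext z
          exact hd (0, 1) z
  obtain ⟨m, hm, hw⟩ := key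
  rw [hw]
  have h1 := (iteratedFDeriv ℝ w.length f z).le_opNorm m
  rw [Real.norm_eq_abs] at h1
  refine h1.trans ?_
  have h2 : ∏ i, ‖m i‖ ≤ 1 := Finset.prod_le_one (fun i _ => norm_nonneg _) fun i _ => hm i
  exact mul_le_of_le_one_right (norm_nonneg _) h2

end Crest.Agent.R220
end

-- ▼ part R220/LowerModel
section

/-!
# Row 220: `lower`, the model integral over one box
-/

set_option autoImplicit false

open scoped ContDiff Topology
open MeasureTheory Set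

namespace Crest.Agent.R220.Lower

lemma model_dpsi_zero {t : ℝ} (ht : 1 / 4 < |t|) : deriv psi t = 0 := by
  have h : psi =ᶠ[𝓝 t] fun _ => 0 := by
    have : {s : ℝ | 1 / 4 < |s|} ∈ 𝓝 t :=
      (isOpen_lt continuous_const continuous_abs).mem_nhds ht
    filter_upwards [this] with s hs
    exact MetCut.psi_zero (le_of_lt hs)
  rw [h.deriv_eq, deriv_const]

lemma model_continuous_dpsi : Continuous (deriv psi) :=
  (MetCut.contDiff_psi.continuous_deriv (by simp))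

lemma model_dpsi_pos : 0 < ∫ t : ℝ, deriv psi t ^ 2 := by
  have hc : Continuous (fun t : ℝ => deriv psi t ^ 2) := model_continuous_dpsi.pow 2
  have hs : HasCompactSupport (fun t : ℝ => deriv psi t ^ 2) := by
    refine HasCompactSupport.intro (K := Icc (-(1 / 4)) (1 / 4)) isCompact_Icc (fun t ht => ?_)
    have : 1 / 4 < |t| := by
      by_contra hcon
      exact ht (abs_le.1 (not_lt.1 hcon))
    simp [model_dpsi_zero this]
  have hne : ∃ t, deriv psi t ≠ 0 := by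
    by_contra hcon
    push Not at hcon
    have hd : Differentiable ℝ psi := MetCut.contDiff_psi.differentiable (by simp)
    have := is_const_of_deriv_eq_zero hd hcon 0 1
    have h1 : psi 1 = 0 := MetCut.psi_zero (by norm_num)
    have h0 : psi 0 = 1 := psiBump.one_of_mem_closedBall (by
      simp only [Metric.mem_closedBall, dist_self]
      exact psiBump.rIn_pos.le)
    rw [h1, h0] at this
    exact one_ne_zero this
  obtain ⟨t, ht⟩ := hne
  exact hc.integral_pos_of_hasCompactSupport_nonneg_nonzero hs (fun t => sq_nonneg _)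
    (x := t) (pow_ne_zero 2 ht)

/-- the model pairing over one box -/
theorem model_integral : ∃ A : ℝ, 0 < A ∧ ∀ (ξ : ℝ) (j : ℕ), 0 < ξ →
    ∫ z in bx ξ j, deriv psi (ξ * z.1 - j) ^ 2 * psi (ξ * z.2) = A / ξ ^ 2 := by
  refine ⟨(∫ t : ℝ, deriv psi t ^ 2) * ∫ t : ℝ, psi t, mul_pos model_dpsi_pos ?_, ?_⟩
  · exact psiBump.integral_pos
  intro ξ j hξ
  have h1 : ∫ z in bx ξ j, deriv psi (ξ * z.1 - j) ^ 2 * psi (ξ * z.2) =
      ∫ z : Pl, deriv psi (ξ * z.1 - j) ^ 2 * psi (ξ * z.2) := by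
    refine setIntegral_eq_integral_of_forall_compl_eq_zero (fun z hz => ?_)
    by_cases hx : 1 / 4 < |ξ * z.1 - j|
    · rw [model_dpsi_zero hx]; ring
    · have hy : 1 / 4 < |ξ * z.2| := by
        by_contra hcon
        exact hz ⟨not_lt.1 hx, not_lt.1 hcon⟩
      rw [MetCut.psi_zero hy.le, mul_zero]
  rw [h1]
  have h2 : ∫ z : Pl, deriv psi (ξ * z.1 - j) ^ 2 * psi (ξ * z.2) =
      (∫ x : ℝ, deriv psi (ξ * x - j) ^ 2) * ∫ y : ℝ, psi (ξ * y) :=
    integral_prod_mul (μ := (volume : Measure ℝ)) (ν := (volume : Measure ℝ))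
      (fun x : ℝ => deriv psi (ξ * x - j) ^ 2) (fun y : ℝ => psi (ξ * y))
  rw [h2]
  have h3 : ∫ x : ℝ, deriv psi (ξ * x - j) ^ 2 = ξ⁻¹ * ∫ t : ℝ, deriv psi t ^ 2 := by
    have a := Measure.integral_comp_mul_left (fun x : ℝ => deriv psi (x - j) ^ 2) ξ
    have b : ∫ x : ℝ, deriv psi (x - j) ^ 2 = ∫ t : ℝ, deriv psi t ^ 2 :=
      integral_sub_right_eq_self (fun t : ℝ => deriv psi t ^ 2) (j : ℝ)
    rw [a, b, abs_of_pos (inv_pos.2 hξ), smul_eq_mul]
  have h4 : ∫ y : ℝ, psi (ξ * y) = ξ⁻¹ * ∫ t : ℝ, psi t := by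
    rw [Measure.integral_comp_mul_left (fun x : ℝ => psi x) ξ, abs_of_pos (inv_pos.2 hξ),
      smul_eq_mul]
  rw [h3, h4]
  field_simp

end Crest.Agent.R220.Lower
end

-- ▼ part R220/LowerPair
section

/-!
# Row 220: `lower`, the pairing bound
-/

set_option autoImplicit false

open scoped ContDiff Topology
open MeasureTheory Set

namespace Crest.Agent.R220.Lower

lemma psi_continuous : Continuous psi := prof_psi.sm.continuous

lemma dpsi_continuous : Continuous (deriv psi) := prof_psi.deriv.sm.continuous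

lemma gpat_bx {g h : ℝ → ℝ} (hg : Prof g) {ξ : ℝ} {J j : ℕ} (σ : ℕ → ℝ) (hj : j < J) {z : Pl}
    (hz : z ∈ bx ξ j) : gpat g h ξ J σ z = σ j * (g (ξ * z.1 - j) * h (ξ * z.2)) := by
  unfold gpat
  rw [Finset.sum_eq_single j]
  · intro k _ hkj
    have h1 : |ξ * z.1 - j| ≤ 1 / 4 := hz.1
    have h3 : (1 : ℝ) ≤ |(k : ℝ) - j| := by
      rcases lt_or_gt_of_ne hkj with h | h
      · have : (k : ℝ) + 1 ≤ j := by exact_mod_cast h
        rw [abs_of_nonpos (by linarith)]; linarith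
      · have : (j : ℝ) + 1 ≤ k := by exact_mod_cast h
        rw [abs_of_nonneg (by linarith)]; linarith
    have h6 : |(k : ℝ) - j| ≤ |ξ * z.1 - j| + |ξ * z.1 - k| := by
      have : (k : ℝ) - j = (ξ * z.1 - j) - (ξ * z.1 - k) := by ring
      rw [this]; exact abs_sub _ _
    rw [hg.supp _ (by linarith)]; ring
  · intro hn
    exact absurd (Finset.mem_range.2 hj) hn

lemma br_close {η δ' : ℝ} {p Y κ : Pl → ℝ} (hη : η ≤ 1 / 100) (h : GoodFrame η δ' p Y κ)
    (z : Pl) : |br p Y z - 1| ≤ 4 * η := by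
  obtain ⟨g1, g2⟩ := h.cp z
  obtain ⟨g3, g4⟩ := h.cY z
  have hη0 : 0 ≤ η := (abs_nonneg _).trans g2
  have m1 : |(dx p z - 1) * (dy Y z - 1)| ≤ η * (1 / 100) := by
    rw [abs_mul]; exact mul_le_mul g1 (g4.trans hη) (abs_nonneg _) hη0
  have m2 : |dy p z * dx Y z| ≤ η * (1 / 100) := by
    rw [abs_mul]; exact mul_le_mul g2 (g3.trans hη) (abs_nonneg _) hη0
  have e : br p Y z - 1 = (dx p z - 1) * (dy Y z - 1) + (dx p z - 1) + (dy Y z - 1)
      - dy p z * dx Y z := by unfold br; ring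
  simp only [abs_le] at g1 g2 g3 g4 m1 m2
  rw [abs_le, e]
  constructor <;> linarith [g1.1, g1.2, g2.1, g2.2, g3.1, g3.2, g4.1, g4.2, m1.1, m1.2, m2.1, m2.2]

lemma isCompact_bx {ξ : ℝ} (hξ : 0 < ξ) (j : ℕ) : IsCompact (bx ξ j) := by
  have h1 : Continuous (fun z : Pl => |ξ * z.1 - j|) := by fun_prop
  have h2 : Continuous (fun z : Pl => |ξ * z.2|) := by fun_prop
  have hcl : IsClosed (bx ξ j) :=
    (isClosed_le h1 continuous_const).inter (isClosed_le h2 continuous_const)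
  refine (isCompact_Kj ξ j).of_isClosed_subset hcl (Set.Subset.trans ?_ (bj_subset_Kj hξ j))
  intro z hz
  exact ⟨lt_of_le_of_lt hz.1 (by norm_num), hz.2.trans (by norm_num)⟩

theorem pair_lower : PairStmt := by
  obtain ⟨A, hA, hmod⟩ := model_integral
  obtain ⟨K2, hK2, hb2⟩ := prof_psi.bound
  obtain ⟨K3, hK3, hb3⟩ := prof_psi.deriv.bound
  obtain ⟨L, hL, hbL⟩ := prof_psi.deriv.deriv.bound
  have hlip : ∀ s t : ℝ, |deriv psi s - deriv psi t| ≤ L * |s - t| := fun s t => by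
    have h := Convex.norm_image_sub_le_of_norm_deriv_le (f := deriv psi) (s := Set.univ) (C := L)
      (x := t) (y := s) (fun x _ => (prof_psi.deriv.sm.differentiable (by simp)).differentiableAt)
      (fun x _ => by simpa using hbL x) convex_univ (mem_univ _) (mem_univ _)
    simpa using h
  set N : ℝ := 2 * L * (K3 * K2 / 2 + 1) + 2 * K3 + 2 * K3 ^ 2 * K2 with hN
  have hN0 : 0 ≤ N := by positivity
  refine ⟨min (1 / 100) (A / (N + 1)), A / 4, by positivity, by positivity, ?_⟩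
  intro C1 δ' ξ J σ p Y κ d H G hξ hσ hF hS j hj hσj
  set η := min (1 / 100) (A / (N + 1)) with hηdef
  have hη : η ≤ 1 / 100 := min_le_left _ _
  have hηN : η * N ≤ A := by
    have h1 : η ≤ A / (N + 1) := min_le_right _ _
    rw [le_div_iff₀ (by positivity)] at h1
    have hη0 : 0 < η := by positivity
    nlinarith
  have hη0 : 0 < η := by positivity
  have hξ0 : 0 < ξ := by linarith
  have hσ1 : |σ j| = 1 := by
    rcases hσ j with h | h | h
    · exact absurd h hσj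
    · rw [h]; norm_num
    · rw [h]; norm_num
  have hcb := isCompact_bx hξ0 j
  have hmeas : MeasurableSet (bx ξ j) := hcb.isClosed.measurableSet
  set F : Pl → ℝ := fun z => deriv psi (ξ * (p z - pj p ξ j)) * H z * br p Y z with hFdef
  set F0 : Pl → ℝ := fun z => (1 / 2) * ξ * σ j * (deriv psi (ξ * z.1 - j) ^ 2 * psi (ξ * z.2))
    with hF0def
  have cF : Continuous F := by
    have c1 : Continuous (fun z : Pl => deriv psi (ξ * (p z - pj p ξ j))) :=
      dpsi_continuous.comp (continuous_const.mul (hF.smp.continuous'.sub continuous_const))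
    exact (c1.mul hS.smH.continuous').mul (hF.smp.br hF.smY).continuous'
  have cF0 : Continuous F0 := by
    have c1 : Continuous (fun z : Pl => deriv psi (ξ * z.1 - j)) :=
      dpsi_continuous.comp ((continuous_const.mul continuous_fst).sub continuous_const)
    have c2 : Continuous (fun z : Pl => psi (ξ * z.2)) :=
      psi_continuous.comp (continuous_const.mul continuous_snd)
    exact continuous_const.mul ((c1.pow 2).mul c2)
  have iF : IntegrableOn F (bx ξ j) := cF.continuousOn.integrableOn_compact hcb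
  have iF0 : IntegrableOn F0 (bx ξ j) := cF0.continuousOn.integrableOn_compact hcb
  have hclose : ∀ z ∈ bx ξ j, |F z - F0 z| ≤ η * ξ * N := by
    intro z hz
    have h1 : |ξ * z.1 - j| ≤ 1 / 4 := hz.1
    have h2 : |ξ * z.2| ≤ 1 / 4 := hz.2
    set a := deriv psi (ξ * (p z - pj p ξ j)) with ha
    set a0 := deriv psi (ξ * z.1 - j) with ha0
    set H0 := (1 / 2) * ξ * (σ j * (a0 * psi (ξ * z.2))) with hH0
    have haa : |a - a0| ≤ L * η := by
      refine (hlip _ _).trans ?_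
      have h3 := p_shift hF hξ0 j z
      have h4 : max |ξ * z.1 - j| |ξ * z.2| ≤ 1 / 4 := max_le h1 h2
      have h5 : |ξ * (p z - pj p ξ j) - (ξ * z.1 - j)| ≤ η :=
        h3.trans (by nlinarith)
      gcongr
    have ha1 : |a| ≤ K3 := hb3 _
    have ha01 : |a0| ≤ K3 := hb3 _
    have hpat : dx (pat ξ J σ) z = ξ * (σ j * (a0 * psi (ξ * z.2))) := by
      rw [pat_eq_gpat, gpat_dx prof_psi prof_psi]
      simp only
      rw [gpat_bx prof_psi.deriv σ hj hz]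
    have hHH : |H z - H0| ≤ η * ξ := by
      have := hS.bH z
      rw [hpat] at this
      rw [hH0]
      convert this using 2
      ring
    have hH0b : |H0| ≤ ξ * (K3 * K2 / 2) := by
      rw [hH0, abs_mul, abs_mul, abs_mul, abs_mul, abs_of_pos hξ0, hσ1]
      have : |a0| * |psi (ξ * z.2)| ≤ K3 * K2 := mul_le_mul ha01 (hb2 _) (abs_nonneg _) hK3
      have e : |(1 / 2 : ℝ)| = 1 / 2 := abs_of_pos (by norm_num)
      rw [e]
      nlinarith
    have hHb : |H z| ≤ ξ * (K3 * K2 / 2 + 1) := by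
      have h3 : |H z| ≤ |H0| + |H z - H0| := by
        have : H z = H0 + (H z - H0) := by ring
        calc |H z| = |H0 + (H z - H0)| := by rw [← this]
          _ ≤ _ := abs_add_le _ _
      have : η * ξ ≤ 1 * ξ := by gcongr; linarith
      linarith
    have hJ1 : |br p Y z - 1| ≤ 4 * η := br_close hη hF z
    have hJ2 : |br p Y z| ≤ 2 := by
      have h3 := (VirialUp.frame_pt hη hF z).2.2.2.2
      rw [abs_of_nonneg (by linarith [h3.1])]; exact h3.2
    have e : F z - F0 z = (a - a0) * H z * br p Y z + a0 * (H z - H0) * br p Y z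
        + a0 * H0 * (br p Y z - 1) := by
      simp only [hFdef, hF0def, hH0]
      rw [← ha, ← ha0]
      ring
    rw [e]
    have t1 : |(a - a0) * H z * br p Y z| ≤ (L * η) * (ξ * (K3 * K2 / 2 + 1)) * 2 := by
      rw [abs_mul, abs_mul]
      exact mul_le_mul (mul_le_mul haa hHb (abs_nonneg _) (by positivity)) hJ2 (abs_nonneg _)
        (by positivity)
    have t2 : |a0 * (H z - H0) * br p Y z| ≤ K3 * (η * ξ) * 2 := by
      rw [abs_mul, abs_mul]
      exact mul_le_mul (mul_le_mul ha01 hHH (abs_nonneg _) (by positivity)) hJ2 (abs_nonneg _)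
        (by positivity)
    have t3 : |a0 * H0 * (br p Y z - 1)| ≤ K3 * (ξ * (K3 * K2 / 2)) * (4 * η) := by
      rw [abs_mul, abs_mul]
      exact mul_le_mul (mul_le_mul ha01 hH0b (abs_nonneg _) (by positivity)) hJ1 (abs_nonneg _)
        (by positivity)
    refine (abs_add_three _ _ _).trans ?_
    calc _ ≤ (L * η) * (ξ * (K3 * K2 / 2 + 1)) * 2 + K3 * (η * ξ) * 2
          + K3 * (ξ * (K3 * K2 / 2)) * (4 * η) := by linarith
      _ = η * ξ * N := by rw [hN]; ring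
  have hI0 : ∫ z in bx ξ j, F0 z = σ j * A / (2 * ξ) := by
    rw [hF0def, integral_const_mul, hmod ξ j hξ0]
    field_simp
  have hdiff : |(∫ z in bx ξ j, F z) - ∫ z in bx ξ j, F0 z| ≤ η * N / (4 * ξ) := by
    rw [← integral_sub iF iF0]
    have hvol : (volume (bx ξ j)).toReal = 1 / (4 * ξ ^ 2) := by
      rw [volume_bx hξ0, ENNReal.toReal_ofReal (by positivity)]
    have h := norm_setIntegral_le_of_norm_le_const (μ := volume) (s := bx ξ j)
      (f := fun z => F z - F0 z) (C := η * ξ * N) hcb.measure_lt_top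
      (fun z hz => by rw [Real.norm_eq_abs]; exact hclose z hz)
    rw [Real.norm_eq_abs] at h
    refine h.trans (le_of_eq ?_)
    rw [show volume.real (bx ξ j) = (volume (bx ξ j)).toReal from rfl, hvol]
    field_simp
  rw [abs_mul, abs_of_pos hξ0]
  have h3 : A / (2 * ξ) - η * N / (4 * ξ) ≤ |∫ z in bx ξ j, F z| := by
    have h4 : |∫ z in bx ξ j, F0 z| = A / (2 * ξ) := by
      rw [hI0, abs_div, abs_mul, hσ1, abs_of_pos hA, abs_of_pos (by positivity : 0 < 2 * ξ), one_mul]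
    have h5 : |∫ z in bx ξ j, F0 z| ≤ |∫ z in bx ξ j, F z|
        + |(∫ z in bx ξ j, F z) - ∫ z in bx ξ j, F0 z| := by
      have := abs_sub_abs_le_abs_sub (∫ z in bx ξ j, F0 z) (∫ z in bx ξ j, F z)
      rw [abs_sub_comm] at this
      linarith
    linarith
  calc A / 4 = ξ * (A / (2 * ξ) - A / (4 * ξ)) := by field_simp; ring
    _ ≤ ξ * (A / (2 * ξ) - η * N / (4 * ξ)) := by
        gcongr
    _ ≤ ξ * |∫ z in bx ξ j, F z| := by gcongr

end Crest.Agent.R220.Lower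
end

-- ▼ part R220/Lower
section

/-!
# Row 220: `lower`
-/

set_option autoImplicit false

open scoped ContDiff Topology
open MeasureTheory Set

namespace Crest.Agent.R220

namespace Lower

lemma bj_disjoint {ξ : ℝ} {i j : ℕ} (hij : i ≠ j) : Disjoint (bj ξ i) (bj ξ j) := by
  rw [Set.disjoint_left]
  intro z hi hj
  have h3 : (1 : ℝ) ≤ |(i : ℝ) - j| := by
    rcases lt_or_gt_of_ne hij with h | h
    · have : (i : ℝ) + 1 ≤ j := by exact_mod_cast h
      rw [abs_of_nonpos (by linarith)]; linarith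
    · have : (j : ℝ) + 1 ≤ i := by exact_mod_cast h
      rw [abs_of_nonneg (by linarith)]; linarith
  have h6 : |(i : ℝ) - j| ≤ |ξ * z.1 - j| + |ξ * z.1 - i| := by
    have : (i : ℝ) - j = (ξ * z.1 - j) - (ξ * z.1 - i) := by ring
    rw [this]; exact abs_sub _ _
  have := hi.1
  have := hj.1
  linarith

lemma measurableSet_layO (ξ : ℝ) : MeasurableSet (layO ξ) := by
  have h1 : Continuous (fun z : Pl => |z.1|) := by fun_prop
  have h2 : Continuous (fun z : Pl => |z.2|) := by fun_prop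
  exact (measurableSet_le h1.measurable measurable_const).inter
    ((measurableSet_le measurable_const h2.measurable).inter
      (measurableSet_le h2.measurable measurable_const))

lemma layO_subset_layN (ξ : ℝ) : layO ξ ⊆ layN ξ := fun _ hz => ⟨hz.1, hz.2.2⟩

lemma sum_est {ξ : ℝ} {s : ℕ → Set Pl} {T : Set Pl} {f : Pl → ℝ} (Ac : Finset ℕ)
    (hf : Continuous f) (hf0 : ∀ z, 0 ≤ f z) (hT : T ⊆ layN ξ) (_hTm : MeasurableSet T)
    (hs : ∀ i ∈ Ac, s i ⊆ T) (hsm : ∀ i, MeasurableSet (s i)) (hsb : ∀ i, s i ⊆ bj ξ i) :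
    ∑ i ∈ Ac, ∫ z in s i, f z ≤ ∫ z in T, f z := by
  have iN : IntegrableOn f (layN ξ) := hf.continuousOn.integrableOn_compact (isCompact_layN ξ)
  have iT : IntegrableOn f T := iN.mono_set hT
  rw [← integral_biUnion_finset (μ := volume) Ac (fun i _ => hsm i)
    (fun i _ j _ hij => (bj_disjoint hij).mono (hsb i) (hsb j))
    (fun i hi => iT.mono_set (hs i hi))]
  refine setIntegral_mono_set iT (Filter.Eventually.of_forall fun z => hf0 z) ?_
  exact (Set.iUnion₂_subset fun i hi => hs i hi).eventuallyLE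

end Lower

open Lower in
/-- **lower**: the lower bound for the energy in the layer. -/
theorem lower : ∃ η C : ℝ, 0 < η ∧ 0 < C ∧ ∀ (C1 δ' ξ hh : ℝ) (J : ℕ) (σ : ℕ → ℝ)
    (p Y κ d H G : Pl → ℝ), 1 ≤ C1 → 0 < δ' → δ' ≤ 1 → 16 ≤ ξ → 0 < hh → hh + 1 / ξ ≤ 1 / 16 →
    (J : ℝ) ≤ hh * ξ → (∀ j, σ j = 0 ∨ σ j = 1 ∨ σ j = -1) →
    GoodFrame η δ' p Y κ → Src C1 η ξ J σ p Y κ d H G →
    nact J σ ≤ C * (∫ z in layO ξ, en δ' p Y d z) + C * (δ' * ∫ z in layN ξ, en δ' p Y d z) := by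
  obtain ⟨η, C, hη, hC, hloc⟩ := lower_loc_of_pair pair_lower
  refine ⟨min η (1 / 100), C, by positivity, hC, ?_⟩
  intro C1 δ' ξ hh J σ p Y κ d H G hC1 hδ hδ1 hξ hhh hhξ hJ hσ hF hS
  have hξ0 : 0 < ξ := by linarith
  have hJ0 : ∀ z, br p Y z ≠ 0 := fun z => by
    have := (VirialUp.frame_pt (min_le_right _ _) hF z).2.2.2.2.1
    positivity
  have hl := hloc C1 δ' ξ hh J σ p Y κ d H G hC1 hδ hδ1 hξ hhh hhξ hJ hσ
    (goodFrame_mono (min_le_left _ _) hδ hF) (src_mono (min_le_left _ _) hξ0.le hS)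
  have cPd : Continuous (fun z => Pop p Y d z ^ 2) :=
    ((Sm.Pop hF.smp hF.smY hS.smd hJ0).continuous').pow 2
  have cTd : Continuous (fun z => Top p Y d z ^ 2) :=
    ((Sm.Top hF.smp hF.smY hS.smd hJ0).continuous').pow 2
  have cen : Continuous (fun z => en δ' p Y d z) := by
    unfold en
    exact cTd.add (continuous_const.mul cPd)
  classical
  set Ac := (Finset.range J).filter (fun j => σ j ≠ 0) with hAc
  have hnact : nact J σ = ∑ _j ∈ Ac, (1 : ℝ) := by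
    rw [Finset.sum_const, nsmul_eq_mul, mul_one]
    unfold nact
    congr!
  have hsubN : ∀ i ∈ Ac, bj ξ i ⊆ layN ξ := by
    intro i hi z hz
    have hi' := Finset.mem_range.1 (Finset.mem_filter.1 hi).1
    obtain ⟨a, b⟩ := bj_loc hξ hhξ hJ hi' hz
    refine ⟨a, ?_⟩
    have h2 := hz.2
    rw [abs_mul, abs_of_pos hξ0] at h2
    rw [le_div_iff₀ hξ0]; linarith
  have hsubO : ∀ i ∈ Ac, bjO ξ i ⊆ layO ξ := by
    intro i hi z hz
    obtain ⟨a, b⟩ := hsubN i hi (bjO_subset_bj ξ i hz)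
    refine ⟨a, ?_, b⟩
    have h2 := hz.2.1
    rw [abs_mul, abs_of_pos hξ0] at h2
    rw [div_le_iff₀ hξ0]; linarith
  have s1 : ∑ i ∈ Ac, ∫ z in bjO ξ i, Top p Y d z ^ 2 ≤ ∫ z in layO ξ, Top p Y d z ^ 2 :=
    sum_est Ac cTd (fun z => sq_nonneg _) (layO_subset_layN ξ) (measurableSet_layO ξ) hsubO
      (measurableSet_bjO ξ) (bjO_subset_bj ξ)
  have s2 : ∑ i ∈ Ac, ∫ z in bj ξ i, Pop p Y d z ^ 2 ≤ ∫ z in layN ξ, Pop p Y d z ^ 2 :=
    sum_est Ac cPd (fun z => sq_nonneg _) (subset_refl _) (isClosed_layN ξ).measurableSet hsubN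
      (measurableSet_bj ξ) (fun _ => subset_refl _)
  have iN := isCompact_layN ξ
  have t1 : ∫ z in layO ξ, Top p Y d z ^ 2 ≤ ∫ z in layO ξ, en δ' p Y d z := by
    refine setIntegral_mono ((cTd.continuousOn.integrableOn_compact iN).mono_set
      (layO_subset_layN ξ)) ((cen.continuousOn.integrableOn_compact iN).mono_set
      (layO_subset_layN ξ)) fun z => ?_
    unfold en
    have : 0 ≤ δ' * Pop p Y d z ^ 2 := by positivity
    linarith
  have t2 : δ' * ∫ z in layN ξ, Pop p Y d z ^ 2 ≤ ∫ z in layN ξ, en δ' p Y d z := by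
    rw [← integral_const_mul]
    refine setIntegral_mono ((cPd.continuousOn.integrableOn_compact iN).const_mul _)
      (cen.continuousOn.integrableOn_compact iN) fun z => ?_
    unfold en
    have := sq_nonneg (Top p Y d z)
    linarith
  calc nact J σ = ∑ _j ∈ Ac, (1 : ℝ) := hnact
    _ ≤ ∑ i ∈ Ac, (C * (∫ z in bjO ξ i, Top p Y d z ^ 2)
        + C * (δ' ^ 2 * ∫ z in bj ξ i, Pop p Y d z ^ 2)) := by
        apply Finset.sum_le_sum
        intro i hi
        obtain ⟨h1, h2⟩ := Finset.mem_filter.1 hi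
        exact hl i (Finset.mem_range.1 h1) h2
    _ = C * (∑ i ∈ Ac, ∫ z in bjO ξ i, Top p Y d z ^ 2)
        + C * (δ' ^ 2 * ∑ i ∈ Ac, ∫ z in bj ξ i, Pop p Y d z ^ 2) := by
        rw [Finset.sum_add_distrib, Finset.mul_sum, Finset.mul_sum, Finset.mul_sum]
    _ ≤ C * (∫ z in layO ξ, Top p Y d z ^ 2)
        + C * (δ' ^ 2 * ∫ z in layN ξ, Pop p Y d z ^ 2) := by gcongr
    _ = C * (∫ z in layO ξ, Top p Y d z ^ 2)
        + C * (δ' * (δ' * ∫ z in layN ξ, Pop p Y d z ^ 2)) := by ring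
    _ ≤ _ := by gcongr

end Crest.Agent.R220
end

-- ▼ part R220/PdeCore

set_option autoImplicit false

open scoped ContDiff
open MeasureTheory

namespace Crest.Agent.R220

namespace PdeCore

lemma en_nonneg {δ' : ℝ} (hδ : 0 < δ') (p Y d : Pl → ℝ) (z : Pl) : 0 ≤ en δ' p Y d z := by
  unfold en
  have := sq_nonneg (Top p Y d z)
  have := mul_nonneg hδ.le (sq_nonneg (Pop p Y d z))
  linarith

lemma arith1 (C C1 E t s ξ : ℝ) (hξ : 0 < ξ)
    (h2 : ξ * t ^ 2 ≤ C * E + C * (C1 * ξ * s * t)) :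
    t ^ 2 ≤ 2 * C * (E / ξ) + C ^ 2 * C1 ^ 2 * s ^ 2 := by
  have hk : C * (C1 * s * t) ≤ t ^ 2 / 2 + C ^ 2 * C1 ^ 2 * s ^ 2 / 2 := by
    have := sq_nonneg (t - C * C1 * s)
    have e : (t - C * C1 * s) ^ 2 = t ^ 2 - 2 * (C * (C1 * s * t)) + C ^ 2 * C1 ^ 2 * s ^ 2 := by
      ring
    linarith
  have : ξ * t ^ 2 ≤ ξ * (C * (E / ξ) + (t ^ 2 / 2 + C ^ 2 * C1 ^ 2 * s ^ 2 / 2)) := by
    calc ξ * t ^ 2 ≤ C * E + C * (C1 * ξ * s * t) := h2
      _ = C * E + ξ * (C * (C1 * s * t)) := by ring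
      _ ≤ C * E + ξ * (t ^ 2 / 2 + C ^ 2 * C1 ^ 2 * s ^ 2 / 2) := by
          have := mul_le_mul_of_nonneg_left hk hξ.le
          linarith
      _ = ξ * (C * (E / ξ) + (t ^ 2 / 2 + C ^ 2 * C1 ^ 2 * s ^ 2 / 2)) := by field_simp
  have h := le_of_mul_le_mul_left this hξ
  linarith

lemma arith2 (C C1 q eO s t g : ℝ) (hC : 1 ≤ C) (hC1 : 1 ≤ C1) (hq : 0 ≤ q)
    (hg : g ^ 2 ≤ 1 / (2 * C ^ 3 * C1 ^ 2)) (hg1 : g ^ 2 ≤ 1)
    (h2 : t ^ 2 ≤ 2 * C * q + C ^ 2 * C1 ^ 2 * s ^ 2)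
    (h3 : eO ≤ C * q) (h4 : s ^ 2 ≤ C * eO + C * (g ^ 2 * t ^ 2)) :
    s ^ 2 ≤ 6 * C ^ 2 * q := by
  have hC0 : 0 < C := by linarith
  have hC10 : 0 < C1 := by linarith
  have b1 : g ^ 2 * t ^ 2 ≤ g ^ 2 * (2 * C * q + C ^ 2 * C1 ^ 2 * s ^ 2) :=
    mul_le_mul_of_nonneg_left h2 (sq_nonneg g)
  have b2 : g ^ 2 * (2 * C * q) ≤ 1 * (2 * C * q) :=
    mul_le_mul_of_nonneg_right hg1 (by positivity)
  have b3 : g ^ 2 * (C ^ 2 * C1 ^ 2 * s ^ 2) ≤
      1 / (2 * C ^ 3 * C1 ^ 2) * (C ^ 2 * C1 ^ 2 * s ^ 2) :=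
    mul_le_mul_of_nonneg_right hg (by positivity)
  have b4 : 1 / (2 * C ^ 3 * C1 ^ 2) * (C ^ 2 * C1 ^ 2 * s ^ 2) = s ^ 2 / (2 * C) := by
    field_simp
  have b5 : g ^ 2 * t ^ 2 ≤ 2 * C * q + s ^ 2 / (2 * C) := by
    have : g ^ 2 * (2 * C * q + C ^ 2 * C1 ^ 2 * s ^ 2)
      = g ^ 2 * (2 * C * q) + g ^ 2 * (C ^ 2 * C1 ^ 2 * s ^ 2) := by ring
    linarith
  have b6 : C * (g ^ 2 * t ^ 2) ≤ C * (2 * C * q + s ^ 2 / (2 * C)) :=
    mul_le_mul_of_nonneg_left b5 hC0.le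
  have b7 : C * (2 * C * q + s ^ 2 / (2 * C)) = 2 * C ^ 2 * q + s ^ 2 / 2 := by
    field_simp
  have a1 : C * eO ≤ C * (C * q) := mul_le_mul_of_nonneg_left h3 hC0.le
  have a2 : C * (C * q) = C ^ 2 * q := by ring
  linarith

lemma arith3 (C C1 q s t : ℝ) (hC : 1 ≤ C) (hC1 : 1 ≤ C1) (hq : 0 ≤ q)
    (h2 : t ^ 2 ≤ 2 * C * q + C ^ 2 * C1 ^ 2 * s ^ 2) (h4 : s ^ 2 ≤ 6 * C ^ 2 * q) :
    t ^ 2 ≤ 8 * C ^ 4 * C1 ^ 2 * q := by
  have hC0 : 0 < C := by linarith
  have hC10 : 0 < C1 := by linarith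
  have c1 : C ^ 2 * C1 ^ 2 * s ^ 2 ≤ C ^ 2 * C1 ^ 2 * (6 * C ^ 2 * q) :=
    mul_le_mul_of_nonneg_left h4 (by positivity)
  have hC3 : 1 ≤ C ^ 3 := one_le_pow₀ hC
  have hC12 : 1 ≤ C1 ^ 2 := one_le_pow₀ hC1
  have hprod : 1 ≤ C ^ 3 * C1 ^ 2 := by
    calc (1:ℝ) = 1 * 1 := by ring
      _ ≤ C ^ 3 * C1 ^ 2 := mul_le_mul hC3 hC12 (by norm_num) (by positivity)
  have c2 : (2 * C * q) * 1 ≤ (2 * C * q) * (C ^ 3 * C1 ^ 2) :=
    mul_le_mul_of_nonneg_left hprod (by positivity)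
  have c3 : (2 * C * q) * (C ^ 3 * C1 ^ 2) = 2 * C ^ 4 * C1 ^ 2 * q := by ring
  have c4 : C ^ 2 * C1 ^ 2 * (6 * C ^ 2 * q) = 6 * C ^ 4 * C1 ^ 2 * q := by ring
  linarith

/-- pure real arithmetic behind `pde_core` -/
lemma arith (C C1 E t eO s R ξ hh g : ℝ) (hC : 1 ≤ C) (hC1 : 1 ≤ C1) (hE : 0 ≤ E)
    (ht : 0 ≤ t) (hs : 0 ≤ s) (hn : 1 ≤ s ^ 2) (hξ : 1 ≤ ξ)
    (hhh : 0 < hh) (hg : 0 < g) (hδs : g ^ 2 ≤ 1 / (2 * C ^ 3 * C1 ^ 2)) (hg1 : g ^ 2 ≤ 1)
    (hh1 : hh + 1 / ξ ≤ 1 / (14 * C ^ 4 * C1 ^ 2) * g)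
    (h1 : E ≤ C * ((hh + 1 / ξ) * (C1 * ξ * s * (t / g))) + C * R)
    (h2 : ξ * t ^ 2 ≤ C * E + C * (C1 * ξ * s * t))
    (h3 : ξ * eO ≤ C * E) (h4 : s ^ 2 ≤ C * eO + C * (g ^ 2 * t ^ 2)) :
    ξ ≤ 12 * C ^ 3 * R := by
  have hC0 : 0 < C := by linarith
  have hC10 : 0 < C1 := by linarith
  have hξ0 : 0 < ξ := by linarith
  have h2' := arith1 C C1 E t s ξ hξ0 h2
  have h3' : eO ≤ C * (E / ξ) := by
    have : ξ * eO ≤ ξ * (C * (E / ξ)) := by
      calc ξ * eO ≤ C * E := h3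
        _ = ξ * (C * (E / ξ)) := by field_simp
    exact le_of_mul_le_mul_left this hξ0
  have hq : 0 ≤ E / ξ := by positivity
  have h4' := arith2 C C1 (E / ξ) eO s t g hC hC1 hq hδs hg1 h2' h3' h4
  have h5 := arith3 C C1 (E / ξ) s t hC hC1 hq h2' h4'
  -- s t ≤ 7 C^3 C1 q
  have hst : s * t ≤ 7 * C ^ 3 * C1 * (E / ξ) := by
    have h6 : (s * t) ^ 2 ≤ (7 * C ^ 3 * C1 * (E / ξ)) ^ 2 := by
      calc (s * t) ^ 2 = s ^ 2 * t ^ 2 := by ring
        _ ≤ (6 * C ^ 2 * (E / ξ)) * (8 * C ^ 4 * C1 ^ 2 * (E / ξ)) :=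
            mul_le_mul h4' h5 (by positivity) (by positivity)
        _ = 48 * (C ^ 3 * C1 * (E / ξ)) ^ 2 := by ring
        _ ≤ 49 * (C ^ 3 * C1 * (E / ξ)) ^ 2 := by
            have := sq_nonneg (C ^ 3 * C1 * (E / ξ))
            linarith
        _ = (7 * C ^ 3 * C1 * (E / ξ)) ^ 2 := by ring
    exact le_of_sq_le_sq h6 (by positivity)
  have h7 : (hh + 1 / ξ) * (C1 * ξ * s * (t / g)) ≤ E / (2 * C) := by
    have e1 : (hh + 1 / ξ) * (C1 * ξ * s * (t / g)) = (hh + 1 / ξ) / g * (C1 * ξ * (s * t)) := by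
      field_simp
    have e2 : (hh + 1 / ξ) / g ≤ 1 / (14 * C ^ 4 * C1 ^ 2) := by
      rw [div_le_iff₀ hg]; exact hh1
    rw [e1]
    calc (hh + 1 / ξ) / g * (C1 * ξ * (s * t))
        ≤ 1 / (14 * C ^ 4 * C1 ^ 2) * (C1 * ξ * (7 * C ^ 3 * C1 * (E / ξ))) := by
          apply mul_le_mul e2 _ (by positivity) (by positivity)
          exact mul_le_mul_of_nonneg_left hst (by positivity)
      _ = E / (2 * C) := by field_simp; ring
  have h8 : E ≤ 2 * C * R := by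
    have : C * ((hh + 1 / ξ) * (C1 * ξ * s * (t / g))) ≤ C * (E / (2 * C)) :=
      mul_le_mul_of_nonneg_left h7 hC0.le
    have e : C * (E / (2 * C)) = E / 2 := by field_simp
    linarith
  have h9 : 1 ≤ 6 * C ^ 2 * (E / ξ) := hn.trans h4'
  have h10 : ξ ≤ 6 * C ^ 2 * E := by
    have := mul_le_mul_of_nonneg_right h9 hξ0.le
    have e : 6 * C ^ 2 * (E / ξ) * ξ = 6 * C ^ 2 * E := by field_simp
    linarith
  calc ξ ≤ 6 * C ^ 2 * E := h10
    _ ≤ 6 * C ^ 2 * (2 * C * R) := mul_le_mul_of_nonneg_left h8 (by positivity)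
    _ = 12 * C ^ 3 * R := by ring

lemma _root_.Crest.Agent.R220.GoodFrame.mono {η η' δ' : ℝ} {p Y κ : Pl → ℝ} (hη : η ≤ η') (hδ : 0 < δ')
    (h : GoodFrame η δ' p Y κ) : GoodFrame η' δ' p Y κ where
  smp := h.smp
  smY := h.smY
  smk := h.smk
  p0 := h.p0
  Y0 := h.Y0
  cp := fun z => ⟨(h.cp z).1.trans hη, (h.cp z).2.trans hη⟩
  cY := fun z => ⟨(h.cY z).1.trans hη, (h.cY z).2.trans hη⟩
  cp2 := fun w hw z => (h.cp2 w hw z).trans hη
  cY2 := fun w hw z => (h.cY2 w hw z).trans hη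
  ck := fun z hz => by
    have hm : η * δ' ≤ η' * δ' := mul_le_mul_of_nonneg_right hη hδ.le
    obtain ⟨a, b, c⟩ := h.ck z hz
    exact ⟨a.trans hm, b.trans hm, c.trans hm⟩

lemma _root_.Crest.Agent.R220.Src.mono {C1 η η' ξ : ℝ} {J : ℕ} {σ : ℕ → ℝ} {p Y κ d H G : Pl → ℝ} (hη : η ≤ η')
    (hξ : 0 ≤ ξ) (h : Src C1 η ξ J σ p Y κ d H G) : Src C1 η' ξ J σ p Y κ d H G where
  smd := h.smd
  smH := h.smH
  smG := h.smG
  suppH := h.suppH
  suppG := h.suppG
  bH := fun z => (h.bH z).trans (mul_le_mul_of_nonneg_right hη hξ)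
  bG := fun z => (h.bG z).trans (mul_le_mul_of_nonneg_right hη hξ)
  bPH := h.bPH
  bTG := h.bTG
  pde := h.pde

lemma one_le_nact {J : ℕ} {σ : ℕ → ℝ} (h : ∃ j < J, σ j ≠ 0) : 1 ≤ nact J σ := by
  classical
  obtain ⟨j, hj, hσ⟩ := h
  unfold nact
  have : 1 ≤ ((Finset.range J).filter (fun j => σ j ≠ 0)).card := by
    rw [Nat.one_le_iff_ne_zero, Finset.card_ne_zero]
    exact ⟨j, by simp [hj, hσ]⟩
  exact_mod_cast this

end PdeCore

open PdeCore in
theorem pde_core (C1 : ℝ) (hC1 : 1 ≤ C1) : ∃ η δs c0 : ℝ, 0 < η ∧ 0 < δs ∧ 0 < c0 ∧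
    ∀ δ' ξ hh : ℝ, 0 < δ' → δ' ≤ δs → 1 ≤ ξ → 0 < hh → hh + 1 / ξ ≤ c0 * Real.sqrt δ' →
    ∀ (J : ℕ) (σ : ℕ → ℝ), (∀ j, σ j = 0 ∨ σ j = 1 ∨ σ j = -1) → (∃ j < J, σ j ≠ 0) →
      (J : ℝ) ≤ hh * ξ →
    ∀ p Y κ d H G : Pl → ℝ, GoodFrame η δ' p Y κ → Src C1 η ξ J σ p Y κ d H G →
      c0 * ξ ≤ ∫ z in frame (7/10) (8/10), (d z ^ 2 + dx d z ^ 2 + dy d z ^ 2) := by
  obtain ⟨η1, Ca, hη1, hCa, H1⟩ := virial_up
  obtain ⟨η2, Cb, hη2, hCb, H2⟩ := layer1
  obtain ⟨η3, Cc, hη3, hCc, H3⟩ := layer2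
  obtain ⟨η4, Cd, hη4, hCd, H4⟩ := lower
  set C : ℝ := max (max (max Ca Cb) (max Cc Cd)) 1 with hCdef
  have hCa' : Ca ≤ C := (le_max_left _ _).trans ((le_max_left _ _).trans (le_max_left _ _))
  have hCb' : Cb ≤ C := (le_max_right _ _).trans ((le_max_left _ _).trans (le_max_left _ _))
  have hCc' : Cc ≤ C := (le_max_left _ _).trans ((le_max_right _ _).trans (le_max_left _ _))
  have hCd' : Cd ≤ C := (le_max_right _ _).trans ((le_max_right _ _).trans (le_max_left _ _))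
  have hC1' : 1 ≤ C := le_max_right _ _
  have hC0 : 0 < C := by linarith
  have hC10 : 0 < C1 := by linarith
  set η : ℝ := min (min η1 η2) (min η3 η4) with hη
  have h1 : η ≤ η1 := (min_le_left _ _).trans (min_le_left _ _)
  have h2 : η ≤ η2 := (min_le_left _ _).trans (min_le_right _ _)
  have h3 : η ≤ η3 := (min_le_right _ _).trans (min_le_left _ _)
  have h4 : η ≤ η4 := (min_le_right _ _).trans (min_le_right _ _)
  set c0 : ℝ := min (1 / (14 * C ^ 4 * C1 ^ 2)) (min (1 / 16) (1 / (12 * C ^ 3))) with hc0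
  have hc0pos : 0 < c0 := by
    rw [hc0]; positivity
  refine ⟨η, min 1 (1 / (2 * C ^ 3 * C1 ^ 2)), c0, by positivity, by positivity, hc0pos, ?_⟩
  intro δ' ξ hh hδ hδs hξ hhh hsum J σ hσ hact hJ p Y κ d H G hF hS
  have hδ1 : δ' ≤ 1 := hδs.trans (min_le_left _ _)
  have hδ2 : δ' ≤ 1 / (2 * C ^ 3 * C1 ^ 2) := hδs.trans (min_le_right _ _)
  have hsq1 : Real.sqrt δ' ≤ 1 := Real.sqrt_le_one.2 hδ1
  have hsq0 : 0 < Real.sqrt δ' := Real.sqrt_pos.2 hδ
  have hξ0 : 0 < ξ := by linarith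
  have hsum16 : hh + 1 / ξ ≤ 1 / 16 := by
    calc hh + 1 / ξ ≤ c0 * Real.sqrt δ' := hsum
      _ ≤ c0 * 1 := mul_le_mul_of_nonneg_left hsq1 hc0pos.le
      _ ≤ 1 / 16 := by
        rw [mul_one]; exact (min_le_right _ _).trans (min_le_left _ _)
  have hξ16 : 16 ≤ ξ := by
    have : 1 / ξ ≤ 1 / 16 := by linarith
    rw [div_le_div_iff₀ hξ0 (by norm_num)] at this
    linarith
  set n : ℝ := nact J σ with hn
  have hn1 : 1 ≤ n := one_le_nact hact
  have hn0 : 0 ≤ n := by linarith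
  set E : ℝ := ∫ z in sq (7/10), en δ' p Y d z with hE
  set eN : ℝ := ∫ z in layN ξ, en δ' p Y d z with heN
  set eO : ℝ := ∫ z in layO ξ, en δ' p Y d z with heO
  set R : ℝ := ∫ z in frame (7/10) (8/10), (d z ^ 2 + dx d z ^ 2 + dy d z ^ 2) with hR
  have hE0 : 0 ≤ E := integral_nonneg (fun z => en_nonneg hδ _ _ _ _)
  have heN0 : 0 ≤ eN := integral_nonneg (fun z => en_nonneg hδ _ _ _ _)
  have heO0 : 0 ≤ eO := integral_nonneg (fun z => en_nonneg hδ _ _ _ _)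
  have hR0 : 0 ≤ R := integral_nonneg (fun z => by positivity)
  have K1 := H1 C1 δ' ξ hh J σ p Y κ d H G hC1 hδ hδ1 hξ16 hhh hsum16 hJ hσ
    (hF.mono h1 hδ) (hS.mono h1 hξ0.le)
  have K2 := H2 C1 δ' ξ hh J σ p Y κ d H G hC1 hδ hδ1 hξ16 hhh hsum16 hJ hσ
    (hF.mono h2 hδ) (hS.mono h2 hξ0.le)
  have K3 := H3 C1 δ' ξ hh J σ p Y κ d H G hC1 hδ hδ1 hξ16 hhh hsum16 hJ hσ
    (hF.mono h3 hδ) (hS.mono h3 hξ0.le)
  have K4 := H4 C1 δ' ξ hh J σ p Y κ d H G hC1 hδ hδ1 hξ16 hhh hsum16 hJ hσ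
    (hF.mono h4 hδ) (hS.mono h4 hξ0.le)
  rw [← hE, ← hR, ← hn, ← heN] at K1
  rw [← hE, ← hn, ← heN] at K2
  rw [← hE, ← heO] at K3
  rw [← hn, ← heN, ← heO] at K4
  have hst : Real.sqrt eN ^ 2 = eN := Real.sq_sqrt heN0
  have hss : Real.sqrt n ^ 2 = n := Real.sq_sqrt hn0
  have hsg : Real.sqrt δ' ^ 2 = δ' := Real.sq_sqrt hδ.le
  have hnn1 : 0 ≤ (hh + 1 / ξ) * (C1 * ξ * Real.sqrt n * Real.sqrt (eN / δ')) := by positivity
  have hnn2 : 0 ≤ C1 * ξ * Real.sqrt n * Real.sqrt eN := by positivity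
  have key := arith C C1 E (Real.sqrt eN) eO (Real.sqrt n) R ξ hh (Real.sqrt δ') hC1' hC1 hE0
    (Real.sqrt_nonneg _) (Real.sqrt_nonneg _) (by rw [hss]; exact hn1) hξ hhh hsq0
    (by rw [hsg]; exact hδ2) (by rw [hsg]; exact hδ1)
    (hsum.trans (mul_le_mul_of_nonneg_right (min_le_left _ _) hsq0.le))
    (by
      rw [← Real.sqrt_div heN0]
      exact K1.trans (add_le_add (mul_le_mul_of_nonneg_right hCa' hnn1)
        (mul_le_mul_of_nonneg_right hCa' hR0)))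
    (by
      rw [hst]
      exact K2.trans (add_le_add (mul_le_mul_of_nonneg_right hCb' hE0)
        (mul_le_mul_of_nonneg_right hCb' hnn2)))
    (K3.trans (mul_le_mul_of_nonneg_right hCc' hE0))
    (by
      rw [hst, hss, hsg]
      exact K4.trans (add_le_add (mul_le_mul_of_nonneg_right hCd' heO0)
        (mul_le_mul_of_nonneg_right hCd' (by positivity))))
  have : c0 * ξ ≤ c0 * (12 * C ^ 3 * R) := mul_le_mul_of_nonneg_left key hc0pos.le
  refine this.trans ?_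
  have h12 : c0 ≤ 1 / (12 * C ^ 3) := (min_le_right _ _).trans (min_le_right _ _)
  calc c0 * (12 * C ^ 3 * R) ≤ 1 / (12 * C ^ 3) * (12 * C ^ 3 * R) :=
        mul_le_mul_of_nonneg_right h12 (by positivity)
    _ = R := by field_simp

end Crest.Agent.R220
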