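import Crest.Agent.R220.SourceAux
import Crest.Agent.R220.FrameClose
import Crest.Agent.R220.PdeCore
import Crest.Agent.R220.PairCacc_Mg
import Crest.Agent.R220.Pigeon
import Crest.Agent.R220.VirialUpAux
import Crest.Agent.R220.AvgFrame
import Mathlib
import Crest.Agent.R220.TopDefs
import Crest.Agent.R220.Conv
import Crest.Agent.R220.Basic
import Crest.Agent.R220.GadgetMain

-- ▼ part R220/Source
section

/-!
# Row 220: `src_of_strain`
-/

set_option autoImplicit false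

namespace Crest.Agent.R220

/-- **src_of_strain**: admissible right-hand side of the linearised equation, from the strain. -/
theorem src_of_strain : ∃ C1 C η0 : ℝ, 1 ≤ C1 ∧ 0 < C ∧ 0 < η0 ∧
    ∀ (η ξ : ℝ) (J : ℕ) (σ : ℕ → ℝ) (X Y u D1 D2 d : Pl → ℝ), 0 < η → η ≤ η0 → 1 ≤ ξ →
      (∀ j, σ j = 0 ∨ σ j = 1 ∨ σ j = -1) →
      NearCyl η X Y u → Sm D1 → Sm D2 → Sm d →
      Strain (sq (9/10)) (pat ξ J σ) X Y u D1 D2 d →
      ∃ H G : Pl → ℝ, Src C1 (C * η) ξ J σ (pf X Y u) Y (kapf X Y u) d H G :=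
  src_of_strain_aux frame_close

end Crest.Agent.R220
end

-- ▼ part R220/PairObs
section

set_option autoImplicit false

open scoped ContDiff
open MeasureTheory

namespace Crest.Agent.R220

namespace PairObs

lemma dx_sub_fst {f : Pl → ℝ} (hf : Sm f) (z : Pl) :
    dx (fun z => f z - z.1) z = dx f z - 1 := by
  unfold dx
  have h1 : DifferentiableAt ℝ f z := (ContDiff.differentiable hf (by simp)).differentiableAt
  have h2 : DifferentiableAt ℝ (fun z : Pl => z.1) z := differentiableAt_fst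
  have := fderiv_sub (𝕜 := ℝ) h1 h2
  have e : (fun z => f z - z.1) = f - (fun z : Pl => z.1) := rfl
  rw [e, this]
  simp [fderiv_fst]

lemma dy_sub_fst {f : Pl → ℝ} (hf : Sm f) (z : Pl) :
    dy (fun z => f z - z.1) z = dy f z := by
  unfold dy
  have h1 : DifferentiableAt ℝ f z := (ContDiff.differentiable hf (by simp)).differentiableAt
  have h2 : DifferentiableAt ℝ (fun z : Pl => z.1) z := differentiableAt_fst
  have := fderiv_sub (𝕜 := ℝ) h1 h2
  have e : (fun z => f z - z.1) = f - (fun z : Pl => z.1) := rfl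
  rw [e, this]
  simp [fderiv_fst]

lemma dx_sub_snd {f : Pl → ℝ} (hf : Sm f) (z : Pl) :
    dx (fun z => f z - z.2) z = dx f z := by
  unfold dx
  have h1 : DifferentiableAt ℝ f z := (ContDiff.differentiable hf (by simp)).differentiableAt
  have h2 : DifferentiableAt ℝ (fun z : Pl => z.2) z := differentiableAt_snd
  have := fderiv_sub (𝕜 := ℝ) h1 h2
  have e : (fun z => f z - z.2) = f - (fun z : Pl => z.2) := rfl
  rw [e, this]
  simp [fderiv_snd]

lemma dy_sub_snd {f : Pl → ℝ} (hf : Sm f) (z : Pl) :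
    dy (fun z => f z - z.2) z = dy f z - 1 := by
  unfold dy
  have h1 : DifferentiableAt ℝ f z := (ContDiff.differentiable hf (by simp)).differentiableAt
  have h2 : DifferentiableAt ℝ (fun z : Pl => z.2) z := differentiableAt_snd
  have := fderiv_sub (𝕜 := ℝ) h1 h2
  have e : (fun z => f z - z.2) = f - (fun z : Pl => z.2) := rfl
  rw [e, this]
  simp [fderiv_snd]

lemma dx_sub_const (f : Pl → ℝ) (c : ℝ) : dx (fun z => f z - c) = dx f := by
  funext z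
  unfold dx
  rw [fderiv_sub_const]

lemma dy_sub_const (f : Pl → ℝ) (c : ℝ) : dy (fun z => f z - c) = dy f := by
  funext z
  unfold dy
  rw [fderiv_sub_const]

lemma Dw2_sub_fst {f : Pl → ℝ} (hf : Sm f) (w : List Bool) (hw : w.length = 2) (z : Pl) :
    Dw w (fun z => f z - z.1) z = Dw w f z := by
  obtain ⟨a, b, rfl⟩ : ∃ a b, w = [a, b] := by
    match w, hw with
    | [a, b], _ => exact ⟨a, b, rfl⟩
  have h1 : dx (fun z => f z - z.1) = fun z => dx f z - 1 := funext (dx_sub_fst hf)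
  have h2 : dy (fun z => f z - z.1) = dy f := funext (dy_sub_fst hf)
  cases a <;> cases b <;> simp only [Dw, h1, h2, dx_sub_const, dy_sub_const]

lemma Dw2_sub_snd {f : Pl → ℝ} (hf : Sm f) (w : List Bool) (hw : w.length = 2) (z : Pl) :
    Dw w (fun z => f z - z.2) z = Dw w f z := by
  obtain ⟨a, b, rfl⟩ : ∃ a b, w = [a, b] := by
    match w, hw with
    | [a, b], _ => exact ⟨a, b, rfl⟩
  have h1 : dx (fun z => f z - z.2) = dx f := funext (dx_sub_snd hf)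
  have h2 : dy (fun z => f z - z.2) = fun z => dy f z - 1 := funext (dy_sub_snd hf)
  cases a <;> cases b <;> simp only [Dw, h1, h2, dx_sub_const, dy_sub_const]

lemma KapClose.mono {τ τ' δ' : ℝ} {κ : Pl → ℝ} (h : τ ≤ τ') (hδ : 0 < δ')
    (hk : KapClose τ δ' κ) : KapClose τ' δ' κ := fun z hz => by
  have hm : τ * δ' ≤ τ' * δ' := mul_le_mul_of_nonneg_right h hδ.le
  obtain ⟨a, b, c⟩ := hk z hz
  exact ⟨a.trans hm, b.trans hm, c.trans hm⟩

end PairObs

open PairObs in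
/-- the Legendre frame of a near-cylindrical surface is a `GoodFrame` -/
theorem goodFrame_of_nearCyl (ηp : ℝ) (hηp : 0 < ηp) : ∃ η0 : ℝ, 0 < η0 ∧
    ∀ (η δ' : ℝ) (X Y u : Pl → ℝ), 0 < δ' → η ≤ η0 → NearCyl η X Y u →
      KapClose η δ' (kapf X Y u) → GoodFrame ηp δ' (pf X Y u) Y (kapf X Y u) := by
  obtain ⟨η1, C, hη1, hC, HF⟩ := frame_close
  refine ⟨min η1 (min ηp (ηp / C)), by positivity, ?_⟩
  intro η δ' X Y u hδ hη hN hk
  have hη1' : η ≤ η1 := hη.trans (min_le_left _ _)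
  have hη2' : η ≤ ηp := hη.trans ((min_le_right _ _).trans (min_le_left _ _))
  have hη3' : C * η ≤ ηp := by
    have : η ≤ ηp / C := hη.trans ((min_le_right _ _).trans (min_le_right _ _))
    rw [le_div_iff₀ hC] at this
    linarith
  obtain ⟨-, hp, -, hκ, hp0, -, -, hcl, -⟩ := HF η X Y u hη1' hN
  refine ⟨hp, hN.smY, hκ, hp0, hN.Y0, fun z => ?_, fun z => ?_, fun w hw z => ?_,
    fun w hw z => ?_, KapClose.mono hη2' hδ hk⟩
  · have a := hcl [true] (by simp) z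
    have b := hcl [false] (by simp) z
    simp only [Dw] at a b
    rw [dx_sub_fst hp] at a
    rw [dy_sub_fst hp] at b
    exact ⟨a.trans hη3', b.trans hη3'⟩
  · have a := hN.clY [true] (by simp) z
    have b := hN.clY [false] (by simp) z
    simp only [Dw] at a b
    rw [dx_sub_snd hN.smY] at a
    rw [dy_sub_snd hN.smY] at b
    exact ⟨a.trans hη2', b.trans hη2'⟩
  · have a := hcl w (by omega) z
    rw [Dw2_sub_fst hp w hw] at a
    exact a.trans hη3'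
  · have a := hN.clY w (by omega) z
    rw [Dw2_sub_snd hN.smY w hw] at a
    exact a.trans hη2'

theorem pair_obs : ∃ η δs c0 : ℝ, 0 < η ∧ 0 < δs ∧ 0 < c0 ∧
    ∀ δ' ξ hh : ℝ, 0 < δ' → δ' ≤ δs → 1 ≤ ξ → 0 < hh → hh + 1 / ξ ≤ c0 * Real.sqrt δ' →
    ∀ (J : ℕ) (σ : ℕ → ℝ), (∀ j, σ j = 0 ∨ σ j = 1 ∨ σ j = -1) → (∃ j < J, σ j ≠ 0) →
      (J : ℝ) ≤ hh * ξ →
    ∀ X Y u D1 D2 d : Pl → ℝ, NearCyl η X Y u → Sm D1 → Sm D2 → Sm d →
      KapClose η δ' (kapf X Y u) → Strain (sq (9/10)) (pat ξ J σ) X Y u D1 D2 d →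
      c0 * ξ ≤ ∫ z in frame (7/10) (8/10), (d z ^ 2 + dx d z ^ 2 + dy d z ^ 2) := by
  obtain ⟨C1, C, ηs, hC1, hC, hηs, HS⟩ := src_of_strain
  obtain ⟨ηp, δs, c0, hηp, hδs, hc0, HP⟩ := pde_core C1 hC1
  obtain ⟨ηf, hηf, HG⟩ := goodFrame_of_nearCyl ηp hηp
  refine ⟨min ηs (min ηf (ηp / C)), δs, c0, by positivity, hδs, hc0, ?_⟩
  intro δ' ξ hh hδ hδ1 hξ hhh hsum J σ hσ hact hJ X Y u D1 D2 d hN hD1 hD2 hd hk hst
  have h1 : min ηs (min ηf (ηp / C)) ≤ ηs := min_le_left _ _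
  have h2 : min ηs (min ηf (ηp / C)) ≤ ηf := (min_le_right _ _).trans (min_le_left _ _)
  have h3 : C * min ηs (min ηf (ηp / C)) ≤ ηp := by
    have : min ηs (min ηf (ηp / C)) ≤ ηp / C := (min_le_right _ _).trans (min_le_right _ _)
    rw [le_div_iff₀ hC] at this
    linarith
  have hGF := HG _ δ' X Y u hδ h2 hN hk
  obtain ⟨H, G, hsrc⟩ := HS _ ξ J σ X Y u D1 D2 d (by positivity) h1 hξ hσ hN hD1 hD2 hd hst
  exact HP δ' ξ hh hδ hδ1 hξ hhh hsum J σ hσ hact hJ (pf X Y u) Y (kapf X Y u) d H G hGF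
    (hsrc.mono h3 (by linarith))

end Crest.Agent.R220
end

-- ▼ part R220/Core
section

/-!
# Row 220 (S0341): the core theorem
-/

set_option autoImplicit false

open MeasureTheory

namespace Crest.Agent.R220

/-- **core**: for every `N` and `ε` there is a metric `(1+h1) dx² + (1+h2) dy²`, `ε`-close to flat
in `C^N`, with no isometric immersion that is `C^4`-close to a parabolic cylinder. -/
theorem core : ∃ η : ℝ, 0 < η ∧ ∀ A0 : ℝ, 0 < A0 → ∀ (N : ℕ) (ε : ℝ), 0 < ε →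
    ∃ h1 h2 : Pl → ℝ, Sm h1 ∧ Sm h2 ∧
      (∀ z, z ∉ sq (99/100) → h1 z = 0 ∧ h2 z = 0) ∧
      (∀ k ≤ N, ∀ z, ‖iteratedFDeriv ℝ k h1 z‖ ≤ ε ∧ ‖iteratedFDeriv ℝ k h2 z‖ ≤ ε) ∧
      ∀ (A : ℝ) (X Y Z : Pl → ℝ), A0 ≤ A → A ≤ 1 → NearCylLoc η A X Y Z →
        ¬ IsoOn (sq 1) h1 h2 X Y Z :=
  CoreAux.core_of pair_obs pair_cacc pigeon class_pigeon avg_frame metric_cut pat_bound
    pat_smooth pat_supp Dw_le_iteratedFDeriv

end Crest.Agent.R220
end

-- ▼ part R220/Principal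
section

/-!
# Row 220 (S0341), top part: geometry of flat points, smooth extension, orthonormal bases of `E3`.

* `exists_global_ext`: a map smooth near a compact set agrees near it with a globally smooth map;
* `flat_normal`, `flat_gauss`: Koszul computation and Gauss equation for a flat metric;
* `principal`: at a point near which `F` is isometric for the flat metric, the second derivative is
  `α ⟪·,w⟫ ⟪·,w⟫ n` with `‖w‖ = ‖n‖ = 1`, `α = ‖D²F‖`.
-/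

set_option autoImplicit false

open scoped ContDiff RealInnerProductSpace Topology
open Filter Set

namespace Crest.Agent.R220.Scale

/-! ### Smooth extension -/


/-! ### Flat points -/



variable {F : E2 → E3}






/-- orthonormal pair in `E3` extends to an orthonormal basis -/
theorem exists_onb {u v : E3} (hu : ⟪u, u⟫ = 1) (hv : ⟪v, v⟫ = 1) (huv : ⟪u, v⟫ = 0) :
    ∃ b : OrthonormalBasis (Fin 3) ℝ E3, b 0 = u ∧ b 1 = v := by
  have hu' : ‖u‖ = 1 := by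
    rw [real_inner_self_eq_norm_sq] at hu
    nlinarith [norm_nonneg u]
  have hv' : ‖v‖ = 1 := by
    rw [real_inner_self_eq_norm_sq] at hv
    nlinarith [norm_nonneg v]
  have hvu : ⟪v, u⟫ = 0 := by rw [real_inner_comm]; exact huv
  have hon : Orthonormal ℝ (({0, 1} : Set (Fin 3)).domRestrict (![u, v, 0] : Fin 3 → E3)) := by
    constructor
    · rintro ⟨i, hi⟩
      rcases hi with rfl | hi
      · simpa using hu'
      · rw [Set.mem_singleton_iff] at hi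
        subst hi
        simpa using hv'
    · rintro ⟨i, hi⟩ ⟨j, hj⟩ hij
      rcases hi with rfl | hi <;> rcases hj with rfl | hj
      · exact absurd rfl hij
      · rw [Set.mem_singleton_iff] at hj
        subst hj
        simpa using huv
      · rw [Set.mem_singleton_iff] at hi
        subst hi
        simpa using hvu
      · rw [Set.mem_singleton_iff] at hi hj
        subst hi; subst hj
        exact absurd rfl hij
  obtain ⟨b, hb⟩ := hon.exists_orthonormalBasis_extension_of_card_eq (by simp)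
  exact ⟨b, by simpa using hb 0 (by simp), by simpa using hb 1 (by simp)⟩


end Crest.Agent.R220.Scale
end

-- ▼ part R220/ScaleNF
section

/-!
# Row 220 (S0341), Step 2: the normal form.

`normal_form`: if `F : E2 → E3` is smooth, `C^4`-bounded by `M` on the ball of radius `2r`, isometric
on the rotated square `z0 + r (s.1 e1 + s.2 e2)` for `(1+h1) e1*² + (1+h2) e2*²`, and its second
derivative at `z0` is concentrated on `e1 ⊗ e1`, then after rescaling and a rigid motion `F` is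
`NearCylLoc η A` with `r c / 2 ≤ A ≤ 1`, and isometric for `(1+h1)dx² + (1+h2)dy²` on `sq 1`.
-/

set_option autoImplicit false

open scoped ContDiff RealInnerProductSpace Topology
open Filter Set

namespace Crest.Agent.R220.Scale

/-! ### mean value on the square and derivatives of monomials -/

theorem fderiv_eq_dx_dy {g : Pl → ℝ} (z v : Pl) :
    fderiv ℝ g z v = v.1 * dx g z + v.2 * dy g z := by
  have : v = v.1 • ((1, 0) : Pl) + v.2 • ((0, 1) : Pl) := by ext <;> simp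
  conv_lhs => rw [this]
  rw [map_add, map_smul, map_smul]; rfl

theorem convex_sq (s : ℝ) : Convex ℝ (sq s) := by
  have : sq s = (Icc (-s) s) ×ˢ (Icc (-s) s) := by
    ext z; simp only [sq, mem_ofPred_eq, mem_prod, mem_Icc, abs_le]
  rw [this]
  exact (convex_Icc _ _).prod (convex_Icc _ _)

theorem zero_mem_sq {s : ℝ} (hs : 0 ≤ s) : (0 : Pl) ∈ sq s := by simp [sq, hs]

theorem mv_sq {g : Pl → ℝ} (hg : Sm g) {B : ℝ} (hx : ∀ z ∈ sq 1, |dx g z| ≤ B)
    (hy : ∀ z ∈ sq 1, |dy g z| ≤ B) {z : Pl} (hz : z ∈ sq 1) : |g z| ≤ |g 0| + 2 * B := by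
  have hB : 0 ≤ B := (abs_nonneg _).trans (hx 0 (zero_mem_sq zero_le_one))
  have h1 : ∀ x ∈ sq 1, ‖fderiv ℝ g x‖ ≤ 2 * B := by
    intro x hx'
    refine ContinuousLinearMap.opNorm_le_bound _ (by positivity) fun v => ?_
    rw [fderiv_eq_dx_dy, Real.norm_eq_abs]
    have h1 : |v.1| ≤ ‖v‖ := by simpa using norm_fst_le v
    have h2 : |v.2| ≤ ‖v‖ := by simpa using norm_snd_le v
    calc |v.1 * dx g x + v.2 * dy g x| ≤ |v.1 * dx g x| + |v.2 * dy g x| := abs_add_le _ _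
      _ = |v.1| * |dx g x| + |v.2| * |dy g x| := by rw [abs_mul, abs_mul]
      _ ≤ ‖v‖ * B + ‖v‖ * B := by
          gcongr
          · exact hx x hx'
          · exact hy x hx'
      _ = 2 * B * ‖v‖ := by ring
  have h2 := (convex_sq 1).norm_image_sub_le_of_norm_fderiv_le
    (fun x _ => hg.differentiableAt) h1 (zero_mem_sq zero_le_one) hz
  have h3 : ‖z - 0‖ ≤ 1 := by
    rw [sub_zero, Prod.norm_def]
    exact max_le (by simpa using hz.1) (by simpa using hz.2)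
  have h4 : |g z - g 0| ≤ 2 * B := by
    rw [← Real.norm_eq_abs]
    calc ‖g z - g 0‖ ≤ 2 * B * ‖z - 0‖ := h2
      _ ≤ 2 * B * 1 := by gcongr
      _ = 2 * B := by ring
  have := abs_add_le (g z - g 0) (g 0)
  rw [sub_add_cancel] at this
  linarith

theorem mv_Dw {g : Pl → ℝ} (hg : Sm g) {B B0 : ℝ} {n : ℕ}
    (hB : ∀ w : List Bool, w.length = n + 1 → ∀ z ∈ sq 1, |Dw w g z| ≤ B)
    (h0 : ∀ w : List Bool, w.length = n → |Dw w g 0| ≤ B0)
    (w : List Bool) (hw : w.length = n) (z : Pl) (hz : z ∈ sq 1) : |Dw w g z| ≤ B0 + 2 * B := by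
  have := mv_sq (hg.Dw w) (B := B) (fun z hz => hB (true :: w) (by simp [hw]) z hz)
    (fun z hz => hB (false :: w) (by simp [hw]) z hz) hz
  linarith [h0 w hw]

theorem Dw_const_ne {w : List Bool} (hw : w ≠ []) (c : ℝ) : Dw w (fun _ => c) = fun _ => 0 := by
  induction w with
  | nil => exact absurd rfl hw
  | cons b w ih =>
    by_cases h : w = []
    · subst h; cases b
      · exact dy_const c
      · exact dx_const c
    · cases b
      · rw [Dw_false, ih h, dy_const]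
      · rw [Dw_true, ih h, dx_const]

theorem Dw_fst {w : List Bool} (hw : 2 ≤ w.length) : Dw w (fun z => z.1) = fun _ => 0 := by
  rcases List.eq_nil_or_concat w with h | ⟨v, b, h⟩
  · subst h; simp at hw
  · rw [List.concat_eq_append] at h
    subst h
    have hv : v ≠ [] := by rintro rfl; simp at hw
    rw [Dw_append]
    cases b
    · have : Dw [false] (fun z : Pl => z.1) = fun _ => 0 := dy_fst
      rw [this, Dw_const_ne hv]
    · have : Dw [true] (fun z : Pl => z.1) = fun _ => 1 := dx_fst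
      rw [this, Dw_const_ne hv]

theorem Dw_snd {w : List Bool} (hw : 2 ≤ w.length) : Dw w (fun z => z.2) = fun _ => 0 := by
  rcases List.eq_nil_or_concat w with h | ⟨v, b, h⟩
  · subst h; simp at hw
  · rw [List.concat_eq_append] at h
    subst h
    have hv : v ≠ [] := by rintro rfl; simp at hw
    rw [Dw_append]
    cases b
    · have : Dw [false] (fun z : Pl => z.2) = fun _ => 1 := dy_snd
      rw [this, Dw_const_ne hv]
    · have : Dw [true] (fun z : Pl => z.2) = fun _ => 0 := dx_snd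
      rw [this, Dw_const_ne hv]

theorem sm_par (A : ℝ) : Sm (fun z => A * z.1 ^ 2 / 2) := by
  have : (fun z : Pl => A * z.1 ^ 2 / 2) = fun z => (A / 2) * z.1 ^ 2 := by funext z; ring
  rw [this]
  exact (Sm.const _).mul' (Sm.fst.pow' 2)

theorem dx_par (A : ℝ) : dx (fun z => A * z.1 ^ 2 / 2) = fun z => A * z.1 := by
  have : (fun z : Pl => A * z.1 ^ 2 / 2) = fun z => (A / 2) * z.1 ^ 2 := by funext z; ring
  rw [this, dx_const_mul _ (Sm.fst.pow' 2)]
  funext z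
  rw [dx_pow_at Sm.fst.differentiableAt, dx_fst]
  simp; ring

theorem dy_par (A : ℝ) : dy (fun z => A * z.1 ^ 2 / 2) = fun _ => 0 := by
  have : (fun z : Pl => A * z.1 ^ 2 / 2) = fun z => (A / 2) * z.1 ^ 2 := by funext z; ring
  rw [this, dy_const_mul _ (Sm.fst.pow' 2)]
  funext z
  rw [dy_pow_at Sm.fst.differentiableAt, dy_fst]
  simp

theorem Dw_par {w : List Bool} (hw : 3 ≤ w.length) (A : ℝ) :
    Dw w (fun z => A * z.1 ^ 2 / 2) = fun _ => 0 := by
  rcases List.eq_nil_or_concat w with h | ⟨v, b, h⟩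
  · subst h; simp at hw
  · rw [List.concat_eq_append] at h
    subst h
    have hv : 2 ≤ v.length := by simp at hw; omega
    have hv' : v ≠ [] := by rintro rfl; simp at hv
    rw [Dw_append]
    cases b
    · have : Dw [false] (fun z : Pl => A * z.1 ^ 2 / 2) = fun _ => 0 := dy_par A
      rw [this, Dw_const_ne hv']
    · have : Dw [true] (fun z : Pl => A * z.1 ^ 2 / 2) = fun z => A * z.1 := dx_par A
      rw [this, Dw_const_mul A Sm.fst, Dw_fst hv]
      simp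

/-! ### components of a map into `E3` along an affine frame -/

/-- the affine chart -/
def pt (z0 : E2) (r : ℝ) (e1 e2 : E2) (s : Pl) : E2 := z0 + r • (s.1 • e1 + s.2 • e2)

/-- frame vector attached to a letter -/
def vb (e1 e2 : E2) : Bool → E2
  | true => e1
  | false => e2

theorem pt_zero (z0 : E2) (r : ℝ) (e1 e2 : E2) : pt z0 r e1 e2 0 = z0 := by simp [pt]

theorem contDiff_pt (z0 : E2) (r : ℝ) (e1 e2 : E2) : ContDiff ℝ ∞ (pt z0 r e1 e2) := by
  unfold pt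
  fun_prop

theorem hasFDerivAt_pt (z0 : E2) (r : ℝ) (e1 e2 : E2) (s : Pl) :
    HasFDerivAt (pt z0 r e1 e2)
      (r • ((ContinuousLinearMap.fst ℝ ℝ ℝ).smulRight e1 +
        (ContinuousLinearMap.snd ℝ ℝ ℝ).smulRight e2)) s := by
  have h1 : HasFDerivAt (fun s : Pl => s.1 • e1)
      ((ContinuousLinearMap.fst ℝ ℝ ℝ).smulRight e1) s :=
    ((ContinuousLinearMap.fst ℝ ℝ ℝ).smulRight e1).hasFDerivAt
  have h2 : HasFDerivAt (fun s : Pl => s.2 • e2)
      ((ContinuousLinearMap.snd ℝ ℝ ℝ).smulRight e2) s :=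
    ((ContinuousLinearMap.snd ℝ ℝ ℝ).smulRight e2).hasFDerivAt
  exact ((h1.add h2).const_smul r).const_add z0


variable {F : E2 → E3}

theorem Dw_comp (hF : ContDiff ℝ ∞ F) (z0 : E2) (r : ℝ) (e1 e2 : E2) (u : E3) (w : List Bool)
    (s : Pl) :
    Dw w (fun s => ⟪F (pt z0 r e1 e2 s), u⟫) s =
      ⟪iteratedFDeriv ℝ w.length F (pt z0 r e1 e2 s) (fun i => r • vb e1 e2 (w.get i)), u⟫ := by
  induction w generalizing s with
  | nil => simp [Dw]
  | cons b w ih =>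
    rw [Conv.Dw_cons]
    have hfun : Dw w (fun s => ⟪F (pt z0 r e1 e2 s), u⟫) = fun s =>
        ⟪iteratedFDeriv ℝ w.length F (pt z0 r e1 e2 s) (fun i => r • vb e1 e2 (w.get i)), u⟫ := by
      funext z; exact ih z
    rw [hfun]
    have hd : DifferentiableAt ℝ (iteratedFDeriv ℝ w.length F) (pt z0 r e1 e2 s) := by
      have := (ContDiff.differentiable_iteratedFDeriv (𝕜 := ℝ) (m := w.length) (n := ∞)
        (by exact_mod_cast WithTop.coe_lt_coe.2 (ENat.natCast_lt_top _)) hF)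
      exact this _
    have h1 : HasFDerivAt (fun z => iteratedFDeriv ℝ w.length F z
          (fun i => r • vb e1 e2 (w.get i)))
        ((ContinuousMultilinearMap.apply ℝ (fun _ : Fin w.length => E2) E3
          (fun i => r • vb e1 e2 (w.get i))).comp
            (fderiv ℝ (iteratedFDeriv ℝ w.length F) (pt z0 r e1 e2 s))) (pt z0 r e1 e2 s) := by
      exact (ContinuousMultilinearMap.apply ℝ (fun _ : Fin w.length => E2) E3
          (fun i => r • vb e1 e2 (w.get i))).hasFDerivAt.comp _ hd.hasFDerivAt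
    have h2 := h1.comp s (hasFDerivAt_pt z0 r e1 e2 s)
    have h3 := (h2.inner ℝ (hasFDerivAt_const u s)).fderiv
    have h4 : (fun t => ⟪((fun z => iteratedFDeriv ℝ w.length F z
          (fun i => r • vb e1 e2 (w.get i))) ∘ pt z0 r e1 e2) t, u⟫) =
        fun s => ⟪iteratedFDeriv ℝ w.length F (pt z0 r e1 e2 s)
          (fun i => r • vb e1 e2 (w.get i)), u⟫ := rfl
    rw [← h4, h3]
    have h5 : iteratedFDeriv ℝ (w.length + 1) F (pt z0 r e1 e2 s)
          (fun i => r • vb e1 e2 ((b :: w).get i)) =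
      (fderiv ℝ (iteratedFDeriv ℝ w.length F) (pt z0 r e1 e2 s)) (r • vb e1 e2 b)
        (fun i => r • vb e1 e2 (w.get i)) := by
      rw [iteratedFDeriv_succ_apply_left]
      rfl
    have h6 : iteratedFDeriv ℝ (b :: w).length F (pt z0 r e1 e2 s)
          (fun i => r • vb e1 e2 ((b :: w).get i)) =
      (fderiv ℝ (iteratedFDeriv ℝ w.length F) (pt z0 r e1 e2 s)) (r • vb e1 e2 b)
        (fun i => r • vb e1 e2 (w.get i)) := h5
    rw [h6]
    have h7 : (r • ((ContinuousLinearMap.fst ℝ ℝ ℝ).smulRight e1 +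
        (ContinuousLinearMap.snd ℝ ℝ ℝ).smulRight e2)) (Conv.eb b) = r • vb e1 e2 b := by
      cases b <;> simp [Conv.eb, vb]
    simp only [fderivInnerCLM_apply, ContinuousLinearMap.comp_apply, ContinuousLinearMap.prod_apply,
      h7, zero_apply, inner_zero_right, zero_add]
    rfl


theorem abs_Dw_comp_le (hF : ContDiff ℝ ∞ F) (z0 : E2) {r : ℝ} (hr : 0 ≤ r) {e1 e2 : E2}
    (he1 : ‖e1‖ = 1) (he2 : ‖e2‖ = 1) {u : E3} (hu : ‖u‖ = 1) (w : List Bool) (s : Pl) {M : ℝ}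
    (hM : ‖iteratedFDeriv ℝ w.length F (pt z0 r e1 e2 s)‖ ≤ M) :
    |Dw w (fun s => ⟪F (pt z0 r e1 e2 s), u⟫) s| ≤ r ^ w.length * M := by
  rw [Dw_comp hF]
  calc |⟪iteratedFDeriv ℝ w.length F (pt z0 r e1 e2 s) (fun i => r • vb e1 e2 (w.get i)), u⟫|
      ≤ ‖iteratedFDeriv ℝ w.length F (pt z0 r e1 e2 s) (fun i => r • vb e1 e2 (w.get i))‖ * ‖u‖ :=
        abs_real_inner_le_norm _ _
    _ ≤ (‖iteratedFDeriv ℝ w.length F (pt z0 r e1 e2 s)‖ * ∏ i, ‖r • vb e1 e2 (w.get i)‖) * 1 := by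
        rw [hu]
        gcongr
        exact ContinuousMultilinearMap.le_opNorm _ _
    _ = ‖iteratedFDeriv ℝ w.length F (pt z0 r e1 e2 s)‖ * r ^ w.length := by
        rw [mul_one]
        congr 1
        have : ∀ b, ‖r • vb e1 e2 b‖ = r := by
          intro b
          rw [norm_smul, Real.norm_eq_abs, abs_of_nonneg hr]
          cases b <;> simp [vb, he1, he2]
        simp [this]
    _ ≤ M * r ^ w.length := by gcongr
    _ = _ := mul_comm _ _

theorem pt_mem {z0 : E2} {r : ℝ} (hr : 0 ≤ r) {e1 e2 : E2} (he1 : ‖e1‖ = 1) (he2 : ‖e2‖ = 1)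
    {s : Pl} (hs : s ∈ sq 1) : pt z0 r e1 e2 s ∈ Metric.closedBall z0 (2 * r) := by
  rw [Metric.mem_closedBall, dist_eq_norm, pt, add_sub_cancel_left, norm_smul, Real.norm_eq_abs,
    abs_of_nonneg hr]
  have : ‖s.1 • e1 + s.2 • e2‖ ≤ 2 := by
    calc ‖s.1 • e1 + s.2 • e2‖ ≤ ‖s.1 • e1‖ + ‖s.2 • e2‖ := norm_add_le _ _
      _ = |s.1| + |s.2| := by rw [norm_smul, norm_smul, he1, he2]; simp
      _ ≤ 2 := by linarith [hs.1, hs.2]
  nlinarith

/-- the third vector of the adapted frame, oriented by `G` -/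
theorem exists_frame {u v : E3} (hu : ⟪u, u⟫ = 1) (hv : ⟪v, v⟫ = 1) (huv : ⟪u, v⟫ = 0)
    (G : E3) : ∃ n : E3, ‖n‖ = 1 ∧ ⟪u, n⟫ = 0 ∧ ⟪v, n⟫ = 0 ∧ 0 ≤ ⟪G, n⟫ ∧
      ∀ x y : E3, ⟪x, u⟫ * ⟪y, u⟫ + ⟪x, v⟫ * ⟪y, v⟫ + ⟪x, n⟫ * ⟪y, n⟫ = ⟪x, y⟫ := by
  obtain ⟨b, hb0, hb1⟩ := exists_onb hu hv huv
  have h2 : ‖b 2‖ = 1 := b.orthonormal.1 2
  have h02 : ⟪u, b 2⟫ = 0 := by rw [← hb0]; exact b.orthonormal.2 (by decide)
  have h12 : ⟪v, b 2⟫ = 0 := by rw [← hb1]; exact b.orthonormal.2 (by decide)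
  have hP : ∀ x y : E3, ⟪x, u⟫ * ⟪y, u⟫ + ⟪x, v⟫ * ⟪y, v⟫ + ⟪x, b 2⟫ * ⟪y, b 2⟫ = ⟪x, y⟫ := by
    intro x y
    rw [← b.sum_inner_mul_inner x y, Fin.sum_univ_three, hb0, hb1, real_inner_comm y u,
      real_inner_comm y v, real_inner_comm y (b 2)]
  rcases le_total 0 ⟪G, b 2⟫ with h | h
  · exact ⟨b 2, h2, h02, h12, h, hP⟩
  · refine ⟨-b 2, by rw [norm_neg, h2], by rw [inner_neg_right, h02, neg_zero],
      by rw [inner_neg_right, h12, neg_zero], by rw [inner_neg_right]; linarith, fun x y => ?_⟩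
    rw [inner_neg_right, inner_neg_right, neg_mul_neg]
    exact hP x y


theorem close_lin {g : Pl → ℝ} (hg : Sm g) {B1 B2 η : ℝ} (hB1 : 0 ≤ B1) (hB2 : 0 ≤ B2)
    (h0 : g 0 = 0)
    (h1 : ∀ w : List Bool, w.length = 1 → |Dw w g 0| ≤ B1)
    (h2 : ∀ w : List Bool, 2 ≤ w.length → w.length ≤ 4 → ∀ z ∈ sq 1, |Dw w g z| ≤ B2)
    (hη : 2 * (B1 + 2 * B2) ≤ η) :
    ∀ w : List Bool, w.length ≤ 4 → ∀ z ∈ sq 1, |Dw w g z| ≤ η := by
  have k1 : ∀ w : List Bool, w.length = 1 → ∀ z ∈ sq 1, |Dw w g z| ≤ B1 + 2 * B2 :=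
    mv_Dw hg (fun w hw => h2 w (by omega) (by omega)) h1
  have k0 : ∀ w : List Bool, w.length = 0 → ∀ z ∈ sq 1, |Dw w g z| ≤ 0 + 2 * (B1 + 2 * B2) :=
    mv_Dw hg k1 (fun w hw => by rw [List.length_eq_zero_iff.1 hw, Dw_nil, h0, abs_zero])
  intro w hw z hz
  rcases Nat.lt_or_ge w.length 2 with h | h
  · rcases Nat.lt_or_ge w.length 1 with h' | h'
    · have := k0 w (by omega) z hz; linarith
    · have := k1 w (by omega) z hz; linarith
  · have := h2 w h hw z hz; linarith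

theorem close_quad {g : Pl → ℝ} (hg : Sm g) {B2 B3 η : ℝ} (hB2 : 0 ≤ B2) (hB3 : 0 ≤ B3)
    (h0 : g 0 = 0)
    (h1 : ∀ w : List Bool, w.length = 1 → Dw w g 0 = 0)
    (h2 : ∀ w : List Bool, w.length = 2 → |Dw w g 0| ≤ B2)
    (h3 : ∀ w : List Bool, 3 ≤ w.length → w.length ≤ 4 → ∀ z ∈ sq 1, |Dw w g z| ≤ B3)
    (hη : 4 * (B2 + 2 * B3) ≤ η) :
    ∀ w : List Bool, w.length ≤ 4 → ∀ z ∈ sq 1, |Dw w g z| ≤ η := by
  have k2 : ∀ w : List Bool, w.length = 2 → ∀ z ∈ sq 1, |Dw w g z| ≤ B2 + 2 * B3 :=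
    mv_Dw hg (fun w hw => h3 w (by omega) (by omega)) h2
  have k1 : ∀ w : List Bool, w.length = 1 → ∀ z ∈ sq 1, |Dw w g z| ≤ 0 + 2 * (B2 + 2 * B3) :=
    mv_Dw hg k2 (fun w hw => by rw [h1 w hw, abs_zero])
  have k0 : ∀ w : List Bool, w.length = 0 → ∀ z ∈ sq 1,
      |Dw w g z| ≤ 0 + 2 * (0 + 2 * (B2 + 2 * B3)) :=
    mv_Dw hg k1 (fun w hw => by rw [List.length_eq_zero_iff.1 hw, Dw_nil, h0, abs_zero])
  intro w hw z hz
  rcases Nat.lt_or_ge w.length 3 with h | h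
  · rcases Nat.lt_or_ge w.length 2 with h' | h'
    · rcases Nat.lt_or_ge w.length 1 with h'' | h''
      · have := k0 w (by omega) z hz; linarith
      · have := k1 w (by omega) z hz; linarith
    · have := k2 w (by omega) z hz; linarith
  · have := h3 w h hw z hz; linarith

/-- the rescaled component of `F` in direction `u` -/
noncomputable def cmp (F : E2 → E3) (z0 : E2) (r : ℝ) (e1 e2 : E2) (u : E3) (s : Pl) : ℝ :=
  r⁻¹ * (⟪F (pt z0 r e1 e2 s), u⟫ - ⟪F z0, u⟫)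

theorem sm_comp (hF : ContDiff ℝ ∞ F) (z0 : E2) (r : ℝ) (e1 e2 : E2) (u : E3) :
    Sm (fun s => ⟪F (pt z0 r e1 e2 s), u⟫) :=
  (hF.comp (contDiff_pt z0 r e1 e2)).inner ℝ contDiff_const

theorem sm_cmp (hF : ContDiff ℝ ∞ F) (z0 : E2) (r : ℝ) (e1 e2 : E2) (u : E3) :
    Sm (cmp F z0 r e1 e2 u) :=
  (Sm.const _).mul' ((sm_comp hF z0 r e1 e2 u).sub' (Sm.const _))

theorem cmp_zero (z0 : E2) (r : ℝ) (e1 e2 : E2) (u : E3) : cmp F z0 r e1 e2 u 0 = 0 := by
  simp [cmp, pt_zero]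

theorem Dw_cmp (hF : ContDiff ℝ ∞ F) (z0 : E2) (r : ℝ) (e1 e2 : E2) (u : E3) {w : List Bool}
    (hw : w ≠ []) (s : Pl) :
    Dw w (cmp F z0 r e1 e2 u) s = r⁻¹ * Dw w (fun s => ⟪F (pt z0 r e1 e2 s), u⟫) s := by
  unfold cmp
  rw [Dw_const_mul _ ((sm_comp hF z0 r e1 e2 u).sub' (Sm.const _)),
    Dw_sub (sm_comp hF z0 r e1 e2 u) (Sm.const _), Dw_const_ne hw]
  simp

theorem Dw1_cmp (hF : ContDiff ℝ ∞ F) (z0 : E2) {r : ℝ} (hr : 0 < r) (e1 e2 : E2) (u : E3)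
    (b : Bool) (s : Pl) :
    Dw [b] (cmp F z0 r e1 e2 u) s = ⟪fderiv ℝ F (pt z0 r e1 e2 s) (vb e1 e2 b), u⟫ := by
  rw [Dw_cmp hF _ _ _ _ _ (by simp), Dw_comp hF]
  have h1 : iteratedFDeriv ℝ [b].length F (pt z0 r e1 e2 s)
      (fun i => r • vb e1 e2 ([b].get i)) = fderiv ℝ F (pt z0 r e1 e2 s) (r • vb e1 e2 b) := by
    have := iteratedFDeriv_one_apply (𝕜 := ℝ) (f := F) (x := pt z0 r e1 e2 s)
      (fun i => r • vb e1 e2 ([b].get i))
    exact this
  rw [h1, map_smul, real_inner_smul_left]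
  field_simp

theorem Dw2_cmp (hF : ContDiff ℝ ∞ F) (z0 : E2) {r : ℝ} (hr : 0 < r) (e1 e2 : E2) (u : E3)
    (b b' : Bool) (s : Pl) :
    Dw [b, b'] (cmp F z0 r e1 e2 u) s =
      r * ⟪D2 F (pt z0 r e1 e2 s) (vb e1 e2 b) (vb e1 e2 b'), u⟫ := by
  rw [Dw_cmp hF _ _ _ _ _ (by simp), Dw_comp hF]
  have h1 : iteratedFDeriv ℝ [b, b'].length F (pt z0 r e1 e2 s)
      (fun i => r • vb e1 e2 ([b, b'].get i)) =
        fderiv ℝ (fderiv ℝ F) (pt z0 r e1 e2 s) (r • vb e1 e2 b) (r • vb e1 e2 b') := by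
    have := iteratedFDeriv_two_apply (𝕜 := ℝ) F (pt z0 r e1 e2 s)
      (fun i => r • vb e1 e2 ([b, b'].get i))
    exact this
  rw [h1, map_smul, map_smul, smul_apply, real_inner_smul_left,
    real_inner_smul_left, D2]
  field_simp

theorem abs_Dw_cmp_le (hF : ContDiff ℝ ∞ F) (z0 : E2) {r : ℝ} (hr : 0 < r) {e1 e2 : E2}
    (he1 : ‖e1‖ = 1) (he2 : ‖e2‖ = 1) {u : E3} (hu : ‖u‖ = 1) {w : List Bool} {n : ℕ}
    (hw : w.length = n + 1) (s : Pl) {M : ℝ}
    (hM : ‖iteratedFDeriv ℝ w.length F (pt z0 r e1 e2 s)‖ ≤ M) :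
    |Dw w (cmp F z0 r e1 e2 u) s| ≤ r ^ n * M := by
  have hw0 : w ≠ [] := by rintro rfl; simp at hw
  rw [Dw_cmp hF _ _ _ _ _ hw0, abs_mul, abs_of_pos (inv_pos.2 hr)]
  have := abs_Dw_comp_le hF z0 hr.le he1 he2 hu w s hM
  calc r⁻¹ * |Dw w (fun s => ⟪F (pt z0 r e1 e2 s), u⟫) s| ≤ r⁻¹ * (r ^ w.length * M) := by
        gcongr
    _ = r ^ n * M := by
        rw [hw, pow_succ]
        field_simp


theorem metric_deriv (hF : ContDiff ℝ ∞ F) (z0 : E2) (r : ℝ) (e1 e2 v w : E2) {φ : Pl → ℝ}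
    (hφ : ∀ᶠ s in 𝓝 (0 : Pl), ⟪fderiv ℝ F (pt z0 r e1 e2 s) v, fderiv ℝ F (pt z0 r e1 e2 s) w⟫
      = φ s) (b : Bool) :
    fderiv ℝ φ 0 (Conv.eb b) = r * (⟪D2 F z0 (vb e1 e2 b) v, fderiv ℝ F z0 w⟫ +
      ⟪D2 F z0 (vb e1 e2 b) w, fderiv ℝ F z0 v⟫) := by
  have hF1 : ContDiff ℝ ∞ (fderiv ℝ F) := hF.fderiv_right (by simp)
  have hd : DifferentiableAt ℝ (fderiv ℝ F) (pt z0 r e1 e2 0) := hF1.differentiable (by simp) _
  have hp := hasFDerivAt_pt z0 r e1 e2 0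
  have h1 : ∀ v : E2, HasFDerivAt (fun s => fderiv ℝ F (pt z0 r e1 e2 s) v)
      (((fderiv ℝ (fderiv ℝ F) (pt z0 r e1 e2 0)).comp
        (r • ((ContinuousLinearMap.fst ℝ ℝ ℝ).smulRight e1 +
        (ContinuousLinearMap.snd ℝ ℝ ℝ).smulRight e2))).flip v) 0 := by
    intro v
    have := (hd.hasFDerivAt.comp 0 hp).clm_apply (hasFDerivAt_const v (0 : Pl))
    simpa using this
  have h2 := (show (fun s => ⟪fderiv ℝ F (pt z0 r e1 e2 s) v, fderiv ℝ F (pt z0 r e1 e2 s) w⟫)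
    =ᶠ[𝓝 (0 : Pl)] φ from hφ).fderiv_eq (𝕜 := ℝ)
  rw [← h2, fderiv_inner_apply ℝ (h1 v).differentiableAt (h1 w).differentiableAt, (h1 v).fderiv,
    (h1 w).fderiv]
  have h7 : (r • ((ContinuousLinearMap.fst ℝ ℝ ℝ).smulRight e1 +
        (ContinuousLinearMap.snd ℝ ℝ ℝ).smulRight e2)) (Conv.eb b) = r • vb e1 e2 b := by
    cases b <;> simp [Conv.eb, vb]
  simp only [ContinuousLinearMap.flip_apply, ContinuousLinearMap.comp_apply, h7, pt_zero, map_smul,
    smul_apply, inner_smul_left, inner_smul_right, D2]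
  rw [real_inner_comm (fderiv ℝ F z0 v)]
  simp
  ring

theorem D2_symm (hF : ContDiff ℝ ∞ F) (x v w : E2) : D2 F x v w = D2 F x w v :=
  (hF.contDiffAt (x := x)).isSymmSndFDerivAt (by simp; exact ENat.LEInfty.out) v w

theorem norm_D2_le {x v w : E2} (hv : ‖v‖ = 1) (hw : ‖w‖ = 1) :
    ‖D2 F x v w‖ ≤ ‖iteratedFDeriv ℝ 2 F x‖ := by
  have h1 := (iteratedFDeriv ℝ 2 F x).le_opNorm ![v, w]
  rw [iteratedFDeriv_two_apply] at h1
  simpa [Fin.prod_univ_two, hv, hw, D2] using h1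

set_option maxHeartbeats 1000000 in
theorem normal_form (η c M : ℝ) (hη : 0 < η) (hc : 0 < c) (hM : 0 < M) :
    ∃ r0 τ κ : ℝ, 0 < r0 ∧ 0 < τ ∧ 0 < κ ∧
    ∀ r : ℝ, 0 < r → r ≤ r0 → ∀ z0 e1 e2 : E2, ‖e1‖ = 1 → ‖e2‖ = 1 →
    ∀ h1 h2 : Pl → ℝ, |h1 0| ≤ κ → |h2 0| ≤ κ →
      |dx h1 0| ≤ κ * r → |dy h1 0| ≤ κ * r →
    ∀ F : E2 → E3, ContDiff ℝ ∞ F →
      (∀ k : ℕ, 1 ≤ k → k ≤ 4 → ∀ x ∈ Metric.closedBall z0 (2 * r),
        ‖iteratedFDeriv ℝ k F x‖ ≤ M) →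
      (∀ s ∈ sq 1,
        ⟪fderiv ℝ F (pt z0 r e1 e2 s) e1, fderiv ℝ F (pt z0 r e1 e2 s) e1⟫ = 1 + h1 s ∧
        ⟪fderiv ℝ F (pt z0 r e1 e2 s) e1, fderiv ℝ F (pt z0 r e1 e2 s) e2⟫ = 0 ∧
        ⟪fderiv ℝ F (pt z0 r e1 e2 s) e2, fderiv ℝ F (pt z0 r e1 e2 s) e2⟫ = 1 + h2 s) →
      c ≤ ‖D2 F z0 e1 e1‖ → ‖D2 F z0 e1 e2‖ ≤ τ * ‖D2 F z0 e1 e1‖ →
      ‖D2 F z0 e2 e2‖ ≤ τ * ‖D2 F z0 e1 e1‖ →
      ∃ (A : ℝ) (X Y Z : Pl → ℝ), r * c / 2 ≤ A ∧ A ≤ 1 ∧ NearCylLoc η A X Y Z ∧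
        IsoOn (sq 1) h1 h2 X Y Z := by
  refine ⟨min (min 1 (1 / M)) (min (η / (8 * M)) (η * c / (32 * M))), η / 16,
    min (min (η / 4) (c / 2)) (1 / 2), by positivity, by positivity, by positivity, ?_⟩
  set κ := min (min (η / 4) (c / 2)) (1 / 2) with hκ
  have hκ1 : κ ≤ η / 4 := (min_le_left _ _).trans (min_le_left _ _)
  have hκ2 : κ ≤ c / 2 := (min_le_left _ _).trans (min_le_right _ _)
  have hκ3 : κ ≤ 1 / 2 := min_le_right _ _
  have hκ0 : 0 < κ := by positivity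
  intro r hr hrr z0 e1 e2 he1 he2 h1 h2 hh1 hh2 hh1x hh1y F hF hFM hiso hG hG12 hG22
  have hr1 : r ≤ 1 := hrr.trans ((min_le_left _ _).trans (min_le_left _ _))
  have hrM : r * M ≤ 1 := by
    have := hrr.trans ((min_le_left _ _).trans (min_le_right _ _))
    rwa [le_div_iff₀ hM] at this
  have hrM8 : r * M ≤ η / 8 := by
    have := hrr.trans ((min_le_right _ _).trans (min_le_left _ _))
    rw [le_div_iff₀ (by positivity)] at this
    linarith
  have hrM32 : 32 * (r * M) ≤ η * c := by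
    have := hrr.trans ((min_le_right _ _).trans (min_le_right _ _))
    rw [le_div_iff₀ (by positivity)] at this
    linarith
  -- the frame at the origin
  have hz := hiso 0 (zero_mem_sq zero_le_one)
  rw [pt_zero] at hz
  obtain ⟨haa, hab, hbb⟩ := hz
  set a := fderiv ℝ F z0 e1 with ha
  set b := fderiv ℝ F z0 e2 with hb
  have key : ∀ (t : ℝ) (x : E3), |t| ≤ κ → ⟪x, x⟫ = 1 + t → 1 / 2 ≤ ‖x‖ ∧ |‖x‖ - 1| ≤ κ := by
    intro t x ht hx
    rw [real_inner_self_eq_norm_sq] at hx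
    have h0 := norm_nonneg x
    have ht' := abs_le.1 ht
    have h2 : 1 / 2 ≤ ‖x‖ := by nlinarith
    refine ⟨h2, ?_⟩
    have h3 : (‖x‖ - 1) * (‖x‖ + 1) = t := by linear_combination hx
    have h4 : |‖x‖ - 1| * (‖x‖ + 1) = |t| := by
      rw [← h3, abs_mul, abs_of_pos (show 0 < ‖x‖ + 1 by linarith)]
    nlinarith [abs_nonneg (‖x‖ - 1)]
  obtain ⟨ha2, ha1⟩ := key _ _ hh1 haa
  obtain ⟨hb2, hb1⟩ := key _ _ hh2 hbb
  have ha0 : 0 < ‖a‖ := by linarith
  have hb0 : 0 < ‖b‖ := by linarith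
  set u1 : E3 := ‖a‖⁻¹ • a with hu1
  set u2 : E3 := ‖b‖⁻¹ • b with hu2
  have hu1n : ‖u1‖ = 1 := norm_smul_inv_norm (𝕜 := ℝ) (norm_pos_iff.1 ha0)
  have hu2n : ‖u2‖ = 1 := norm_smul_inv_norm (𝕜 := ℝ) (norm_pos_iff.1 hb0)
  have hu11 : ⟪u1, u1⟫ = 1 := by rw [real_inner_self_eq_norm_sq, hu1n]; norm_num
  have hu22 : ⟪u2, u2⟫ = 1 := by rw [real_inner_self_eq_norm_sq, hu2n]; norm_num
  have hu12 : ⟪u1, u2⟫ = 0 := by
    rw [hu1, hu2, real_inner_smul_left, real_inner_smul_right, hab]; simp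
  have hau1 : ⟪a, u1⟫ = ‖a‖ := by
    rw [hu1, real_inner_smul_right, real_inner_self_eq_norm_sq]; field_simp
  have hbu2 : ⟪b, u2⟫ = ‖b‖ := by
    rw [hu2, real_inner_smul_right, real_inner_self_eq_norm_sq]; field_simp
  have hau2 : ⟪a, u2⟫ = 0 := by rw [hu2, real_inner_smul_right, hab, mul_zero]
  have hbu1 : ⟪b, u1⟫ = 0 := by
    rw [hu1, real_inner_smul_right, real_inner_comm, hab, mul_zero]
  set G := D2 F z0 e1 e1 with hGdef
  obtain ⟨n, hn, hun, hvn, hGn0, hP⟩ := exists_frame hu11 hu22 hu12 G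
  have han : ⟪a, n⟫ = 0 := by
    have : a = ‖a‖ • u1 := by rw [hu1, smul_smul, mul_inv_cancel₀ ha0.ne', one_smul]
    rw [this, real_inner_smul_left, hun, mul_zero]
  have hbn : ⟪b, n⟫ = 0 := by
    have : b = ‖b‖ • u2 := by rw [hu2, smul_smul, mul_inv_cancel₀ hb0.ne', one_smul]
    rw [this, real_inner_smul_left, hvn, mul_zero]
  -- first derivatives of the metric
  have hnhds : ∀ᶠ s in 𝓝 (0 : Pl), s ∈ sq 1 := by
    have : Metric.ball (0 : Pl) 1 ⊆ sq 1 := by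
      intro s hs
      rw [Metric.mem_ball, dist_zero_right, Prod.norm_def, max_lt_iff] at hs
      exact ⟨by simpa using hs.1.le, by simpa using hs.2.le⟩
    exact mem_of_superset (Metric.ball_mem_nhds _ one_pos) this
  have m11 := metric_deriv hF z0 r e1 e2 e1 e1 (φ := fun s => 1 + h1 s)
    (hnhds.mono fun s hs => (hiso s hs).1)
  have m12 := metric_deriv hF z0 r e1 e2 e1 e2 (φ := fun _ => 0)
    (hnhds.mono fun s hs => (hiso s hs).2.1)
  have hGa : |⟪G, a⟫| ≤ κ / 2 := by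
    have h := m11 true
    rw [fderiv_const_add] at h
    have h' : dx h1 0 = r * (⟪G, a⟫ + ⟪G, a⟫) := h
    rw [h', abs_mul, abs_of_pos hr, ← two_mul, abs_mul, abs_of_pos two_pos] at hh1x
    have : r * (2 * |⟪G, a⟫|) ≤ r * κ := by linarith
    have := le_of_mul_le_mul_left this hr
    linarith
  have hGb : |⟪G, b⟫| ≤ κ / 2 := by
    have h := m11 false
    rw [fderiv_const_add] at h
    have h' : dy h1 0 = r * (⟪D2 F z0 e2 e1, a⟫ + ⟪D2 F z0 e2 e1, a⟫) := h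
    rw [h', abs_mul, abs_of_pos hr, ← two_mul, abs_mul, abs_of_pos two_pos] at hh1y
    have : r * (2 * |⟪D2 F z0 e2 e1, a⟫|) ≤ r * κ := by linarith
    have h3 := le_of_mul_le_mul_left this hr
    have h4 := m12 true
    rw [fderiv_fun_const] at h4
    have h5 : (0 : ℝ) = r * (⟪G, b⟫ + ⟪D2 F z0 e1 e2, a⟫) := h4
    have h6 : ⟪G, b⟫ + ⟪D2 F z0 e1 e2, a⟫ = 0 := by
      rcases mul_eq_zero.1 h5.symm with h | h
      · exact absurd h hr.ne'
      · exact h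
    have h7 : ⟪G, b⟫ = -⟪D2 F z0 e2 e1, a⟫ := by
      rw [D2_symm hF z0 e2 e1]; linarith
    rw [h7, abs_neg]
    linarith
  have hGu1 : |⟪G, u1⟫| ≤ κ := by
    rw [hu1, real_inner_smul_right, abs_mul, abs_of_pos (inv_pos.2 ha0)]
    calc ‖a‖⁻¹ * |⟪G, a⟫| ≤ (1 / 2 : ℝ)⁻¹ * (κ / 2) := by gcongr
      _ = κ := by ring
  have hGu2 : |⟪G, u2⟫| ≤ κ := by
    rw [hu2, real_inner_smul_right, abs_mul, abs_of_pos (inv_pos.2 hb0)]
    calc ‖b‖⁻¹ * |⟪G, b⟫| ≤ (1 / 2 : ℝ)⁻¹ * (κ / 2) := by gcongr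
      _ = κ := by ring
  have hGnn : ‖G‖ / 2 ≤ ⟪G, n⟫ := by
    have h1 := hP G G
    rw [real_inner_self_eq_norm_sq] at h1
    have h2 : ⟪G, u1⟫ * ⟪G, u1⟫ ≤ κ ^ 2 := by rw [← pow_two]; exact sq_le_sq' (by linarith [(abs_le.1 hGu1).1]) (abs_le.1 hGu1).2
    have h3 : ⟪G, u2⟫ * ⟪G, u2⟫ ≤ κ ^ 2 := by rw [← pow_two]; exact sq_le_sq' (by linarith [(abs_le.1 hGu2).1]) (abs_le.1 hGu2).2
    have h4 : κ ^ 2 ≤ (‖G‖ / 2) ^ 2 := by
      apply pow_le_pow_left₀ hκ0.le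
      linarith
    refine (pow_le_pow_iff_left₀ (by positivity) hGn0 two_ne_zero).1 ?_
    have h5 : (‖G‖ / 2) ^ 2 = ‖G‖ ^ 2 / 4 := by ring
    have h6 : ⟪G, n⟫ ^ 2 = ⟪G, n⟫ * ⟪G, n⟫ := pow_two _
    have h7 : 0 ≤ ‖G‖ ^ 2 := by positivity
    rw [h6]
    linarith
  have hGM : ‖G‖ ≤ M :=
    (norm_D2_le he1 he1).trans (hFM 2 (by norm_num) (by norm_num) z0
      (Metric.mem_closedBall_self (by positivity)))
  have hGnM : ⟪G, n⟫ ≤ M := by
    calc ⟪G, n⟫ ≤ ‖G‖ * ‖n‖ := real_inner_le_norm _ _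
      _ ≤ M := by rw [hn, mul_one]; exact hGM
  have hGpos : 0 < ‖G‖ := by linarith
  set A := r * ⟪G, n⟫ with hA
  have hAr : r * ‖G‖ ≤ 2 * A := by
    have := mul_le_mul_of_nonneg_left hGnn hr.le
    rw [hA]; linarith
  have hAc : r * c ≤ 2 * A := (mul_le_mul_of_nonneg_left hG hr.le).trans hAr
  have hA0 : 0 < A := by
    have := mul_pos hr hc
    linarith
  have hbound : ∀ u : E3, ‖u‖ = 1 → ∀ (w : List Bool) (m : ℕ), w.length = m + 1 → w.length ≤ 4 →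
      ∀ z ∈ sq 1, |Dw w (cmp F z0 r e1 e2 u) z| ≤ r ^ m * M := by
    intro u hu w m hwm hw4 z hz
    exact abs_Dw_cmp_le hF z0 hr he1 he2 hu hwm z
      (hFM w.length (by omega) hw4 _ (pt_mem hr.le he1 he2 hz))
  have hpow : ∀ (m k : ℕ), k ≤ m → r ^ m * M ≤ r ^ k * M := fun m k h => by
    have := pow_le_pow_of_le_one hr.le hr1 h
    gcongr
  have hD1 : ∀ (u : E3) (b' : Bool), Dw [b'] (cmp F z0 r e1 e2 u) 0 =
      ⟪fderiv ℝ F z0 (vb e1 e2 b'), u⟫ := by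
    intro u b'
    rw [Dw1_cmp hF z0 hr, pt_zero]
  refine ⟨A, cmp F z0 r e1 e2 u1, cmp F z0 r e1 e2 u2, cmp F z0 r e1 e2 n, by linarith, ?_, ?_, ?_⟩
  · calc A ≤ r * M := by rw [hA]; gcongr
      _ ≤ 1 := hrM
  · refine ⟨sm_cmp hF _ _ _ _ _, sm_cmp hF _ _ _ _ _, sm_cmp hF _ _ _ _ _, cmp_zero _ _ _ _ _,
      cmp_zero _ _ _ _ _, (hD1 n true).trans han, (hD1 n false).trans hbn, ?_, ?_, ?_⟩
    · refine close_lin ((sm_cmp hF _ _ _ _ _).sub' Sm.fst) hκ0.le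
        (by positivity : 0 ≤ r * M) ?_ ?_ ?_ ?_
      · rw [cmp_zero]; simp
      · intro w hw
        obtain ⟨b', rfl⟩ := List.length_eq_one_iff.1 hw
        rw [Dw_sub (sm_cmp hF _ _ _ _ _) Sm.fst]
        simp only [hD1]
        cases b'
        · have : Dw [false] (fun z : Pl => z.1) = fun _ => 0 := dy_fst
          rw [this]
          simp only [vb, ← hb, hbu1, sub_zero, abs_zero]
          exact hκ0.le
        · have : Dw [true] (fun z : Pl => z.1) = fun _ => 1 := dx_fst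
          rw [this]
          simp only [vb, ← ha, hau1]
          exact ha1
      · intro w hw2 hw4 z hz
        rw [Dw_sub (sm_cmp hF _ _ _ _ _) Sm.fst, Dw_fst hw2]
        simp only [sub_zero]
        refine (hbound u1 hu1n w (w.length - 1) (by omega) hw4 z hz).trans ?_
        simpa using hpow (w.length - 1) 1 (by omega)
      · linarith
    · refine close_lin ((sm_cmp hF _ _ _ _ _).sub' Sm.snd) hκ0.le
        (by positivity : 0 ≤ r * M) ?_ ?_ ?_ ?_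
      · rw [cmp_zero]; simp
      · intro w hw
        obtain ⟨b', rfl⟩ := List.length_eq_one_iff.1 hw
        rw [Dw_sub (sm_cmp hF _ _ _ _ _) Sm.snd]
        simp only [hD1]
        cases b'
        · have : Dw [false] (fun z : Pl => z.2) = fun _ => 1 := dy_snd
          rw [this]
          simp only [vb, ← hb, hbu2]
          exact hb1
        · have : Dw [true] (fun z : Pl => z.2) = fun _ => 0 := dx_snd
          rw [this]
          simp only [vb, ← ha, hau2, sub_zero, abs_zero]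
          exact hκ0.le
      · intro w hw2 hw4 z hz
        rw [Dw_sub (sm_cmp hF _ _ _ _ _) Sm.snd, Dw_snd hw2]
        simp only [sub_zero]
        refine (hbound u2 hu2n w (w.length - 1) (by omega) hw4 z hz).trans ?_
        simpa using hpow (w.length - 1) 1 (by omega)
      · linarith
    · refine close_quad ((sm_cmp hF _ _ _ _ _).sub' (sm_par A))
        (B2 := η / 8 * A) (B3 := η / 16 * A) (by positivity) (by positivity) ?_ ?_ ?_ ?_ ?_
      · rw [cmp_zero]; simp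
      · intro w hw
        obtain ⟨b', rfl⟩ := List.length_eq_one_iff.1 hw
        rw [Dw_sub (sm_cmp hF _ _ _ _ _) (sm_par A)]
        simp only [hD1]
        cases b'
        · have : Dw [false] (fun z : Pl => A * z.1 ^ 2 / 2) = fun _ => 0 := dy_par A
          rw [this]
          simp only [vb, ← hb, hbn, sub_zero]
        · have : Dw [true] (fun z : Pl => A * z.1 ^ 2 / 2) = fun z => A * z.1 := dx_par A
          rw [this]
          simp only [vb, ← ha, han, Prod.fst_zero, mul_zero, sub_zero]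
      · intro w hw
        obtain ⟨b1, b2, rfl⟩ := List.length_eq_two.1 hw
        rw [Dw_sub (sm_cmp hF _ _ _ _ _) (sm_par A)]
        simp only [Dw2_cmp hF z0 hr, pt_zero]
        have hp1 : Dw [false] (fun z : Pl => A * z.1 ^ 2 / 2) = fun _ => 0 := dy_par A
        have hp2 : Dw [true] (fun z : Pl => A * z.1 ^ 2 / 2) = fun z => A * z.1 := dx_par A
        have hsmall : ∀ x : E3, ‖x‖ ≤ η / 16 * ‖G‖ → |r * ⟪x, n⟫ - 0| ≤ η / 8 * A := by
          intro x hx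
          rw [sub_zero, abs_mul, abs_of_pos hr]
          calc r * |⟪x, n⟫| ≤ r * (‖x‖ * ‖n‖) := by gcongr; exact abs_real_inner_le_norm _ _
            _ ≤ r * (η / 16 * ‖G‖) := by rw [hn, mul_one]; gcongr
            _ = η / 16 * (r * ‖G‖) := by ring
            _ ≤ η / 16 * (2 * A) := by gcongr
            _ = η / 8 * A := by ring
        cases b1 <;> cases b2
        · have : Dw [false, false] (fun z : Pl => A * z.1 ^ 2 / 2) = fun _ => 0 := by
            rw [show [false, false] = [false] ++ [false] from rfl, Dw_append, hp1]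
            exact dy_const 0
          rw [this]
          exact hsmall _ hG22
        · have : Dw [false, true] (fun z : Pl => A * z.1 ^ 2 / 2) = fun _ => 0 := by
            rw [show [false, true] = [false] ++ [true] from rfl, Dw_append, hp2,
              Dw_const_mul A Sm.fst]
            have : Dw [false] (fun z : Pl => z.1) = fun _ => 0 := dy_fst
            rw [this]; simp
          rw [this]
          refine hsmall _ ?_
          rw [D2_symm hF]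
          exact hG12
        · have : Dw [true, false] (fun z : Pl => A * z.1 ^ 2 / 2) = fun _ => 0 := by
            rw [show [true, false] = [true] ++ [false] from rfl, Dw_append, hp1]
            exact dx_const 0
          rw [this]
          exact hsmall _ hG12
        · have : Dw [true, true] (fun z : Pl => A * z.1 ^ 2 / 2) = fun _ => A := by
            rw [show [true, true] = [true] ++ [true] from rfl, Dw_append, hp2,
              Dw_const_mul A Sm.fst]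
            have : Dw [true] (fun z : Pl => z.1) = fun _ => 1 := dx_fst
            rw [this]; simp
          rw [this]
          simp only [vb, ← hGdef, ← hA, sub_self, abs_zero]
          positivity
      · intro w hw3 hw4 z hz
        rw [Dw_sub (sm_cmp hF _ _ _ _ _) (sm_par A), Dw_par hw3]
        simp only [sub_zero]
        refine (hbound n hn w (w.length - 1) (by omega) hw4 z hz).trans ?_
        refine (hpow (w.length - 1) 2 (by omega)).trans ?_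
        -- `r² M ≤ (η/16) A`
        have h1 : r * c * (32 * (r * M)) ≤ r * c * (η * c) := by gcongr
        have h2 : 32 * (r ^ 2 * M) ≤ η * (r * c) := by
          have : c * (32 * (r ^ 2 * M)) ≤ c * (η * (r * c)) := by
            calc c * (32 * (r ^ 2 * M)) = r * c * (32 * (r * M)) := by ring
              _ ≤ r * c * (η * c) := h1
              _ = c * (η * (r * c)) := by ring
          exact le_of_mul_le_mul_left this hc
        have h3 : η * (r * c) ≤ η * (2 * A) := by gcongr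
        linarith
      · exact le_of_eq (by ring)
  · have e1' : ∀ (u : E3) (z : Pl), dx (cmp F z0 r e1 e2 u) z =
        ⟪fderiv ℝ F (pt z0 r e1 e2 z) e1, u⟫ := fun u z => Dw1_cmp hF z0 hr e1 e2 u true z
    have e2' : ∀ (u : E3) (z : Pl), dy (cmp F z0 r e1 e2 u) z =
        ⟪fderiv ℝ F (pt z0 r e1 e2 z) e2, u⟫ := fun u z => Dw1_cmp hF z0 hr e1 e2 u false z
    refine ⟨fun z hz => ?_, fun z hz => ?_, fun z hz => ?_⟩
    · have := hP (fderiv ℝ F (pt z0 r e1 e2 z) e1) (fderiv ℝ F (pt z0 r e1 e2 z) e1)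
      rw [(hiso z hz).1] at this
      rw [e1', e1', e1', ← this]; ring
    · have := hP (fderiv ℝ F (pt z0 r e1 e2 z) e1) (fderiv ℝ F (pt z0 r e1 e2 z) e2)
      rw [(hiso z hz).2.1] at this
      rw [e1', e1', e1', e2', e2', e2', ← this]
    · have := hP (fderiv ℝ F (pt z0 r e1 e2 z) e2) (fderiv ℝ F (pt z0 r e1 e2 z) e2)
      rw [(hiso z hz).2.2] at this
      rw [e2', e2', e2', ← this]; ring

end Crest.Agent.R220.Scale
private theorem rz_2b72789ca2 : type_of% @_root_.Crest.Agent.R220.Scale.vb.eq_1 := @_root_.Crest.Agent.R220.Scale.vb.eq_1 -- L156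
end

-- ▼ part R220/CoreGadgetAux
section

/-!
# Row 220 (S0341): `coreGadget` from `core`.
-/

set_option autoImplicit false

open scoped ContDiff RealInnerProductSpace Topology
open Filter Set

namespace Crest.Agent.R220

/-- the statement of `core` -/
def CoreStmt : Prop := ∃ η : ℝ, 0 < η ∧ ∀ A0 : ℝ, 0 < A0 → ∀ (N : ℕ) (ε : ℝ), 0 < ε →
    ∃ h1 h2 : Pl → ℝ, Sm h1 ∧ Sm h2 ∧
      (∀ z, z ∉ sq (99/100) → h1 z = 0 ∧ h2 z = 0) ∧
      (∀ k ≤ N, ∀ z, ‖iteratedFDeriv ℝ k h1 z‖ ≤ ε ∧ ‖iteratedFDeriv ℝ k h2 z‖ ≤ ε) ∧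
      ∀ (A : ℝ) (X Y Z : Pl → ℝ), A0 ≤ A → A ≤ 1 → NearCylLoc η A X Y Z →
        ¬ IsoOn (sq 1) h1 h2 X Y Z

namespace Scale

/-- the rank one symmetric tensor `⟪e,·⟫ ⟪e,·⟫` -/
noncomputable def tens (e : E2) : E2 →L[ℝ] E2 →L[ℝ] ℝ := (innerSL ℝ e).smulRight (innerSL ℝ e)

theorem tens_apply (e v w : E2) : tens e v w = ⟪e, v⟫ * ⟪e, w⟫ := by
  simp [tens]

theorem norm_tens_le {e : E2} (he : ‖e‖ = 1) : ‖tens e‖ ≤ 1 := by
  refine ContinuousLinearMap.opNorm_le_bound _ zero_le_one fun v => ?_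
  refine ContinuousLinearMap.opNorm_le_bound _ (by positivity) fun w => ?_
  rw [tens_apply, Real.norm_eq_abs, abs_mul]
  have h1 := abs_real_inner_le_norm e v
  have h2 := abs_real_inner_le_norm e w
  rw [he, one_mul] at h1 h2
  rw [one_mul]
  gcongr

/-- the linear part of the inverse chart -/
noncomputable def coL (r : ℝ) (e1 e2 : E2) : E2 →L[ℝ] Pl :=
  (r⁻¹ • (innerSL ℝ e1)).prod (r⁻¹ • (innerSL ℝ e2))

theorem coL_apply (r : ℝ) (e1 e2 x : E2) : coL r e1 e2 x = (r⁻¹ * ⟪e1, x⟫, r⁻¹ * ⟪e2, x⟫) := by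
  simp [coL]

theorem norm_coL_le {r : ℝ} (hr : 0 < r) {e1 e2 : E2} (he1 : ‖e1‖ = 1) (he2 : ‖e2‖ = 1) :
    ‖coL r e1 e2‖ ≤ r⁻¹ := by
  refine ContinuousLinearMap.opNorm_le_bound _ (by positivity) fun v => ?_
  rw [coL_apply, Prod.norm_def]
  have h1 := abs_real_inner_le_norm e1 v
  have h2 := abs_real_inner_le_norm e2 v
  rw [he1, one_mul] at h1
  rw [he2, one_mul] at h2
  have hr' : 0 < r⁻¹ := inv_pos.2 hr
  refine max_le ?_ ?_
  · simp only [Real.norm_eq_abs, abs_mul, abs_of_pos hr']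
    gcongr
  · simp only [Real.norm_eq_abs, abs_mul, abs_of_pos hr']
    gcongr

/-- the inverse chart -/
noncomputable def co (z0 : E2) (r : ℝ) (e1 e2 : E2) (x : E2) : Pl := coL r e1 e2 (x - z0)

theorem co_pt {z0 : E2} {r : ℝ} (hr : 0 < r) {e1 e2 : E2} (he1 : ‖e1‖ = 1) (he2 : ‖e2‖ = 1)
    (h12 : ⟪e1, e2⟫ = 0) (s : Pl) : co z0 r e1 e2 (pt z0 r e1 e2 s) = s := by
  have h11 : ⟪e1, e1⟫ = 1 := by rw [real_inner_self_eq_norm_sq, he1]; norm_num
  have h22 : ⟪e2, e2⟫ = 1 := by rw [real_inner_self_eq_norm_sq, he2]; norm_num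
  have h21 : ⟪e2, e1⟫ = 0 := by rw [real_inner_comm]; exact h12
  rw [co, pt, add_sub_cancel_left, coL_apply]
  ext
  · simp only [inner_smul_right, inner_add_right, h11, h12]
    field_simp; ring
  · simp only [inner_smul_right, inner_add_right, h21, h22]
    field_simp; ring

theorem pt_co {z0 : E2} {r : ℝ} (hr : 0 < r) {e1 e2 : E2} (he1 : ‖e1‖ = 1) (he2 : ‖e2‖ = 1)
    (h12 : ⟪e1, e2⟫ = 0) (x : E2) : pt z0 r e1 e2 (co z0 r e1 e2 x) = x := by
  have hon : Orthonormal ℝ ![e1, e2] := by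
    constructor
    · intro i; fin_cases i <;> simp [he1, he2]
    · intro i j hij
      fin_cases i <;> fin_cases j
      · exact absurd rfl hij
      · simpa using h12
      · simpa [real_inner_comm] using h12
      · exact absurd rfl hij
  obtain ⟨b, hb⟩ : ∃ b : OrthonormalBasis (Fin 2) ℝ E2, ⇑b = ![e1, e2] := by
    have hspan : ⊤ ≤ Submodule.span ℝ (Set.range ![e1, e2]) := by
      have := hon.linearIndependent.span_eq_top_of_card_eq_finrank (by simp)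
      exact this.ge
    exact ⟨OrthonormalBasis.mk hon hspan, OrthonormalBasis.coe_mk hon hspan⟩
  have h := b.sum_repr' (x - z0)
  rw [Fin.sum_univ_two, hb] at h
  simp only [Matrix.cons_val_zero, Matrix.cons_val_one] at h
  rw [pt, co, coL_apply]
  simp only [smul_add, smul_smul, ← mul_assoc, mul_inv_cancel₀ hr.ne', one_mul]
  rw [h]; abel

theorem contDiff_co (z0 : E2) (r : ℝ) (e1 e2 : E2) : ContDiff ℝ ∞ (co z0 r e1 e2) :=
  (coL r e1 e2).contDiff.comp (contDiff_id.sub contDiff_const)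

section generic

variable {V : Type*} [NormedAddCommGroup V] [NormedSpace ℝ V]

theorem contDiff_tfg (z0 : E2) (r : ℝ) (e1 e2 : E2) {h1 h2 : Pl → ℝ} (s1 : Sm h1) (s2 : Sm h2)
    (T1 T2 : V) :
    ContDiff ℝ ∞ (fun x => h1 (co z0 r e1 e2 x) • T1 + h2 (co z0 r e1 e2 x) • T2) :=
  ((s1.comp (contDiff_co z0 r e1 e2)).smul contDiff_const).add
    ((s2.comp (contDiff_co z0 r e1 e2)).smul contDiff_const)

theorem norm_iter_le {z0 : E2} {r : ℝ} (hr : 0 < r) {e1 e2 : E2} (he1 : ‖e1‖ = 1)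
    (he2 : ‖e2‖ = 1) {T : V} (hT : ‖T‖ ≤ 1) {g : Pl → ℝ} (hg : Sm g) {k : ℕ} {ε : ℝ}
    (hk : ∀ z, ‖iteratedFDeriv ℝ k g z‖ ≤ ε) (x : E2) :
    ‖iteratedFDeriv ℝ k (fun x => g (co z0 r e1 e2 x) • T) x‖ ≤ ε * r⁻¹ ^ k := by
  have hε : 0 ≤ ε := (norm_nonneg _).trans (hk 0)
  have h1 : (fun x => g (co z0 r e1 e2 x) • T) =
      ((ContinuousLinearMap.id ℝ ℝ).smulRight T) ∘ (fun x => g (co z0 r e1 e2 x)) := by
    funext x; simp
  have hgc : ContDiff ℝ ∞ (fun x => g (co z0 r e1 e2 x)) := hg.comp (contDiff_co z0 r e1 e2)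
  have hk' : (k : WithTop ℕ∞) ≤ ∞ := by exact_mod_cast le_top
  rw [h1, ContinuousLinearMap.iteratedFDeriv_comp_left _ hgc.contDiffAt hk']
  refine (ContinuousLinearMap.norm_compContinuousMultilinearMap_le _ _).trans ?_
  have h2 : (fun x => g (co z0 r e1 e2 x)) =
      (fun x => (g ∘ (coL r e1 e2)) (x - z0)) := rfl
  have h3 : ‖iteratedFDeriv ℝ k (fun x => g (co z0 r e1 e2 x)) x‖ ≤ ε * r⁻¹ ^ k := by
    rw [h2, iteratedFDeriv_comp_sub, ContinuousLinearMap.iteratedFDeriv_comp_right _ hg _ hk']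
    refine (ContinuousMultilinearMap.norm_compContinuousLinearMap_le _ _).trans ?_
    rw [Finset.prod_const, Finset.card_univ, Fintype.card_fin]
    have := norm_coL_le hr he1 he2
    gcongr
    exact hk _
  have h4 : ‖(ContinuousLinearMap.id ℝ ℝ).smulRight T‖ ≤ 1 := by
    rw [ContinuousLinearMap.norm_smulRight_apply]
    calc ‖ContinuousLinearMap.id ℝ ℝ‖ * ‖T‖ ≤ 1 * 1 := by
          gcongr
          exact ContinuousLinearMap.norm_id_le
      _ = 1 := one_mul 1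
  calc _ ≤ 1 * (ε * r⁻¹ ^ k) := by gcongr
    _ = _ := one_mul _

theorem norm_iter_tfg_le {z0 : E2} {r : ℝ} (hr : 0 < r) {e1 e2 : E2} (he1 : ‖e1‖ = 1)
    (he2 : ‖e2‖ = 1) {T1 T2 : V} (hT1 : ‖T1‖ ≤ 1) (hT2 : ‖T2‖ ≤ 1)
    {h1 h2 : Pl → ℝ} (s1 : Sm h1) (s2 : Sm h2) {k : ℕ} {ε : ℝ}
    (hk : ∀ z, ‖iteratedFDeriv ℝ k h1 z‖ ≤ ε ∧ ‖iteratedFDeriv ℝ k h2 z‖ ≤ ε) (x : E2) :
    ‖iteratedFDeriv ℝ k (fun x => h1 (co z0 r e1 e2 x) • T1 + h2 (co z0 r e1 e2 x) • T2) x‖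
      ≤ 2 * (ε * r⁻¹ ^ k) := by
  have hk' : (k : WithTop ℕ∞) ≤ ∞ := by exact_mod_cast le_top
  have c1 : ContDiff ℝ ∞ (fun x => h1 (co z0 r e1 e2 x) • T1) :=
    (s1.comp (contDiff_co z0 r e1 e2)).smul contDiff_const
  have c2 : ContDiff ℝ ∞ (fun x => h2 (co z0 r e1 e2 x) • T2) :=
    (s2.comp (contDiff_co z0 r e1 e2)).smul contDiff_const
  have h : iteratedFDeriv ℝ k
      (fun x => h1 (co z0 r e1 e2 x) • T1 + h2 (co z0 r e1 e2 x) • T2) x =
      iteratedFDeriv ℝ k (fun x => h1 (co z0 r e1 e2 x) • T1) x +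
      iteratedFDeriv ℝ k (fun x => h2 (co z0 r e1 e2 x) • T2) x :=
    iteratedFDeriv_add_apply (c1.of_le hk').contDiffAt (c2.of_le hk').contDiffAt
  rw [h]
  refine (norm_add_le _ _).trans ?_
  have a1 := norm_iter_le (z0 := z0) hr he1 he2 hT1 s1 (fun z => (hk z).1) x
  have a2 := norm_iter_le (z0 := z0) hr he1 he2 hT2 s2 (fun z => (hk z).2) x
  linarith

end generic

/-- the tensor field -/
noncomputable def tf (z0 : E2) (r : ℝ) (e1 e2 : E2) (h1 h2 : Pl → ℝ) :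
    E2 → (E2 →L[ℝ] E2 →L[ℝ] ℝ) := fun x =>
  h1 (co z0 r e1 e2 x) • tens e1 + h2 (co z0 r e1 e2 x) • tens e2

theorem tf_apply (z0 : E2) (r : ℝ) (e1 e2 : E2) (h1 h2 : Pl → ℝ) (x v w : E2) :
    tf z0 r e1 e2 h1 h2 x v w = h1 (co z0 r e1 e2 x) * (⟪e1, v⟫ * ⟪e1, w⟫) +
      h2 (co z0 r e1 e2 x) * (⟪e2, v⟫ * ⟪e2, w⟫) := by
  have : tf z0 r e1 e2 h1 h2 x v w = h1 (co z0 r e1 e2 x) * tens e1 v w +
      h2 (co z0 r e1 e2 x) * tens e2 v w := rfl
  rw [this, tens_apply, tens_apply]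

end Scale

open Scale in
theorem coreGadget_of (hcore : CoreStmt) (c M : ℝ) (hc : 0 < c) (hM : 0 < M) :
    ∃ r0 τ : ℝ, 0 < r0 ∧ 0 < τ ∧
    ∀ r : ℝ, 0 < r → r ≤ r0 → ∀ z0 e1 e2 : E2, ‖e1‖ = 1 → ‖e2‖ = 1 → @inner ℝ E2 _ e1 e2 = 0 →
    ∀ (N : ℕ) (ε : ℝ), 0 < ε → ∃ h : E2 → (E2 →L[ℝ] E2 →L[ℝ] ℝ),
      ContDiff ℝ ∞ h ∧ (∀ x, x ∉ Metric.closedBall z0 (2 * r) → h x = 0) ∧
      (∀ x v w, h x v w = h x w v) ∧
      (∀ k ≤ N, ∀ x, ‖iteratedFDeriv ℝ k h x‖ ≤ ε) ∧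
      ∀ F : E2 → E3, ContDiff ℝ ∞ F →
        (∀ k : ℕ, 1 ≤ k → k ≤ 4 → ∀ x ∈ Metric.closedBall z0 (2 * r),
          ‖iteratedFDeriv ℝ k F x‖ ≤ M) →
        IsoE (Metric.closedBall z0 (2 * r)) h F →
        c ≤ ‖D2 F z0 e1 e1‖ →
        ‖D2 F z0 e1 e2‖ ≤ τ * ‖D2 F z0 e1 e1‖ →
        ‖D2 F z0 e2 e2‖ ≤ τ * ‖D2 F z0 e1 e1‖ → False := by
  obtain ⟨η, hη, hcore⟩ := hcore
  obtain ⟨r0, τ, κ, hr0, hτ, hκ, hnf⟩ := normal_form η c M hη hc hM
  refine ⟨min r0 1, τ, by positivity, hτ, ?_⟩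
  intro r hr hrr z0 e1 e2 he1 he2 h12 N ε hε
  have hrr0 : r ≤ r0 := hrr.trans (min_le_left _ _)
  have hr1 : r ≤ 1 := hrr.trans (min_le_right _ _)
  set ε' := min (ε / 2 * r ^ N) (κ * r) with hε'
  have hε0 : 0 < ε' := by positivity
  have hε1 : ε' ≤ ε / 2 * r ^ N := min_le_left _ _
  have hε2 : ε' ≤ κ * r := min_le_right _ _
  have hε3 : ε' ≤ κ := hε2.trans (by nlinarith)
  obtain ⟨h1, h2, s1, s2, hsupp, hbd, hno⟩ :=
    hcore (r * c / 2) (by positivity) (max N 1) ε' hε0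
  have h11 : ⟪e1, e1⟫ = 1 := by rw [real_inner_self_eq_norm_sq, he1]; norm_num
  have h22 : ⟪e2, e2⟫ = 1 := by rw [real_inner_self_eq_norm_sq, he2]; norm_num
  have h21 : ⟪e2, e1⟫ = 0 := by rw [real_inner_comm]; exact h12
  refine ⟨tf z0 r e1 e2 h1 h2, contDiff_tfg z0 r e1 e2 s1 s2 (tens e1) (tens e2), ?_, ?_, ?_, ?_⟩
  · intro x hx
    have : co z0 r e1 e2 x ∉ sq (99 / 100) := by
      intro h
      apply hx
      have h' : co z0 r e1 e2 x ∈ sq 1 := ⟨h.1.trans (by norm_num), h.2.trans (by norm_num)⟩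
      have := pt_mem (z0 := z0) hr.le he1 he2 h'
      rwa [pt_co hr he1 he2 h12] at this
    obtain ⟨a1, a2⟩ := hsupp _ this
    ext v w
    rw [tf_apply, a1, a2]
    simp
  · intro x v w
    rw [tf_apply, tf_apply]
    ring
  · intro k hk x
    refine (norm_iter_tfg_le hr he1 he2 (norm_tens_le he1) (norm_tens_le he2) s1 s2 (hbd k (hk.trans (le_max_left _ _))) x).trans ?_
    have hinv : 1 ≤ r⁻¹ := (one_le_inv₀ hr).2 hr1
    have e1 : r⁻¹ ^ k ≤ r⁻¹ ^ N := pow_le_pow_right₀ hinv hk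
    calc 2 * (ε' * r⁻¹ ^ k) ≤ 2 * ((ε / 2 * r ^ N) * r⁻¹ ^ N) := by gcongr
      _ = ε := by
          rw [mul_assoc, ← mul_pow, mul_inv_cancel₀ hr.ne', one_pow]; ring
  · intro F hF hFM hiso hG hG12 hG22
    have hb : ∀ (g : Pl → ℝ), Sm g → (∀ k ≤ max N 1, ∀ z, ‖iteratedFDeriv ℝ k g z‖ ≤ ε') →
        |g 0| ≤ κ ∧ |dx g 0| ≤ κ * r ∧ |dy g 0| ≤ κ * r := by
      intro g hg hk
      refine ⟨?_, ?_, ?_⟩
      · exact ((Conv.abs_Dw_le_norm_iteratedFDeriv hg [] 0).trans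
          (hk 0 (Nat.zero_le _) 0)).trans hε3
      · exact ((Conv.abs_Dw_le_norm_iteratedFDeriv hg [true] 0).trans
          (hk 1 (le_max_right _ _) 0)).trans hε2
      · exact ((Conv.abs_Dw_le_norm_iteratedFDeriv hg [false] 0).trans
          (hk 1 (le_max_right _ _) 0)).trans hε2
    obtain ⟨b1, b1x, b1y⟩ := hb h1 s1 (fun k hk z => (hbd k hk z).1)
    obtain ⟨b2, -, -⟩ := hb h2 s2 (fun k hk z => (hbd k hk z).2)
    obtain ⟨A, X, Y, Z, hA0, hA1, hnc, hio⟩ := hnf r hr hrr0 z0 e1 e2 he1 he2 h1 h2 b1 b2 b1x b1y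
      F hF hFM (by
        intro s hs
        have hm := pt_mem (z0 := z0) hr.le he1 he2 hs
        have key : ∀ v w : E2, ⟪fderiv ℝ F (pt z0 r e1 e2 s) v, fderiv ℝ F (pt z0 r e1 e2 s) w⟫
            = ⟪v, w⟫ + (h1 s * (⟪e1, v⟫ * ⟪e1, w⟫) + h2 s * (⟪e2, v⟫ * ⟪e2, w⟫)) := by
          intro v w
          rw [hiso _ hm v w]
          rw [tf_apply, co_pt hr he1 he2 h12]
        refine ⟨?_, ?_, ?_⟩
        · rw [key, h11, h21]; ring
        · rw [key, h11, h21, h12]; ring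
        · rw [key, h22, h12]; ring) hG hG12 hG22
    exact hno A X Y Z hA0 hA1 hnc hio

end Crest.Agent.R220
end

-- ▼ part R220/CoreGadget
section

/-!
# Row 220 (S0341): the localised gadget at a point with prescribed principal direction
-/

set_option autoImplicit false

open scoped ContDiff

namespace Crest.Agent.R220

/-- **coreGadget** (from `core` by scaling and rigid motions). -/
theorem coreGadget (c M : ℝ) (hc : 0 < c) (hM : 0 < M) : ∃ r0 τ : ℝ, 0 < r0 ∧ 0 < τ ∧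
    ∀ r : ℝ, 0 < r → r ≤ r0 → ∀ z0 e1 e2 : E2, ‖e1‖ = 1 → ‖e2‖ = 1 → @inner ℝ E2 _ e1 e2 = 0 →
    ∀ (N : ℕ) (ε : ℝ), 0 < ε → ∃ h : E2 → (E2 →L[ℝ] E2 →L[ℝ] ℝ),
      ContDiff ℝ ∞ h ∧ (∀ x, x ∉ Metric.closedBall z0 (2 * r) → h x = 0) ∧
      (∀ x v w, h x v w = h x w v) ∧
      (∀ k ≤ N, ∀ x, ‖iteratedFDeriv ℝ k h x‖ ≤ ε) ∧
      ∀ F : E2 → E3, ContDiff ℝ ∞ F →
        (∀ k : ℕ, 1 ≤ k → k ≤ 4 → ∀ x ∈ Metric.closedBall z0 (2 * r),
          ‖iteratedFDeriv ℝ k F x‖ ≤ M) →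
        IsoE (Metric.closedBall z0 (2 * r)) h F →
        c ≤ ‖D2 F z0 e1 e1‖ →
        ‖D2 F z0 e1 e2‖ ≤ τ * ‖D2 F z0 e1 e1‖ →
        ‖D2 F z0 e2 e2‖ ≤ τ * ‖D2 F z0 e1 e1‖ → False :=
  coreGadget_of core c M hc hM

end Crest.Agent.R220
end

-- ▼ part R220/Gadget

/-!
# Row 220 (S0341): the gadget
-/

set_option autoImplicit false

open scoped ContDiff

namespace Crest.Agent.R220

/-- **gadget** (from `coreGadget`). -/
theorem gadget (z : E2) (R M : ℝ) (hR : 0 < R) (hM : 0 < M) (N : ℕ) (ε : ℝ) (hε : 0 < ε) :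
    ∃ h : E2 → (E2 →L[ℝ] E2 →L[ℝ] ℝ),
      ContDiff ℝ ∞ h ∧ (∀ x, x ∉ Metric.closedBall z R → h x = 0) ∧
      (∀ x v w, h x v w = h x w v) ∧
      (∀ k ≤ N, ∀ x, ‖iteratedFDeriv ℝ k h x‖ ≤ ε) ∧
      ∀ F : E2 → E3, ContDiff ℝ ∞ F →
        (∀ k : ℕ, 1 ≤ k → k ≤ 4 → ∀ x ∈ Metric.closedBall z R, ‖iteratedFDeriv ℝ k F x‖ ≤ M) →
        ¬ IsoE (Metric.closedBall z R) h F :=
  GadgetMain.gadget_of coreGadget z R M hR hM N ε hε

end Crest.Agent.R220
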