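import Crest.Agent.R220.VirialUpAux
import Crest.Agent.R220.Virial

-- ▼ part R220/LowerDefs
section

/-!
# Row 220: `lower`, definitions and the shift lemma
-/

set_option autoImplicit false

open scoped ContDiff Topology
open MeasureTheory Set

namespace Crest.Agent.R220.Lower

/-- enlarged box number `j` -/
def bj (ξ : ℝ) (j : ℕ) : Set Pl := {z | |ξ * z.1 - j| < 1 / 2 ∧ |ξ * z.2| ≤ 2}

/-- outer part of the enlarged box number `j` -/
def bjO (ξ : ℝ) (j : ℕ) : Set Pl :=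
  {z | |ξ * z.1 - j| < 1 / 2 ∧ 1 ≤ |ξ * z.2| ∧ |ξ * z.2| ≤ 2}

/-- centre number `j` in the variable `p` -/
noncomputable def pj (p : Pl → ℝ) (ξ : ℝ) (j : ℕ) : ℝ := p ((j : ℝ) / ξ, 0)

/-- the rescaled shifted variable is close to `ξ x - j` -/
theorem p_shift {η δ' : ℝ} {p Y κ : Pl → ℝ} (h : GoodFrame η δ' p Y κ) {ξ : ℝ} (hξ : 0 < ξ)
    (j : ℕ) (z : Pl) :
    |ξ * (p z - pj p ξ j) - (ξ * z.1 - j)| ≤ 2 * η * max |ξ * z.1 - j| |ξ * z.2| := by
  have hη : 0 ≤ η := (abs_nonneg _).trans (h.cp 0).2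
  set f : Pl → ℝ := fun z => p z - z.1 with hf
  have sf : Sm f := h.smp.sub' Sm.fst
  have hx : ∀ z, |dx f z| ≤ η := fun z => by
    rw [hf, dx_sub_at h.smp.differentiableAt Sm.fst.differentiableAt, dx_fst]
    exact (h.cp z).1
  have hy : ∀ z, |dy f z| ≤ η := fun z => by
    rw [hf, dy_sub_at h.smp.differentiableAt Sm.fst.differentiableAt, dy_fst, sub_zero]
    exact (h.cp z).2
  have key := Convex.norm_image_sub_le_of_norm_fderiv_le (𝕜 := ℝ) (f := f) (C := 2 * η)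
    (s := Set.univ) (x := ((j : ℝ) / ξ, (0 : ℝ))) (y := z) (fun w _ => sf.differentiableAt) ?_
    convex_univ (mem_univ _) (mem_univ _)
  · have e : f z - f ((j : ℝ) / ξ, 0) = (p z - pj p ξ j) - (z.1 - j / ξ) := by
      simp only [hf, pj]; ring
    rw [e, Real.norm_eq_abs] at key
    have e2 : ξ * (p z - pj p ξ j) - (ξ * z.1 - j) =
        ξ * ((p z - pj p ξ j) - (z.1 - j / ξ)) := by field_simp
    rw [e2, abs_mul, abs_of_pos hξ]
    have e3 : max |ξ * z.1 - j| |ξ * z.2| = ξ * ‖z - ((j : ℝ) / ξ, (0 : ℝ))‖ := by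
      have : ‖z - ((j : ℝ) / ξ, (0 : ℝ))‖ = max |z.1 - j / ξ| |z.2| := by
        rw [Prod.norm_def]; simp
      rw [this, mul_max_of_nonneg _ _ hξ.le]
      congr 1
      · rw [← abs_of_pos hξ, ← abs_mul, abs_of_pos hξ]; congr 1; field_simp
      · rw [abs_mul, abs_of_pos hξ]
    rw [e3]
    calc ξ * |(p z - pj p ξ j) - (z.1 - j / ξ)|
        ≤ ξ * (2 * η * ‖z - ((j : ℝ) / ξ, (0 : ℝ))‖) := by gcongr
      _ = _ := by ring
  · intro w _
    refine ContinuousLinearMap.opNorm_le_bound _ (by positivity) (fun v => ?_)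
    rw [Virial.fderiv_eq, Real.norm_eq_abs]
    have h1 : |v.1| ≤ ‖v‖ := by rw [← Real.norm_eq_abs]; exact norm_fst_le v
    have h2 : |v.2| ≤ ‖v‖ := by rw [← Real.norm_eq_abs]; exact norm_snd_le v
    calc |v.1 * dx f w + v.2 * dy f w| ≤ |v.1 * dx f w| + |v.2 * dy f w| := abs_add_le _ _
      _ = |v.1| * |dx f w| + |v.2| * |dy f w| := by rw [abs_mul, abs_mul]
      _ ≤ ‖v‖ * η + ‖v‖ * η := by
          apply add_le_add
          · exact mul_le_mul h1 (hx w) (abs_nonneg _) (norm_nonneg _)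
          · exact mul_le_mul h2 (hy w) (abs_nonneg _) (norm_nonneg _)
      _ = 2 * η * ‖v‖ := by ring

end Crest.Agent.R220.Lower
end

-- ▼ part R220/LowerLoc

/-!
# Row 220: `lower`, the local inequality for one bump
-/

set_option autoImplicit false

open scoped ContDiff Topology
open MeasureTheory Set

namespace Crest.Agent.R220.Lower

/-- the cutoff in the second variable -/
noncomputable def zet : ContDiffBump (0 : ℝ) := ⟨1, 2, by norm_num, by norm_num⟩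

lemma zet_smooth : ContDiff ℝ ∞ (fun t => zet t) := zet.contDiff

lemma zet_one {t : ℝ} (h : |t| ≤ 1) : zet t = 1 := by
  apply zet.one_of_mem_closedBall
  rw [Metric.mem_closedBall, Real.dist_eq, sub_zero]; exact h

lemma zet_zero {t : ℝ} (h : 2 ≤ |t|) : zet t = 0 := by
  apply zet.zero_of_le_dist
  rw [Real.dist_eq, sub_zero]; exact h

lemma dzet_in {t : ℝ} (h : |t| < 1) : deriv zet t = 0 := by
  have hopen : IsOpen {t : ℝ | |t| < 1} := isOpen_lt continuous_abs continuous_const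
  have : (fun t => zet t) =ᶠ[𝓝 t] fun _ => 1 := by
    filter_upwards [hopen.mem_nhds h] with s hs
    exact zet_one (le_of_lt hs)
  have h2 := this.deriv_eq
  simpa using h2

lemma dzet_out {t : ℝ} (h : 2 < |t|) : deriv zet t = 0 := by
  have hopen : IsOpen {t : ℝ | 2 < |t|} := isOpen_lt continuous_const continuous_abs
  have : (fun t => zet t) =ᶠ[𝓝 t] fun _ => 0 := by
    filter_upwards [hopen.mem_nhds h] with s hs
    exact zet_zero (le_of_lt hs)
  have h2 := this.deriv_eq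
  simpa using h2

lemma zet_abs_le (t : ℝ) : |zet t| ≤ 1 := by
  rw [abs_of_nonneg zet.nonneg]; exact zet.le_one

lemma exists_dzet_bound : ∃ K : ℝ, 0 ≤ K ∧ ∀ t, |deriv zet t| ≤ K := by
  have hc : HasCompactSupport (fun t => zet t) := zet.hasCompactSupport
  have hd : HasCompactSupport (deriv fun t => zet t) := hc.deriv
  have hcont : Continuous (deriv fun t => zet t) :=
    zet_smooth.continuous_deriv (by simp)
  obtain ⟨C, hC⟩ := hd.exists_bound_of_continuous hcont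
  exact ⟨C, (norm_nonneg _).trans (hC 0), fun t => by simpa using hC t⟩

/-- the test function for bump number `j` -/
noncomputable def phi (p : Pl → ℝ) (ξ : ℝ) (j : ℕ) (z : Pl) : ℝ :=
  zet (ξ * z.2) * psi (ξ * (p z - pj p ξ j))

section

variable {η δ' ξ : ℝ} {p Y κ : Pl → ℝ}

lemma sm_phi (hp : Sm p) (ξ : ℝ) (j : ℕ) : Sm (phi p ξ j) := by
  have h1 : Sm (fun z : Pl => zet (ξ * z.2)) :=
    Sm.comp' zet_smooth ((Sm.const ξ).mul' Sm.snd)
  have h2 : Sm (fun z : Pl => psi (ξ * (p z - pj p ξ j))) :=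
    Sm.comp' prof_psi.sm ((Sm.const ξ).mul' (hp.sub' (Sm.const _)))
  exact h1.mul' h2

lemma shift_small (hη : η ≤ 1 / 100) (h : GoodFrame η δ' p Y κ) (hξ : 0 < ξ) (j : ℕ) {z : Pl}
    (hz : |ξ * z.2| ≤ 2) (h4 : |ξ * (p z - pj p ξ j)| ≤ 1 / 4) : |ξ * z.1 - j| < 1 / 2 := by
  have h1 := p_shift h hξ j z
  have hη0 : 0 ≤ η := (abs_nonneg _).trans (h.cp 0).2
  have t0 := abs_nonneg (ξ * z.1 - j)
  have h2 : max |ξ * z.1 - j| |ξ * z.2| ≤ |ξ * z.1 - j| + 2 :=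
    max_le (by linarith) (by linarith)
  have h3 : |ξ * z.1 - j| ≤ |ξ * (p z - pj p ξ j)| + |ξ * (p z - pj p ξ j) - (ξ * z.1 - j)| := by
    have := abs_sub_abs_le_abs_sub (ξ * z.1 - j) (ξ * (p z - pj p ξ j))
    rw [abs_sub_comm (ξ * z.1 - j)] at this
    linarith
  have h5 : 2 * η * max |ξ * z.1 - j| |ξ * z.2| ≤ 2 * (1 / 100) * (|ξ * z.1 - j| + 2) := by
    gcongr
  linarith

lemma psi_zero_out (hη : η ≤ 1 / 100) (h : GoodFrame η δ' p Y κ) (hξ : 0 < ξ) (j : ℕ) {z : Pl}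
    (hz : |ξ * z.2| ≤ 2) (h4 : 1 / 2 ≤ |ξ * z.1 - j|) :
    psi (ξ * (p z - pj p ξ j)) = 0 ∧ deriv psi (ξ * (p z - pj p ξ j)) = 0 := by
  have : 1 / 4 < |ξ * (p z - pj p ξ j)| := by
    by_contra hn
    exact absurd (shift_small hη h hξ j hz (not_lt.1 hn)) (not_lt.2 h4)
  exact ⟨prof_psi.supp _ this, prof_psi.deriv.supp _ this⟩

lemma Pop_phi (hp : Sm p) (hJ : ∀ z, br p Y z ≠ 0) (ξ : ℝ) (j : ℕ) (z : Pl) :
    Pop p Y (phi p ξ j) z = ξ * (deriv zet (ξ * z.2) * Pop p Y (fun z => z.2) z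
      * psi (ξ * (p z - pj p ξ j)) + zet (ξ * z.2) * deriv psi (ξ * (p z - pj p ξ j))) := by
  have h1 : Sm (fun z : Pl => ξ * z.2) := (Sm.const ξ).mul' Sm.snd
  have h2 : Sm (fun z : Pl => ξ * (p z - pj p ξ j)) :=
    (Sm.const ξ).mul' (hp.sub' (Sm.const _))
  have e1 : Pop p Y (fun z => zet (ξ * z.2)) z
      = deriv zet (ξ * z.2) * (ξ * Pop p Y (fun z => z.2) z) := by
    rw [Pop_comp_at (f := fun z : Pl => ξ * z.2) (φ := fun t => zet t)
      (zet_smooth.differentiable (by simp)).differentiableAt h1.differentiableAt,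
      Pop_const_mul p Y ξ _ Sm.snd]
  have e2 : Pop p Y (fun z => psi (ξ * (p z - pj p ξ j))) z
      = deriv psi (ξ * (p z - pj p ξ j)) * ξ := by
    rw [Pop_comp_at (f := fun z : Pl => ξ * (p z - pj p ξ j)) (φ := psi)
      (prof_psi.sm.differentiable (by simp)).differentiableAt h2.differentiableAt,
      Pop_const_mul p Y ξ _ (hp.sub' (Sm.const _)), Pop_sub p Y _ _ hp (Sm.const _),
      Pop_p (hJ z), Pop_const]
    ring
  have e3 : phi p ξ j = fun z => zet (ξ * z.2) * psi (ξ * (p z - pj p ξ j)) := rfl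
  rw [e3, Pop_mul p Y _ _ (Sm.comp' zet_smooth h1) (Sm.comp' prof_psi.sm h2), e1, e2]
  ring

lemma Top_phi (hp : Sm p) (ξ : ℝ) (j : ℕ) (z : Pl) :
    Top p Y (phi p ξ j) z = ξ * (deriv zet (ξ * z.2) * Top p Y (fun z => z.2) z
      * psi (ξ * (p z - pj p ξ j))) := by
  have h1 : Sm (fun z : Pl => ξ * z.2) := (Sm.const ξ).mul' Sm.snd
  have h2 : Sm (fun z : Pl => ξ * (p z - pj p ξ j)) :=
    (Sm.const ξ).mul' (hp.sub' (Sm.const _))
  have e1 : Top p Y (fun z => zet (ξ * z.2)) z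
      = deriv zet (ξ * z.2) * (ξ * Top p Y (fun z => z.2) z) := by
    rw [Top_comp_at (f := fun z : Pl => ξ * z.2) (φ := fun t => zet t)
      (zet_smooth.differentiable (by simp)).differentiableAt h1.differentiableAt,
      Top_const_mul p Y ξ _ Sm.snd]
  have e2 : Top p Y (fun z => psi (ξ * (p z - pj p ξ j))) z = 0 := by
    rw [Top_comp_at (f := fun z : Pl => ξ * (p z - pj p ξ j)) (φ := psi)
      (prof_psi.sm.differentiable (by simp)).differentiableAt h2.differentiableAt,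
      Top_const_mul p Y ξ _ (hp.sub' (Sm.const _)), Top_sub p Y _ _ hp (Sm.const _),
      Top_p, Top_const]
    ring
  have e3 : phi p ξ j = fun z => zet (ξ * z.2) * psi (ξ * (p z - pj p ξ j)) := rfl
  rw [e3, Top_mul p Y _ _ (Sm.comp' zet_smooth h1) (Sm.comp' prof_psi.sm h2), e1, e2]
  ring

lemma phi_out (hη : η ≤ 1 / 100) (h : GoodFrame η δ' p Y κ) (hξ : 0 < ξ) (j : ℕ) {z : Pl}
    (hz : z ∉ bj ξ j) : phi p ξ j z = 0 := by
  unfold phi
  by_cases h2 : |ξ * z.2| ≤ 2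
  · have h4 : 1 / 2 ≤ |ξ * z.1 - j| := by
      by_contra hn
      exact hz ⟨not_le.1 hn, h2⟩
    rw [(psi_zero_out hη h hξ j h2 h4).1, mul_zero]
  · rw [zet_zero (not_le.1 h2).le, zero_mul]

lemma Pop_phi_out (hη : η ≤ 1 / 100) (h : GoodFrame η δ' p Y κ) (hJ : ∀ z, br p Y z ≠ 0)
    (hξ : 0 < ξ) (j : ℕ) {z : Pl} (hz : z ∉ bj ξ j) : Pop p Y (phi p ξ j) z = 0 := by
  rw [Pop_phi h.smp hJ]
  by_cases h2 : |ξ * z.2| ≤ 2
  · have h4 : 1 / 2 ≤ |ξ * z.1 - j| := by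
      by_contra hn
      exact hz ⟨not_le.1 hn, h2⟩
    obtain ⟨a, b⟩ := psi_zero_out hη h hξ j h2 h4
    rw [a, b]; ring
  · rw [zet_zero (not_le.1 h2).le, dzet_out (not_le.1 h2)]; ring

lemma Top_phi_out (hη : η ≤ 1 / 100) (h : GoodFrame η δ' p Y κ)
    (hξ : 0 < ξ) (j : ℕ) {z : Pl} (hz : z ∉ bjO ξ j) : Top p Y (phi p ξ j) z = 0 := by
  rw [Top_phi h.smp]
  by_cases h1 : 1 ≤ |ξ * z.2|
  · by_cases h2 : |ξ * z.2| ≤ 2
    · have h4 : 1 / 2 ≤ |ξ * z.1 - j| := by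
        by_contra hn
        exact hz ⟨not_le.1 hn, h1, h2⟩
      obtain ⟨a, b⟩ := psi_zero_out hη h hξ j h2 h4
      rw [a]; ring
    · rw [dzet_out (not_le.1 h2)]; ring
  · rw [dzet_in (not_le.1 h1)]; ring

lemma phi_compact (hη : η ≤ 1 / 100) (h : GoodFrame η δ' p Y κ) (hξ : 0 < ξ) (j : ℕ) :
    HasCompactSupport (phi p ξ j) := by
  have hK : IsCompact (Icc ((j - 1 / 2) / ξ) ((j + 1 / 2) / ξ) ×ˢ Icc (-(2 / ξ)) (2 / ξ)) :=
    isCompact_Icc.prod isCompact_Icc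
  refine HasCompactSupport.intro hK fun z hz => phi_out hη h hξ j fun hb => hz ?_
  obtain ⟨h1, h2⟩ := hb
  rw [abs_lt] at h1
  rw [abs_mul, abs_of_pos hξ] at h2
  refine ⟨⟨?_, ?_⟩, ?_⟩
  · rw [div_le_iff₀ hξ]; linarith
  · rw [le_div_iff₀ hξ]; linarith
  · have : |z.2| ≤ 2 / ξ := by rw [le_div_iff₀ hξ]; linarith
    exact ⟨(abs_le.1 this).1, (abs_le.1 this).2⟩

end

/-! ### measure facts -/

lemma measurableSet_bj (ξ : ℝ) (j : ℕ) : MeasurableSet (bj ξ j) := by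
  have h1 : Continuous (fun z : Pl => |ξ * z.1 - j|) := by fun_prop
  have h2 : Continuous (fun z : Pl => |ξ * z.2|) := by fun_prop
  exact (measurableSet_lt h1.measurable measurable_const).inter
    (measurableSet_le h2.measurable measurable_const)

lemma measurableSet_bjO (ξ : ℝ) (j : ℕ) : MeasurableSet (bjO ξ j) := by
  have h1 : Continuous (fun z : Pl => |ξ * z.1 - j|) := by fun_prop
  have h2 : Continuous (fun z : Pl => |ξ * z.2|) := by fun_prop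
  exact (measurableSet_lt h1.measurable measurable_const).inter
    ((measurableSet_le measurable_const h2.measurable).inter
      (measurableSet_le h2.measurable measurable_const))

lemma bjO_subset_bj (ξ : ℝ) (j : ℕ) : bjO ξ j ⊆ bj ξ j := fun _ hz => ⟨hz.1, hz.2.2⟩

/-- the compact box containing `bj` -/
def Kj (ξ : ℝ) (j : ℕ) : Set Pl :=
  Icc ((j - 1 / 2) / ξ) ((j + 1 / 2) / ξ) ×ˢ Icc (-(2 / ξ)) (2 / ξ)

lemma isCompact_Kj (ξ : ℝ) (j : ℕ) : IsCompact (Kj ξ j) := isCompact_Icc.prod isCompact_Icc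

lemma bj_subset_Kj {ξ : ℝ} (hξ : 0 < ξ) (j : ℕ) : bj ξ j ⊆ Kj ξ j := fun z hz => by
  obtain ⟨h1, h2⟩ := hz
  rw [abs_lt] at h1
  rw [abs_mul, abs_of_pos hξ] at h2
  refine ⟨⟨?_, ?_⟩, ?_⟩
  · rw [div_le_iff₀ hξ]; linarith
  · rw [le_div_iff₀ hξ]; linarith
  · have : |z.2| ≤ 2 / ξ := by rw [le_div_iff₀ hξ]; linarith
    exact ⟨(abs_le.1 this).1, (abs_le.1 this).2⟩

lemma volume_Kj {ξ : ℝ} (hξ : 0 < ξ) (j : ℕ) : volume (Kj ξ j) = ENNReal.ofReal (4 / ξ ^ 2) := by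
  unfold Kj
  rw [Measure.volume_eq_prod, Measure.prod_prod, Real.volume_Icc, Real.volume_Icc,
    ← ENNReal.ofReal_mul]
  · congr 1
    field_simp
    ring
  · have : ((j:ℝ) - 1 / 2) / ξ ≤ (j + 1 / 2) / ξ := by gcongr; linarith
    linarith

lemma volume_sub_lt_top {ξ : ℝ} (hξ : 0 < ξ) (j : ℕ) {S : Set Pl} (hS : S ⊆ bj ξ j) :
    volume S < ⊤ := by
  refine (measure_mono (hS.trans (bj_subset_Kj hξ j))).trans_lt ?_
  rw [volume_Kj hξ]; exact ENNReal.ofReal_lt_top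

lemma sqrt_volume_le {ξ : ℝ} (hξ : 0 < ξ) (j : ℕ) {S : Set Pl} (hS : S ⊆ bj ξ j) :
    Real.sqrt (volume S).toReal ≤ 2 / ξ := by
  have h1 := measure_mono (μ := volume) (hS.trans (bj_subset_Kj hξ j))
  have h2 := ENNReal.toReal_mono (by rw [volume_Kj hξ]; exact ENNReal.ofReal_ne_top) h1
  rw [volume_Kj hξ, ENNReal.toReal_ofReal (by positivity)] at h2
  apply Real.sqrt_le_iff.2
  refine ⟨by positivity, h2.trans (le_of_eq ?_)⟩
  field_simp
  norm_num

/-- weighted Cauchy-Schwarz on a subset of the box number `j` -/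
lemma est {ξ : ℝ} (hξ : 0 < ξ) (j : ℕ) {S : Set Pl} (hS : S ⊆ bj ξ j)
    (hSm : MeasurableSet S) {w F : Pl → ℝ} {M : ℝ} (hM : 0 ≤ M) (hF : Continuous F)
    (hw0 : ∀ z, z ∉ S → w z = 0) (hwM : ∀ z ∈ S, |w z| ≤ M) :
    |∫ z, w z * F z| ≤ M * (2 / ξ) * Real.sqrt (∫ z in S, F z ^ 2) := by
  have e : ∫ z, w z * F z = ∫ z in S, w z * F z :=
    (setIntegral_eq_integral_of_forall_compl_eq_zero fun z hz => by rw [hw0 z hz, zero_mul]).symm
  have hK := isCompact_Kj ξ j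
  have hSK := hS.trans (bj_subset_Kj hξ j)
  have i1 : IntegrableOn F S := (hF.continuousOn.integrableOn_compact hK).mono_set hSK
  have i2 : IntegrableOn (fun z => F z ^ 2) S :=
    ((hF.pow 2).continuousOn.integrableOn_compact hK).mono_set hSK
  have i3 : IntegrableOn (fun z => M * |F z|) S := i1.abs.const_mul _
  have h1 : |∫ z in S, w z * F z| ≤ ∫ z in S, M * |F z| := by
    rw [← Real.norm_eq_abs]
    refine norm_integral_le_of_norm_le i3 ?_
    filter_upwards [ae_restrict_mem hSm] with z hz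
    rw [Real.norm_eq_abs, abs_mul]
    exact mul_le_mul_of_nonneg_right (hwM z hz) (abs_nonneg _)
  rw [integral_const_mul] at h1
  have h2 := integral_abs_le_sqrt (volume_sub_lt_top hξ j hS) i1 i2
  have h3 := sqrt_volume_le hξ j hS
  rw [e]
  calc |∫ z in S, w z * F z| ≤ M * ∫ z in S, |F z| := h1
    _ ≤ M * (Real.sqrt (volume S).toReal * Real.sqrt (∫ z in S, F z ^ 2)) := by gcongr
    _ ≤ M * (2 / ξ * Real.sqrt (∫ z in S, F z ^ 2)) := by gcongr
    _ = _ := by ring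

lemma bj_loc {ξ hh : ℝ} {J : ℕ} (hξ : 16 ≤ ξ) (hhξ : hh + 1 / ξ ≤ 1 / 16)
    (hJ : (J : ℝ) ≤ hh * ξ) {j : ℕ} (hj : j < J) {z : Pl} (hz : z ∈ bj ξ j) :
    |z.1| ≤ 1 / 8 ∧ |z.2| ≤ 1 / 8 := by
  have hξ0 : 0 < ξ := by linarith
  obtain ⟨h1, h2⟩ := hz
  have hj' : (j : ℝ) + 1 ≤ J := by exact_mod_cast hj
  have hj0 : (0 : ℝ) ≤ j := Nat.cast_nonneg _
  have hinv : 0 < 1 / ξ := by positivity
  rw [abs_lt] at h1
  constructor
  · have h3 : |ξ * z.1| ≤ hh * ξ := by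
      rw [abs_le]; constructor <;> linarith [h1.1, h1.2]
    rw [abs_mul, abs_of_pos hξ0, mul_comm] at h3
    have := le_of_mul_le_mul_right h3 hξ0
    linarith
  · rw [abs_mul, abs_of_pos hξ0] at h2
    have : 16 * |z.2| ≤ ξ * |z.2| := by gcongr
    linarith

/-- exact form of the pairing bound -/
def PairStmt : Prop := ∃ η c : ℝ, 0 < η ∧ 0 < c ∧ ∀ (C1 δ' ξ : ℝ) (J : ℕ) (σ : ℕ → ℝ)
    (p Y κ d H G : Pl → ℝ), 16 ≤ ξ → (∀ j, σ j = 0 ∨ σ j = 1 ∨ σ j = -1) →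
    GoodFrame η δ' p Y κ → Src C1 η ξ J σ p Y κ d H G → ∀ j < J, σ j ≠ 0 →
    c ≤ |ξ * ∫ z in bx ξ j, deriv psi (ξ * (p z - pj p ξ j)) * H z * br p Y z|

end Crest.Agent.R220.Lower
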