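import Crest.Agent.R220.Basic

-- ▼ part R220/Bd
section

/-!
# Row 220: a small calculus of weighted `C^k` bounds

`Bd ξ k K f` : `f` is smooth and every word derivative of length `n ≤ k` is bounded by `K ξ^n`.
-/

set_option autoImplicit false

open scoped ContDiff Topology

namespace Crest.Agent.R220

/-- weighted `C^k` bound -/
def Bd (ξ : ℝ) (k : ℕ) (K : ℝ) (f : Pl → ℝ) : Prop :=
  Sm f ∧ ∀ w : List Bool, w.length ≤ k → ∀ z, |Dw w f z| ≤ K * ξ ^ w.length

namespace Bd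

variable {ξ : ℝ} {k : ℕ} {K L : ℝ} {f g : Pl → ℝ}

theorem sm (h : Bd ξ k K f) : Sm f := h.1

theorem abs_le (h : Bd ξ k K f) (z : Pl) : |f z| ≤ K := by
  simpa [Dw] using h.2 [] (Nat.zero_le _) z

theorem nonneg (h : Bd ξ k K f) : 0 ≤ K := (abs_nonneg _).trans (h.abs_le 0)

theorem mono (hξ : 1 ≤ ξ) {k' : ℕ} (hk : k' ≤ k) (hK : K ≤ L) (h : Bd ξ k K f) : Bd ξ k' L f :=
  ⟨h.1, fun w hw z => (h.2 w (hw.trans hk) z).trans
    (mul_le_mul_of_nonneg_right hK (pow_nonneg (by linarith) _))⟩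

theorem congr (h : Bd ξ k K f) (e : f = g) : Bd ξ k K g := e ▸ h

/-- unweighted bounds are weighted bounds for `ξ ≥ 1` -/
theorem of_one (hξ : 1 ≤ ξ) (hf : Sm f)
    (h : ∀ w : List Bool, w.length ≤ k → ∀ z, |Dw w f z| ≤ K) : Bd ξ k K f := by
  refine ⟨hf, fun w hw z => (h w hw z).trans ?_⟩
  have hK : 0 ≤ K := (abs_nonneg _).trans (h w hw z)
  exact le_mul_of_one_le_right hK (one_le_pow₀ hξ)

theorem add (hf : Bd ξ k K f) (hg : Bd ξ k L g) : Bd ξ k (K + L) (fun z => f z + g z) := by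
  refine ⟨hf.1.add' hg.1, fun w hw z => ?_⟩
  rw [Dw_add hf.1 hg.1]
  calc |Dw w f z + Dw w g z| ≤ |Dw w f z| + |Dw w g z| := abs_add_le _ _
    _ ≤ K * ξ ^ w.length + L * ξ ^ w.length := add_le_add (hf.2 w hw z) (hg.2 w hw z)
    _ = (K + L) * ξ ^ w.length := by ring

theorem sub (hf : Bd ξ k K f) (hg : Bd ξ k L g) : Bd ξ k (K + L) (fun z => f z - g z) := by
  refine ⟨hf.1.sub' hg.1, fun w hw z => ?_⟩
  rw [Dw_sub hf.1 hg.1]
  calc |Dw w f z - Dw w g z| ≤ |Dw w f z| + |Dw w g z| := abs_sub _ _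
    _ ≤ K * ξ ^ w.length + L * ξ ^ w.length := add_le_add (hf.2 w hw z) (hg.2 w hw z)
    _ = (K + L) * ξ ^ w.length := by ring

theorem const_mul (c : ℝ) (hf : Bd ξ k K f) : Bd ξ k (|c| * K) (fun z => c * f z) := by
  refine ⟨(Sm.const c).mul' hf.1, fun w hw z => ?_⟩
  rw [Dw_const_mul c hf.1, abs_mul, mul_assoc]
  exact mul_le_mul_of_nonneg_left (hf.2 w hw z) (abs_nonneg _)

theorem const (hξ : 1 ≤ ξ) (k : ℕ) (c : ℝ) : Bd ξ k |c| (fun _ => c) := by
  refine ⟨Sm.const c, fun w hw z => ?_⟩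
  have h0 : ∀ w : List Bool, w ≠ [] → Dw w (fun _ : Pl => c) = fun _ => 0 := by
    intro w
    induction w with
    | nil => intro h; exact absurd rfl h
    | cons b w ih =>
      intro _
      have : Dw w (fun _ : Pl => c) = (fun _ => 0) ∨ Dw w (fun _ : Pl => c) = fun _ => c := by
        by_cases hw : w = []
        · right; rw [hw]; rfl
        · left; exact ih hw
      cases b <;> rcases this with h | h <;>
        simp only [Dw, h, dx_const, dy_const]
  by_cases hw0 : w = []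
  · subst hw0; simp [Dw]
  · rw [h0 w hw0]
    simp only [abs_zero]
    exact mul_nonneg (abs_nonneg _) (pow_nonneg (by linarith) _)

theorem dx (hf : Bd ξ (k + 1) K f) : Bd ξ k (K * ξ) (dx f) := by
  refine ⟨hf.1.dx, fun w hw z => ?_⟩
  rw [Dw_dx]
  refine (hf.2 _ (by simpa using hw) z).trans (le_of_eq ?_)
  simp [pow_succ]; ring

theorem dy (hf : Bd ξ (k + 1) K f) : Bd ξ k (K * ξ) (dy f) := by
  refine ⟨hf.1.dy, fun w hw z => ?_⟩
  rw [Dw_dy]
  refine (hf.2 _ (by simpa using hw) z).trans (le_of_eq ?_)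
  simp [pow_succ]; ring

/-- a function is `Bd (k+1)` if it is bounded and both first derivatives are `Bd k` -/
theorem succ_of (hf : Sm f) (h0 : ∀ z, |f z| ≤ K) (hx : Bd ξ k (K * ξ) (R220.dx f))
    (hy : Bd ξ k (K * ξ) (R220.dy f)) : Bd ξ (k + 1) K f := by
  refine ⟨hf, fun w hw z => ?_⟩
  induction w using List.reverseRecOn with
  | nil => simpa [Dw] using h0 z
  | append_singleton w b _ =>
    have hw' : w.length ≤ k := by simpa using hw
    cases b
    · rw [← Dw_dy]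
      refine (hy.2 w hw' z).trans (le_of_eq ?_)
      simp [pow_succ]; ring
    · rw [← Dw_dx]
      refine (hx.2 w hw' z).trans (le_of_eq ?_)
      simp [pow_succ]; ring

theorem mul (hξ : 1 ≤ ξ) : ∀ {k : ℕ} {K L : ℝ} {f g : Pl → ℝ}, Bd ξ k K f → Bd ξ k L g →
    Bd ξ k (2 ^ k * (K * L)) (fun z => f z * g z) := by
  intro k
  induction k with
  | zero =>
    intro K L f g hf hg
    refine ⟨hf.1.mul' hg.1, fun w hw z => ?_⟩
    have : w = [] := List.length_eq_zero_iff.1 (Nat.le_zero.1 hw)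
    subst this
    simp only [Dw, abs_mul, pow_zero, one_mul, List.length_nil, mul_one]
    exact mul_le_mul (hf.abs_le z) (hg.abs_le z) (abs_nonneg _) hf.nonneg
  | succ k ih =>
    intro K L f g hf hg
    have hf' := hf.mono hξ (Nat.le_succ k) le_rfl
    have hg' := hg.mono hξ (Nat.le_succ k) le_rfl
    have hK := hf.nonneg
    have hL := hg.nonneg
    refine succ_of (hf.1.mul' hg.1) ?_ ?_ ?_
    · intro z
      rw [abs_mul]
      calc |f z| * |g z| ≤ K * L := mul_le_mul (hf.abs_le z) (hg.abs_le z) (abs_nonneg _) hK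
        _ ≤ 2 ^ (k + 1) * (K * L) := by
          have : (1 : ℝ) ≤ 2 ^ (k + 1) := one_le_pow₀ (by norm_num)
          nlinarith [mul_nonneg hK hL]
    · rw [dx_mul hf.1 hg.1]
      refine ((ih hf' hg.dx).add (ih hg' hf.dx)).mono hξ le_rfl (le_of_eq ?_)
      ring
    · rw [dy_mul hf.1 hg.1]
      refine ((ih hf' hg.dy).add (ih hg' hf.dy)).mono hξ le_rfl (le_of_eq ?_)
      ring

/-- constant for the inverse -/
noncomputable def invC : ℕ → ℝ → ℝ
  | 0, _ => 2
  | k + 1, K => 2 + invC k K + 2 ^ k * (K * (2 ^ k * (invC k K * invC k K)))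

theorem invC_nonneg (k : ℕ) {K : ℝ} (hK : 0 ≤ K) : 2 ≤ invC k K := by
  induction k with
  | zero => simp [invC]
  | succ k ih =>
    simp only [invC]
    have : 0 ≤ 2 ^ k * (K * (2 ^ k * (invC k K * invC k K))) := by positivity
    linarith

theorem inv (hξ : 1 ≤ ξ) : ∀ {k : ℕ}, Bd ξ k K f → (∀ z, 1 / 2 ≤ f z) →
    Bd ξ k (invC k K) (fun z => (f z)⁻¹) := by
  intro k
  have hne : (∀ z, 1 / 2 ≤ f z) → ∀ z, f z ≠ 0 := fun h z => by have := h z; intro h0; linarith
  have hb : (∀ z, 1 / 2 ≤ f z) → ∀ z, |(f z)⁻¹| ≤ 2 := fun h z => by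
    have h1 := h z
    rw [abs_of_pos (inv_pos.2 (by linarith))]
    calc (f z)⁻¹ ≤ (1 / 2)⁻¹ := inv_anti₀ (by norm_num) h1
      _ = 2 := by norm_num
  induction k with
  | zero =>
    intro hf h
    refine ⟨hf.1.inv' (hne h), fun w hw z => ?_⟩
    have : w = [] := List.length_eq_zero_iff.1 (Nat.le_zero.1 hw)
    subst this
    simpa [Dw, invC] using hb h z
  | succ k ih =>
    intro hf h
    have hf' := hf.mono hξ (Nat.le_succ k) le_rfl
    have hK := hf.nonneg
    have hi := ih hf' h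
    have h2 := invC_nonneg k hK
    have hsm := hf.1.inv' (hne h)
    have key : ∀ D : Pl → ℝ, Bd ξ k (K * ξ) D →
        Bd ξ k (invC (k + 1) K * ξ) (fun z => - (D z * ((f z)⁻¹ * (f z)⁻¹))) := by
      intro D hD
      have h3 := (hD.mul hξ (hi.mul hξ hi)).const_mul (-1)
      refine (h3.congr (by funext z; ring)).mono hξ le_rfl ?_
      simp only [invC, abs_neg, abs_one, one_mul]
      have e : 2 ^ k * (K * ξ * (2 ^ k * (invC k K * invC k K)))
          = 2 ^ k * (K * (2 ^ k * (invC k K * invC k K))) * ξ := by ring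
      rw [e]
      apply mul_le_mul_of_nonneg_right _ (by linarith)
      linarith
    refine succ_of hsm ?_ ?_ ?_
    · intro z
      refine (hb h z).trans ?_
      exact invC_nonneg _ hK
    · refine (key _ hf.dx).congr ?_
      funext z
      rw [dx_inv_at hf.1.differentiableAt (hne h z)]
      field_simp
    · refine (key _ hf.dy).congr ?_
      funext z
      rw [dy_inv_at hf.1.differentiableAt (hne h z)]
      field_simp

end Bd

end Crest.Agent.R220
private theorem rz_1aa9f9a1bd : type_of% @_root_.Crest.Agent.R220.Bd.invC.eq_def := @_root_.Crest.Agent.R220.Bd.invC.eq_def -- L142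
private theorem rz_545438d219 : type_of% @_root_.Crest.Agent.R220.Bd.invC.eq_1 := @_root_.Crest.Agent.R220.Bd.invC.eq_1 -- L142
end

-- ▼ part R220/PatBd

/-!
# Row 220: weighted bounds for the bump patterns (uniform in the number of bumps)
-/

set_option autoImplicit false

open scoped ContDiff Topology

namespace Crest.Agent.R220

/-- general pattern `∑ σ_j g(ξx - j) h(ξy)` -/
noncomputable def gpat (g h : ℝ → ℝ) (ξ : ℝ) (J : ℕ) (σ : ℕ → ℝ) (z : Pl) : ℝ :=
  ∑ j ∈ Finset.range J, σ j * (g (ξ * z.1 - j) * h (ξ * z.2))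

/-- profile functions: smooth, vanishing outside `[-1/4,1/4]` -/
structure Prof (g : ℝ → ℝ) : Prop where
  sm : ContDiff ℝ ∞ g
  supp : ∀ t, 1 / 4 < |t| → g t = 0

theorem Prof.deriv {g : ℝ → ℝ} (h : Prof g) : Prof (deriv g) := by
  refine ⟨?_, fun t ht => ?_⟩
  · have := h.sm.iterate_deriv 1
    simpa using this
  · have hopen : IsOpen {t : ℝ | 1 / 4 < |t|} := isOpen_lt continuous_const continuous_abs
    have : g =ᶠ[𝓝 t] fun _ => 0 := by
      filter_upwards [hopen.mem_nhds ht] with s hs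
      exact h.supp s hs
    rw [this.deriv_eq]
    simp

theorem Prof.bound {g : ℝ → ℝ} (h : Prof g) : ∃ K : ℝ, 0 ≤ K ∧ ∀ t, |g t| ≤ K := by
  have hc : HasCompactSupport g := by
    apply HasCompactSupport.of_support_subset_isCompact (isCompact_Icc (a := (-1 / 4 : ℝ)) (b := 1 / 4))
    intro t ht
    by_contra hn
    apply ht
    apply h.supp
    rw [Set.mem_Icc, not_and_or] at hn
    rcases hn with hn | hn
    · rw [lt_abs]; right; linarith
    · rw [lt_abs]; left; linarith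
  obtain ⟨C, hC⟩ := hc.exists_bound_of_continuous h.sm.continuous
  exact ⟨C, (norm_nonneg _).trans (hC 0), fun t => by simpa using hC t⟩

theorem prof_psi : Prof psi := by
  refine ⟨psiBump.contDiff, fun t ht => ?_⟩
  apply psiBump.zero_of_le_dist
  have : psiBump.rOut = 1 / 4 := rfl
  rw [this, Real.dist_eq, sub_zero]
  exact ht.le

theorem pat_eq_gpat (ξ : ℝ) (J : ℕ) (σ : ℕ → ℝ) : pat ξ J σ = gpat psi psi ξ J σ := rfl

theorem gpat_smooth {g h : ℝ → ℝ} (hg : Prof g) (hh : Prof h) (ξ : ℝ) (J : ℕ) (σ : ℕ → ℝ) :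
    Sm (gpat g h ξ J σ) := by
  apply Sm.sum'
  intro j _
  apply (Sm.const _).mul'
  apply Sm.mul'
  · exact Sm.comp' (f := fun z => ξ * z.1 - j) hg.sm (((Sm.const ξ).mul' Sm.fst).sub' (Sm.const _))
  · exact Sm.comp' (f := fun z => ξ * z.2) hh.sm ((Sm.const ξ).mul' Sm.snd)

/-- at most one term of the pattern is active -/
theorem gpat_bound {g h : ℝ → ℝ} (hg : Prof g) {Kg Kh : ℝ} (bg : ∀ t, |g t| ≤ Kg)
    (bh : ∀ t, |h t| ≤ Kh) (ξ : ℝ) (J : ℕ) (σ : ℕ → ℝ) (hσ : ∀ j, |σ j| ≤ 1) (z : Pl) :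
    |gpat g h ξ J σ z| ≤ Kg * Kh := by
  have hKg : 0 ≤ Kg := (abs_nonneg _).trans (bg 0)
  have hKh : 0 ≤ Kh := (abs_nonneg _).trans (bh 0)
  unfold gpat
  by_cases hex : ∃ i ∈ Finset.range J, g (ξ * z.1 - i) ≠ 0
  · obtain ⟨i, hi, hgi⟩ := hex
    have hi' : |ξ * z.1 - i| ≤ 1 / 4 := by
      by_contra hn
      exact hgi (hg.supp _ (not_le.1 hn))
    rw [Finset.sum_eq_single i]
    · rw [abs_mul, abs_mul]
      calc |σ i| * (|g (ξ * z.1 - i)| * |h (ξ * z.2)|) ≤ 1 * (Kg * Kh) := by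
            apply mul_le_mul (hσ i) _ (by positivity) zero_le_one
            exact mul_le_mul (bg _) (bh _) (abs_nonneg _) hKg
        _ = Kg * Kh := one_mul _
    · intro j _ hji
      have : g (ξ * z.1 - j) = 0 := by
        apply hg.supp
        have h1 : (1 : ℝ) ≤ |(i : ℝ) - j| := by
          have : (1 : ℤ) ≤ |(i : ℤ) - j| := by
            apply Int.one_le_abs
            intro h0
            apply hji
            omega
          exact_mod_cast this
        have h2 : |(i : ℝ) - j| ≤ |ξ * z.1 - j| + |ξ * z.1 - i| := by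
          have : (i : ℝ) - j = (ξ * z.1 - j) - (ξ * z.1 - i) := by ring
          rw [this]
          exact abs_sub _ _
        linarith
      rw [this]; ring
    · intro h; exact absurd hi h
  · simp only [not_exists, not_and, not_not] at hex
    rw [Finset.sum_eq_zero]
    · simpa using mul_nonneg hKg hKh
    · intro i hi
      rw [hex i hi]; ring

theorem gpat_dx {g h : ℝ → ℝ} (hg : Prof g) (hh : Prof h) (ξ : ℝ) (J : ℕ) (σ : ℕ → ℝ) :
    dx (gpat g h ξ J σ) = fun z => ξ * gpat (deriv g) h ξ J σ z := by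
  have hsm : ∀ j ∈ Finset.range J, Sm (fun z : Pl => σ j * (g (ξ * z.1 - j) * h (ξ * z.2))) := by
    intro j _
    apply (Sm.const _).mul'
    apply Sm.mul'
    · exact Sm.comp' (f := fun z => ξ * z.1 - j) hg.sm (((Sm.const ξ).mul' Sm.fst).sub' (Sm.const _))
    · exact Sm.comp' (f := fun z => ξ * z.2) hh.sm ((Sm.const ξ).mul' Sm.snd)
  have e : gpat g h ξ J σ = fun z => ∑ j ∈ Finset.range J, σ j * (g (ξ * z.1 - j) * h (ξ * z.2)) :=
    rfl
  rw [e, dx_sum hsm]
  funext z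
  simp only [gpat]
  rw [Finset.mul_sum]
  apply Finset.sum_congr rfl
  intro j _
  have h1 : Sm (fun z : Pl => ξ * z.1 - j) := ((Sm.const ξ).mul' Sm.fst).sub' (Sm.const _)
  have h2 : Sm (fun z : Pl => ξ * z.2) := (Sm.const ξ).mul' Sm.snd
  have g1 : Sm (fun z : Pl => g (ξ * z.1 - j)) := Sm.comp' hg.sm h1
  have g2 : Sm (fun z : Pl => h (ξ * z.2)) := Sm.comp' hh.sm h2
  rw [dx_const_mul_at _ (g1.mul' g2).differentiableAt,
    dx_mul_at g1.differentiableAt g2.differentiableAt,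
    dx_comp_at (hg.sm.differentiable (by norm_num) _) h1.differentiableAt,
    dx_comp_at (hh.sm.differentiable (by norm_num) _) h2.differentiableAt,
    dx_sub_at ((Sm.const ξ).mul' Sm.fst).differentiableAt (Sm.const _).differentiableAt,
    dx_const_mul_at _ Sm.fst.differentiableAt, dx_const_mul_at _ Sm.snd.differentiableAt,
    dx_fst, dx_snd, dx_const]
  ring

theorem gpat_dy {g h : ℝ → ℝ} (hg : Prof g) (hh : Prof h) (ξ : ℝ) (J : ℕ) (σ : ℕ → ℝ) :
    dy (gpat g h ξ J σ) = fun z => ξ * gpat g (deriv h) ξ J σ z := by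
  have hsm : ∀ j ∈ Finset.range J, Sm (fun z : Pl => σ j * (g (ξ * z.1 - j) * h (ξ * z.2))) := by
    intro j _
    apply (Sm.const _).mul'
    apply Sm.mul'
    · exact Sm.comp' (f := fun z => ξ * z.1 - j) hg.sm (((Sm.const ξ).mul' Sm.fst).sub' (Sm.const _))
    · exact Sm.comp' (f := fun z => ξ * z.2) hh.sm ((Sm.const ξ).mul' Sm.snd)
  have e : gpat g h ξ J σ = fun z => ∑ j ∈ Finset.range J, σ j * (g (ξ * z.1 - j) * h (ξ * z.2)) :=
    rfl
  rw [e, dy_sum hsm]
  funext z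
  simp only [gpat]
  rw [Finset.mul_sum]
  apply Finset.sum_congr rfl
  intro j _
  have h1 : Sm (fun z : Pl => ξ * z.1 - j) := ((Sm.const ξ).mul' Sm.fst).sub' (Sm.const _)
  have h2 : Sm (fun z : Pl => ξ * z.2) := (Sm.const ξ).mul' Sm.snd
  have g1 : Sm (fun z : Pl => g (ξ * z.1 - j)) := Sm.comp' hg.sm h1
  have g2 : Sm (fun z : Pl => h (ξ * z.2)) := Sm.comp' hh.sm h2
  rw [dy_const_mul_at _ (g1.mul' g2).differentiableAt,
    dy_mul_at g1.differentiableAt g2.differentiableAt,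
    dy_comp_at (hg.sm.differentiable (by norm_num) _) h1.differentiableAt,
    dy_comp_at (hh.sm.differentiable (by norm_num) _) h2.differentiableAt,
    dy_sub_at ((Sm.const ξ).mul' Sm.fst).differentiableAt (Sm.const _).differentiableAt,
    dy_const_mul_at _ Sm.fst.differentiableAt, dy_const_mul_at _ Sm.snd.differentiableAt,
    dy_fst, dy_snd, dy_const]
  ring

theorem gpat_Bd : ∀ (k : ℕ) (g h : ℝ → ℝ), Prof g → Prof h →
    ∃ K : ℝ, ∀ (ξ : ℝ) (J : ℕ) (σ : ℕ → ℝ), 1 ≤ ξ → (∀ j, |σ j| ≤ 1) →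
      Bd ξ k K (gpat g h ξ J σ) := by
  intro k
  induction k with
  | zero =>
    intro g h hg hh
    obtain ⟨Kg, hKg, bg⟩ := hg.bound
    obtain ⟨Kh, hKh, bh⟩ := hh.bound
    refine ⟨Kg * Kh, fun ξ J σ hξ hσ => ⟨gpat_smooth hg hh ξ J σ, fun w hw z => ?_⟩⟩
    have : w = [] := List.length_eq_zero_iff.1 (Nat.le_zero.1 hw)
    subst this
    simpa [Dw] using gpat_bound hg bg bh ξ J σ hσ z
  | succ k ih =>
    intro g h hg hh
    obtain ⟨Kg, hKg, bg⟩ := hg.bound
    obtain ⟨Kh, hKh, bh⟩ := hh.bound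
    obtain ⟨K1, h1⟩ := ih _ _ hg.deriv hh
    obtain ⟨K2, h2⟩ := ih _ _ hg hh.deriv
    refine ⟨max (Kg * Kh) (max K1 K2), fun ξ J σ hξ hσ => ?_⟩
    have hξ0 : 0 ≤ ξ := by linarith
    refine Bd.succ_of (gpat_smooth hg hh ξ J σ) ?_ ?_ ?_
    · intro z
      exact (gpat_bound hg bg bh ξ J σ hσ z).trans (le_max_left _ _)
    · refine (((h1 ξ J σ hξ hσ).const_mul ξ).congr (gpat_dx hg hh ξ J σ).symm).mono hξ le_rfl ?_
      rw [abs_of_nonneg hξ0, mul_comm]
      exact mul_le_mul_of_nonneg_right ((le_max_left _ _).trans (le_max_right _ _)) hξ0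
    · refine (((h2 ξ J σ hξ hσ).const_mul ξ).congr (gpat_dy hg hh ξ J σ).symm).mono hξ le_rfl ?_
      rw [abs_of_nonneg hξ0, mul_comm]
      exact mul_le_mul_of_nonneg_right ((le_max_right _ _).trans (le_max_right _ _)) hξ0

/-- the patterns are bounded in weighted `C^k`, uniformly in `J` -/
theorem pat_Bd (k : ℕ) : ∃ K : ℝ, ∀ (ξ : ℝ) (J : ℕ) (σ : ℕ → ℝ), 1 ≤ ξ → (∀ j, |σ j| ≤ 1) →
    Bd ξ k K (pat ξ J σ) :=
  gpat_Bd k psi psi prof_psi prof_psi

theorem gpat_NS {g h : ℝ → ℝ} (hg : Prof g) (hh : Prof h) (ξ : ℝ) (J : ℕ) (σ : ℕ → ℝ) (z : Pl)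
    (hz : z ∉ NS ξ J σ) : gpat g h ξ J σ z = 0 := by
  unfold gpat
  apply Finset.sum_eq_zero
  intro j hj
  by_cases hσ : σ j = 0
  · rw [hσ, zero_mul]
  by_cases h1 : |ξ * z.1 - j| ≤ 1 / 4
  · by_cases h2 : |ξ * z.2| ≤ 1 / 4
    · exact absurd ⟨j, Finset.mem_range.1 hj, hσ, h1, h2⟩ hz
    · rw [hh.supp _ (not_le.1 h2)]; ring
  · rw [hg.supp _ (not_le.1 h1)]; ring

theorem isClosed_NS (ξ : ℝ) (J : ℕ) (σ : ℕ → ℝ) : IsClosed (NS ξ J σ) := by
  classical
  have : NS ξ J σ = ⋃ j ∈ (Finset.range J).filter (fun j => σ j ≠ 0), bx ξ j := by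
    ext z
    simp [NS, Finset.mem_filter, and_assoc]
  rw [this]
  apply Set.Finite.isClosed_biUnion (Finset.finite_toSet _)
  intro j _
  have h1 : Continuous (fun z : Pl => |ξ * z.1 - j|) := by fun_prop
  have h2 : Continuous (fun z : Pl => |ξ * z.2|) := by fun_prop
  exact (isClosed_le h1 continuous_const).inter (isClosed_le h2 continuous_const)

/-- a property of germs: `f` vanishes near every point outside the boxes -/
theorem pat_eventually_zero (ξ : ℝ) (J : ℕ) (σ : ℕ → ℝ) (z : Pl) (hz : z ∉ NS ξ J σ) :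
    pat ξ J σ =ᶠ[𝓝 z] fun _ => 0 := by
  filter_upwards [(isClosed_NS ξ J σ).isOpen_compl.mem_nhds hz] with w hw
  exact gpat_NS prof_psi prof_psi ξ J σ w hw

end Crest.Agent.R220
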